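import Vale.Agent.P256.Shadow.Cover

/-!
Second order data of a form at a point, small limit lemmas, and the pieces at interior points.
-/

namespace Vale.Agent.P256.Shadow

open MvPolynomial Matrix Filter
open scoped Topology

variable {n d : ℕ} {p : MvPolynomial (Fin n) ℝ} {e x0 : Fin n → ℝ}

lemma pderiv_comm' (i j : Fin n) (P : MvPolynomial (Fin n) ℝ) :
    pderiv i (pderiv j P) = pderiv j (pderiv i P) := by
  classical
  induction P using MvPolynomial.induction_on with
  | C a => simp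
  | add P Q hP hQ => simp [hP, hQ]
  | mul_X P l hP =>
    have hc : ∀ a b : Fin n, pderiv a (pderiv b (X l : MvPolynomial (Fin n) ℝ)) = 0 := fun a b => by
      rw [pderiv_X]
      rcases eq_or_ne b l with rfl | hb <;> simp_all
    simp only [pderiv_mul, map_add, hP, hc]
    ring

/-- The Hessian of `p` at `x`. -/
noncomputable def hess (p : MvPolynomial (Fin n) ℝ) (x : Fin n → ℝ) : Matrix (Fin n) (Fin n) ℝ :=
  Matrix.of fun i j => eval x (pderiv i (pderiv j p))

lemma hess_symm (p : MvPolynomial (Fin n) ℝ) (x : Fin n → ℝ) : (hess p x).IsSymm := by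
  ext i j
  simp [hess, pderiv_comm' i j]

/-- The second derivative at `x`. -/
noncomputable def bh (p : MvPolynomial (Fin n) ℝ) (x u w : Fin n → ℝ) : ℝ := u ⬝ᵥ hess p x *ᵥ w

lemma bh_eq (p : MvPolynomial (Fin n) ℝ) (x u w : Fin n → ℝ) :
    eval x (Dv u (Dv w p)) = bh p x u w := by
  simp only [Dv, map_sum, map_mul, eval_C, pderiv_C_mul, bh, dotProduct, Matrix.mulVec, hess,
    Matrix.of_apply, Finset.mul_sum]
  exact Finset.sum_congr rfl fun i _ => Finset.sum_congr rfl fun j _ => by ring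

lemma bh_comm (p : MvPolynomial (Fin n) ℝ) (x u w : Fin n → ℝ) : bh p x u w = bh p x w u := by
  rw [bh, bh, dotProduct_mulVec, ← mulVec_transpose, (hess_symm p x).eq, dotProduct_comm]

lemma bh_add_left (p : MvPolynomial (Fin n) ℝ) (x u u' w : Fin n → ℝ) :
    bh p x (u + u') w = bh p x u w + bh p x u' w := by simp [bh, add_dotProduct]

lemma bh_add_right (p : MvPolynomial (Fin n) ℝ) (x u w w' : Fin n → ℝ) :
    bh p x u (w + w') = bh p x u w + bh p x u w' := by simp [bh, mulVec_add, dotProduct_add]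

lemma bh_smul_left (p : MvPolynomial (Fin n) ℝ) (x : Fin n → ℝ) (c : ℝ) (u w : Fin n → ℝ) :
    bh p x (c • u) w = c * bh p x u w := by simp [bh]

lemma bh_smul_right (p : MvPolynomial (Fin n) ℝ) (x : Fin n → ℝ) (c : ℝ) (u w : Fin n → ℝ) :
    bh p x u (c • w) = c * bh p x u w := by simp [bh, mulVec_smul]

lemma dv_eq_grad (p : MvPolynomial (Fin n) ℝ) (x w : Fin n → ℝ) :
    eval x (Dv w p) = w ⬝ᵥ fun i => eval x (pderiv i p) := by
  simp [Dv, dotProduct]

/-- The shift of `p` to `x0`. -/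
noncomputable def sh (p : MvPolynomial (Fin n) ℝ) (x0 : Fin n → ℝ) : MvPolynomial (Fin n) ℝ :=
  aeval (fun i => C (x0 i) + X i) p

lemma eval_sh (p : MvPolynomial (Fin n) ℝ) (x0 w : Fin n → ℝ) :
    eval w (sh p x0) = eval (x0 + w) p := by
  induction p using MvPolynomial.induction_on with
  | C a => simp [sh]
  | add P Q hP hQ => simp [sh] at *; simp [hP, hQ]
  | mul_X P i hP => simp [sh] at *; simp [hP]

lemma LP_sh (p : MvPolynomial (Fin n) ℝ) (x0 u : Fin n → ℝ) :
    LP (sh p x0) 0 u = LP p x0 u := by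
  induction p using MvPolynomial.induction_on with
  | C a => simp [sh]
  | add P Q hP hQ => simp [sh] at *; simp [hP, hQ]
  | mul_X P i hP => simp [sh] at *; simp [hP]

lemma exp_one (P : MvPolynomial (Fin n) ℝ) (z w : Fin n → ℝ) :
    ∃ R : ℝ → ℝ, Continuous R ∧ R 0 = eval z (Dv w P) ∧
      ∀ t, eval (z + t • w) P = eval z P + t * R t := by
  refine ⟨fun t => (LP P z w).divX.eval t, (LP P z w).divX.continuous, ?_, fun t => ?_⟩
  · show (LP P z w).divX.eval 0 = _
    rw [← Polynomial.coeff_zero_eq_eval_zero, Polynomial.coeff_divX, coeff_one_LP]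
  · have h := congrArg (Polynomial.eval t) (Polynomial.X_mul_divX_add (LP P z w))
    simp only [Polynomial.eval_add, Polynomial.eval_mul, Polynomial.eval_X, Polynomial.eval_C,
      coeff_zero_LP, eval_LP] at h
    linarith

lemma exp_two (P : MvPolynomial (Fin n) ℝ) (z w : Fin n → ℝ) :
    ∃ R : ℝ → ℝ, Continuous R ∧ 2 * R 0 = eval z (Dv w (Dv w P)) ∧
      ∀ t, eval (z + t • w) P = eval z P + t * eval z (Dv w P) + t ^ 2 * R t := by
  refine ⟨fun t => (LP P z w).divX.divX.eval t, (LP P z w).divX.divX.continuous, ?_, fun t => ?_⟩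
  · show 2 * (LP P z w).divX.divX.eval 0 = _
    rw [← Polynomial.coeff_zero_eq_eval_zero, Polynomial.coeff_divX, Polynomial.coeff_divX,
      coeff_two_LP]
  · have h := congrArg (Polynomial.eval t) (Polynomial.X_mul_divX_add (LP P z w))
    have h' := congrArg (Polynomial.eval t) (Polynomial.X_mul_divX_add (LP P z w).divX)
    simp only [Polynomial.eval_add, Polynomial.eval_mul, Polynomial.eval_X, Polynomial.eval_C,
      coeff_zero_LP, eval_LP, Polynomial.coeff_divX, zero_add, coeff_one_LP] at h h'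
    rw [← h'] at h
    linear_combination -h

lemma lim_nonneg {f : ℝ → ℝ} (hf : Continuous f) (h : ∀ᶠ t in 𝓝[>] (0 : ℝ), 0 ≤ f t) :
    0 ≤ f 0 :=
  ge_of_tendsto (hf.continuousWithinAt (s := Set.Ioi 0) (x := 0)) h

lemma ev_pos : ∀ᶠ t in 𝓝[>] (0 : ℝ), 0 < t := self_mem_nhdsWithin

lemma ev_of_lt {f g : ℝ → ℝ} (hf : Continuous f) (hg : Continuous g) (h : f 0 < g 0) :
    ∀ᶠ t in 𝓝[>] (0 : ℝ), f t < g t :=
  nhdsWithin_le_nhds ((isOpen_lt hf hg).mem_nhds h)

lemma add_mem_oc' (hp : p.IsHomogeneous d) (h : Hyperbolic p e) {a b : Fin n → ℝ}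
    (ha : a ∈ hypCone p e) (hb : b ∈ oc p e) : a + b ∈ oc p e := by
  have hc : Continuous fun t : ℝ => b - t • e := by fun_prop
  obtain ⟨t, ht, ht'⟩ := ((ev_pos).and (nhdsWithin_le_nhds
    (((isOpen_oc hp h).preimage hc).mem_nhds (show (0 : ℝ) ∈ _ by simpa using hb)))).exists
  have := add_mem_oc hp h ((mem_hypCone_iff hp).1 ha t ht) ht'
  have e1 : a + t • e + (b - t • e) = a + b := by abel
  rwa [e1] at this

/-- Boundary segments through `x0` orthogonal to `x0` are forbidden by strict convexity. -/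
lemma no_segment (hp : p.IsHomogeneous d) (h : Hyperbolic p e)
    (hstrict : ∀ x ∈ frontier (hypCone p e), ∀ y ∈ frontier (hypCone p e),
      (1 / 2 : ℝ) • (x + y) ∈ frontier (hypCone p e) → ¬ LinearIndependent ℝ ![x, y])
    (hx : x0 ≠ 0) (hxf : x0 ∈ frontier (hypCone p e)) {u : Fin n → ℝ} (hu0 : u ≠ 0)
    (hu : x0 ⬝ᵥ u = 0)
    (hseg : ∀ᶠ s in 𝓝[>] (0 : ℝ), x0 + s • u ∈ hypCone p e ∧ eval (x0 + s • u) p = 0) : False := by
  obtain ⟨r, hr, hball⟩ := (Filter.eventually_iff_exists_mem.1 hseg)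
  obtain ⟨δ, hδ, hsub⟩ := mem_nhdsGT_iff_exists_Ioo_subset.1 hr
  have hmem : ∀ s, 0 < s → s < δ → x0 + s • u ∈ frontier (hypCone p e) := fun s h1 h2 =>
    mem_frontier_of hp h (hball s (hsub ⟨h1, h2⟩)).1 (hball s (hsub ⟨h1, h2⟩)).2
  have hδ' : (0 : ℝ) < δ := hδ
  refine hstrict x0 hxf _ (hmem (δ / 2) (by linarith) (by linarith)) ?_ ?_
  · have : (1 / 2 : ℝ) • (x0 + (x0 + (δ / 2) • u)) = x0 + (δ / 4) • u := by module
    rw [this]
    exact hmem _ (by linarith) (by linarith)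
  · rw [LinearIndependent.pair_iff]
    intro a b hab
    have h1 := congrArg (fun z => u ⬝ᵥ z) hab
    simp only [dotProduct_add, dotProduct_smul, smul_eq_mul, dotProduct_zero,
      dotProduct_comm u x0, hu, mul_zero, zero_add] at h1
    have hb : b = 0 := by
      rcases mul_eq_zero.1 h1 with hb | hb
      · exact hb
      · exact absurd hb (mul_ne_zero (by linarith : δ / 2 ≠ 0) (dot_self_pos hu0).ne')
    refine ⟨?_, hb⟩
    rw [hb, zero_smul, add_zero, smul_eq_zero] at hab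
    exact hab.resolve_right hx

/-- Interior points have local lifts. -/
theorem piece_interior (hp : p.IsHomogeneous d) (h : Hyperbolic p e) (hx : x0 ≠ 0)
    (hxo : x0 ∈ oc p e) :
    ∃ S, Rep S ∧ S ⊆ hypCone p e ∧ ∃ U, IsOpen U ∧ x0 ∈ U ∧ hypCone p e ∩ U ⊆ S := by
  let G : Fin 1 → Fin 1 → MvPolynomial (Fin n) ℝ := fun _ _ => C 1 - ∑ i, X i * X i
  have hG : ∀ (v : Fin 1 → ℝ) w, eval w (quad G v) = v 0 ^ 2 * (1 - w ⬝ᵥ w) := fun v w => by
    simp [quad, G, dotProduct, sq]
  have hne : ∀ v : Fin 1 → ℝ, v ≠ 0 → v 0 ≠ 0 := fun v hv h0 => hv (funext fun i => by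
    rw [Subsingleton.elim i 0]; exact h0)
  have hev : ∀ᶠ w in 𝓝 (0 : Fin n → ℝ), x0 + w ∈ oc p e ∧ w ⬝ᵥ w < 1 := by
    have h1 : Continuous fun w : Fin n → ℝ => x0 + w := by fun_prop
    have h2 : ∀ᶠ w in 𝓝 (0 : Fin n → ℝ), x0 + w ∈ oc p e :=
      ((isOpen_oc hp h).preimage h1).mem_nhds (show x0 + 0 ∈ oc p e by simpa using hxo)
    have hc : ContinuousAt (fun w : Fin n → ℝ => w ⬝ᵥ w) 0 :=
      (continuous_id.dotProduct continuous_id).continuousAt
    exact h2.and (hc.eventually_lt_const (by simp))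
  obtain ⟨δ, hδ, hball⟩ := Metric.eventually_nhds_iff.1 hev
  refine local_piece hp h hx (oc_subset hp hxo) G (fun _ _ => rfl) (fun u v _ hu hv => ?_) hδ
    (fun w _ hw _ v => ?_) (fun w _ hw _ => hball (by simpa using hw) |>.1 0 le_rfl |> fun h => by
      simpa using h)
  · have e1 : LP (quad G v) 0 u =
        Polynomial.C (v 0 ^ 2) - Polynomial.C (v 0 ^ 2 * (u ⬝ᵥ u)) * Polynomial.X ^ 2 := by
      simp [quad, G, dotProduct, map_sum, Finset.sum_mul, Finset.mul_sum, sq, mul_sub]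
      refine Finset.sum_congr rfl fun i _ => ?_
      ring
    rw [e1, Polynomial.coeff_sub, Polynomial.coeff_C_mul, Polynomial.coeff_X_pow, if_pos rfl,
      Polynomial.coeff_C_of_ne_zero (by omega)]
    have := mul_pos (pow_pos (abs_pos.2 (hne v hv)) 2) (dot_self_pos hu)
    rw [sq_abs] at this
    linarith
  · rw [hG]
    exact mul_nonneg (sq_nonneg _) (by linarith [(hball (by simpa using hw) : _ ∧ _).2])

end Vale.Agent.P256.Shadow
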