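import Vale.Agent.P256.Shadow.Basic

/-!
Lifts from truncated moments, and the lift of one blow-up chart: the image of
`{(ρ, η) : ρ ≥ 0, G (ρ, η) ≥ 0}` near the origin under `(ρ, η) ↦ x0 + ρ (y0 + Pr η)`.
-/

namespace Vale.Agent.P256.Shadow

open MvPolynomial Matrix

variable {n N : ℕ}

/-- A shadow given by moments: `μ s` are multipliers of squares of affine polynomials, the
`g q` are polynomials with nonnegative mean and `out` is the output. -/
theorem moment_rep {S Q : Type} [Fintype S] [Fintype Q] (μ : S → MvPolynomial (Fin N) ℝ)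
    (g : Q → MvPolynomial (Fin N) ℝ) (out : Fin n → MvPolynomial (Fin N) ℝ) :
    ∃ R, Rep R ∧
      (∀ x ∈ R, ∃ L : MvPolynomial (Fin N) ℝ →ₗ[ℝ] ℝ, (∀ s c0 c, 0 ≤ L (μ s * aff c0 c ^ 2)) ∧
        (∀ q, 0 ≤ L (g q)) ∧ ∀ i, L (out i) = x i) ∧
      ∀ (c : ℝ) (z : Fin N → ℝ), 0 ≤ c → (∀ s, 0 ≤ eval z (μ s)) → (∀ q, 0 ≤ eval z (g q)) →
        (fun i => c * eval z (out i)) ∈ R := by
  classical
  let tst : S × Option (Fin N) → Option (Fin N) → MvPolynomial (Fin N) ℝ :=
    fun s b => μ s.1 * (hb s.2 * hb b)
  let A : Finset (Fin N →₀ ℕ) := (Finset.univ.image g ∪ Finset.univ.image out ∪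
    Finset.univ.image (fun x : (S × Option (Fin N)) × Option (Fin N) => tst x.1 x.2)).biUnion
    MvPolynomial.support
  let Mm : (↥A → ℝ) →ₗ[ℝ] Matrix (S × Option (Fin N)) (S × Option (Fin N)) ℝ :=
    { toFun := fun y => Matrix.of fun a b => if a.1 = b.1 then mom A y (tst a b.2) else 0
      map_add' := fun y z => by
        ext a b
        simp only [Matrix.of_apply, Matrix.add_apply, map_add, LinearMap.add_apply]
        split_ifs <;> simp
      map_smul' := fun c y => by
        ext a b
        simp only [Matrix.of_apply, Matrix.smul_apply, map_smul, LinearMap.smul_apply,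
          RingHom.id_apply]
        split_ifs <;> simp }
  let Dm : (↥A → ℝ) →ₗ[ℝ] Matrix Q Q ℝ :=
    diagonalLinearMap Q ℝ ℝ ∘ₗ LinearMap.pi fun q => (mom A).flip (g q)
  let P : (↥A → ℝ) →ₗ[ℝ] (Fin n → ℝ) := LinearMap.pi fun i => (mom A).flip (out i)
  have hMs : ∀ y, (Mm y).IsSymm := fun y => by
    ext a b
    show (if b.1 = a.1 then _ else 0) = if a.1 = b.1 then _ else 0
    rcases eq_or_ne a.1 b.1 with h | h
    · rw [if_pos h.symm, if_pos h]
      simp only [tst]
      rw [h, mul_comm (hb b.2)]
    · rw [if_neg h, if_neg (Ne.symm h)]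
  have hDs : ∀ y, (Dm y).IsSymm := fun _ => isSymm_diagonal _
  have hsq : ∀ s (w : Option (Fin N) → ℝ),
      μ s * (∑ a, C (w a) * hb a) ^ 2 = ∑ a, ∑ b, (w a * w b) • tst (s, a) b := fun s w => by
    rw [sq, Finset.sum_mul_sum, Finset.mul_sum]
    refine Finset.sum_congr rfl fun a _ => ?_
    rw [Finset.mul_sum]
    exact Finset.sum_congr rfl fun b _ => by simp only [tst, smul_eq_C_mul, map_mul]; ring
  have hquadM : ∀ y v, v ⬝ᵥ Mm y *ᵥ v =
      ∑ s, mom A y (μ s * (∑ a, C (v (s, a)) * hb a) ^ 2) := fun y v => by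
    simp only [dotProduct, Matrix.mulVec, Mm, LinearMap.coe_mk, AddHom.coe_mk, Matrix.of_apply,
      Fintype.sum_prod_type, hsq, map_sum, map_smul, smul_eq_mul]
    refine Finset.sum_congr rfl fun s _ => Finset.sum_congr rfl fun a _ => ?_
    rw [Finset.sum_eq_single s (fun s' _ h => by simp [h.symm])
      (fun h => absurd (Finset.mem_univ _) h), Finset.mul_sum]
    exact Finset.sum_congr rfl fun b _ => by rw [if_pos rfl]; ring
  refine ⟨{x | ∃ y, P y = x ∧ (blocks Mm Dm y).PosSemidef}, ⟨↥A, _, inferInstance, inferInstance,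
    P, blocks Mm Dm, blocks_symm hMs hDs, fun x => Iff.rfl⟩, ?_, ?_⟩
  · rintro x ⟨y, rfl, hy⟩
    obtain ⟨hM, hD⟩ := (psd_blocks (hMs y) (hDs y)).1 hy
    rw [psd_iff (hMs y)] at hM
    refine ⟨mom A y, fun s c0 c => ?_, fun q => ?_, fun i => rfl⟩
    · have h := hM (fun x => if x.1 = s then x.2.elim c0 c else 0)
      rw [hquadM, Finset.sum_eq_single s (fun s' _ hs => by simp [hs]) (fun h => absurd
        (Finset.mem_univ _) h)] at h
      simp only [if_true] at h
      rwa [← aff_eq] at h
    · exact posSemidef_diagonal_iff.1 hD q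
  · intro c z hc hμ hg
    have hy : ∀ f, (∃ q, f = g q) ∨ (∃ i, f = out i) ∨ (∃ s b, f = tst s b) →
        mom A (fun α => c * eval z (monomial (α : Fin N →₀ ℕ) 1)) f = c * eval z f := fun f hf => by
      refine eval_eq_mom ?_ c z
      refine Finset.subset_biUnion_of_mem MvPolynomial.support ?_
      rcases hf with ⟨i, rfl⟩ | ⟨i, rfl⟩ | ⟨s, b, rfl⟩ <;> simp
    set y : ↥A → ℝ := fun α => c * eval z (monomial (α : Fin N →₀ ℕ) 1) with hydef
    refine ⟨y, funext fun i => ?_, (psd_blocks (hMs y) (hDs y)).2
      ⟨(psd_iff (hMs y)).2 fun v => ?_, posSemidef_diagonal_iff.2 fun q => ?_⟩⟩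
    · exact hy _ (Or.inr (Or.inl ⟨i, rfl⟩))
    · rw [hquadM]
      refine Finset.sum_nonneg fun s _ => ?_
      have e : mom A y (μ s * (∑ a, C (v (s, a)) * hb a) ^ 2) =
          c * (eval z (μ s) * (∑ a, v (s, a) * eval z (hb a)) ^ 2) := by
        rw [hsq]
        simp only [map_sum, map_smul, smul_eq_mul, hy _ (Or.inr (Or.inr ⟨_, _, rfl⟩))]
        rw [sq, Finset.sum_mul_sum]
        simp only [tst, map_mul, Finset.mul_sum]
        exact Finset.sum_congr rfl fun a _ => Finset.sum_congr rfl fun b _ => by ring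
      rw [e]
      exact mul_nonneg hc (mul_nonneg (hμ s) (sq_nonneg _))
    · show 0 ≤ mom A y (g q)
      rw [hy _ (Or.inl ⟨q, rfl⟩)]
      exact mul_nonneg hc (hg q)

/-- A functional that is nonnegative on products of box constraints times affine squares behaves
like a measure on the box. -/
lemma lpos_of_prods {r : ℝ} {K : ℕ} {L : MvPolynomial (Fin N) ℝ →ₗ[ℝ] ℝ}
    (h : ∀ l : List (Fin N × Bool), l.length ≤ K → ∀ c0 c,
      0 ≤ L ((l.map (fac r)).prod * aff c0 c ^ 2)) : LPos r K L := by
  suffices hpos : ∀ K' f, BoxPos r K' f → ∀ l : List (Fin N × Bool), l.length + K' ≤ K →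
      ∀ c0 cc, 0 ≤ L ((l.map (fac r)).prod * f * aff c0 cc ^ 2) from
    fun f hf c0 cc => by simpa using hpos K f hf [] (by simp) c0 cc
  intro K' f hf
  induction hf with
  | @const K' a ha =>
    intro l hl c0 cc
    rw [show (l.map (fac r)).prod * C a * aff c0 cc ^ 2 = a • ((l.map (fac r)).prod * aff c0 cc ^ 2)
      by rw [smul_eq_C_mul]; ring, map_smul, smul_eq_mul]
    exact mul_nonneg ha (h l (by omega) c0 cc)
  | @fac K' f i b _ ih =>
    intro l hl c0 cc
    have := ih ((i, b) :: l) (by simp; omega) c0 cc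
    convert this using 2
    simp only [fac, List.map_cons, List.prod_cons]
    ring
  | add _ _ i1 i2 =>
    intro l hl c0 cc
    rw [mul_add, add_mul, map_add]
    exact add_nonneg (i1 l hl c0 cc) (i2 l hl c0 cc)

/-- The polynomial giving the `i`th coordinate of `x0 + ρ (y0 + Pr η)`. -/
noncomputable def chartOut (x0 y0 : Fin n → ℝ) (Pr : (Fin n → ℝ) →ₗ[ℝ] (Fin n → ℝ)) (i : Fin n) :
    MvPolynomial (Fin (n + 1)) ℝ :=
  C (x0 i) + X 0 * (C (y0 i) + ∑ l, C (Pr (Pi.single l 1) i) * X l.succ)

/-- The lift of a blow-up chart. -/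
theorem chart_lift (G : MvPolynomial (Fin (n + 1)) ℝ)
    (hd : (LP G 0 (Fin.cons 1 0)).coeff 1 < 0)
    (hη : ∀ η : Fin n → ℝ, η ≠ 0 → (LP G 0 (Fin.cons 0 η)).coeff 2 < 0) :
    ∃ r0 > 0, ∀ r : ℝ, 0 < r → r ≤ r0 →
      ∀ (x0 y0 : Fin n → ℝ) (Pr : (Fin n → ℝ) →ₗ[ℝ] (Fin n → ℝ)), ∃ S, Rep S ∧
        (∀ x ∈ S, ∃ (l ρ : ℝ) (η : Fin n → ℝ), 0 ≤ l ∧ 0 ≤ ρ ∧ ρ ≤ r ∧ (∀ i, |η i| ≤ r) ∧
          (ρ = 0 ∨ 0 ≤ eval (Fin.cons ρ η) G) ∧ x = l • (x0 + ρ • (y0 + Pr η))) ∧
        ∀ (l ρ : ℝ) (η : Fin n → ℝ), 0 ≤ l → 0 ≤ ρ → ρ ≤ r → (∀ i, |η i| ≤ r) →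
          0 ≤ eval (Fin.cons ρ η) G → l • (x0 + ρ • (y0 + Pr η)) ∈ S := by
  classical
  obtain ⟨T, hT, hT2⟩ := expansion G
  let Q : (Fin (n + 1) → ℝ) → ℝ := fun u => ∑ a, ∑ b, u a * u b * eval 0 (T a b)
  have hQ : ∀ u, Q u = (LP G 0 u).coeff 2 := hT2
  have hQc : Continuous Q := by fun_prop
  -- the quadratic part is negative definite up to a multiple of `u 0 ^ 2`
  obtain ⟨C0, hC0⟩ := exists_large (isCompact_sphere (0 : Fin (n + 1) → ℝ) 1) hQc
    (show Continuous fun u : Fin (n + 1) → ℝ => u 0 ^ 2 by fun_prop) (fun u => sq_nonneg _)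
    (fun u hu h0 => by
      rw [sq_eq_zero_iff] at h0
      have e : u = Fin.cons 0 (Fin.tail u) := by
        conv_lhs => rw [← Fin.cons_self_tail u, h0]
      rw [hQ, e]
      refine hη _ fun h => ?_
      rw [h] at e
      have : u = 0 := by
        rw [e]; funext i; cases i using Fin.cases <;> simp
      simp [this] at hu)
  obtain ⟨c, hc, hcQ⟩ : ∃ c > 0, ∀ u, Q u - C0 * u 0 ^ 2 ≤ -c * (u ⬝ᵥ u) := by
    have h := bihom_neg (n := n + 1) (k := 1)
      (Q := fun u v => (Q u - C0 * u 0 ^ 2) * v 0 ^ 2)
      ((((hQc.comp continuous_fst).sub (continuous_const.mul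
        (((continuous_apply (0 : Fin (n + 1))).comp continuous_fst).pow 2))).mul
          (((continuous_apply (0 : Fin 1)).comp continuous_snd).pow 2)))
      (fun a b u v => by
        have : Q (a • u) = a ^ 2 * Q u := by
          simp only [Q, Pi.smul_apply, smul_eq_mul, Finset.mul_sum]
          exact Finset.sum_congr rfl fun i _ => Finset.sum_congr rfl fun j _ => by ring
        simp only [this, Pi.smul_apply, smul_eq_mul]
        ring)
      (fun u v hu hv => by
        have hv0 : v 0 ≠ 0 := fun h => hv (funext fun i => by rw [Subsingleton.elim i 0]; exact h)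
        have hu' : 0 < ‖u‖ := norm_pos_iff.2 hu
        have h1 := hC0 (‖u‖⁻¹ • u) (by simp [norm_smul, hu'.ne'])
        have e : Q (‖u‖⁻¹ • u) - C0 * (‖u‖⁻¹ • u) 0 ^ 2 =
            ‖u‖⁻¹ ^ 2 * (Q u - C0 * u 0 ^ 2) := by
          simp only [Q, Pi.smul_apply, smul_eq_mul, mul_sub, Finset.mul_sum]
          congr 1
          · exact Finset.sum_congr rfl fun i _ => Finset.sum_congr rfl fun j _ => by ring
          · ring
        rw [e] at h1
        have h2 : Q u - C0 * u 0 ^ 2 < 0 := by
          by_contra hge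
          exact absurd h1 (not_lt.2 (mul_nonneg (sq_nonneg _) (not_lt.1 hge)))
        exact mul_neg_of_neg_of_pos h2 (by positivity))
    obtain ⟨c, hc, hle⟩ := h
    exact ⟨c, hc, fun u => by simpa [dotProduct] using hle u (fun _ => 1)⟩
  set d0 := (LP G 0 (Fin.cons 1 0)).coeff 1 with hd0
  have hd0' : d0 = eval 0 (pderiv 0 G) := by
    rw [hd0, coeff_one_LP]
    simp [Dv, Fin.sum_univ_succ]
  choose KT hKT using fun a b => phi_small (T a b)
  set ε : ℝ := c / ((n : ℝ) + 1) with hε
  have hε0 : 0 < ε := by positivity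
  choose R hR0 hRb using fun a b => hKT a b ε hε0
  obtain ⟨r1, hr1, hgrad⟩ := Metric.eventually_nhds_iff.1
    ((MvPolynomial.continuous_eval (pderiv 0 G)).continuousAt.eventually_lt_const
      (show eval (0 : Fin (n + 1) → ℝ) (pderiv 0 G) < d0 / 2 by rw [← hd0']; linarith))
  let Rs := insert (min (r1 / 2) (-(d0 / 2) / ((C0 : ℝ) + 1)))
    (Finset.univ.image fun x : Fin (n + 1) × Fin (n + 1) => R x.1 x.2)
  refine ⟨Rs.min' (Finset.insert_nonempty _ _), ?_, fun r hr hle x0 y0 Pr => ?_⟩
  · refine (Finset.lt_min'_iff _ _).2 fun y hy => ?_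
    rcases Finset.mem_insert.1 hy with rfl | hy
    · exact lt_min (half_pos hr1) (div_pos (by linarith) (by positivity))
    · obtain ⟨x, -, rfl⟩ := Finset.mem_image.1 hy; exact hR0 _ _
  have hr1' : r < r1 ∧ (C0 : ℝ) * r ≤ -(d0 / 2) := by
    have h := hle.trans (Finset.min'_le _ _ (Finset.mem_insert_self _ _))
    refine ⟨lt_of_le_of_lt (h.trans (min_le_left _ _)) (half_lt_self hr1), ?_⟩
    have h2 := h.trans (min_le_right _ _)
    rw [le_div_iff₀ (by positivity)] at h2
    linarith [mul_comm r (C0 : ℝ)]
  set K := ∑ a, ∑ b, KT a b + 1 with hK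
  let S := Bool × Σ len : Fin (K + 1), (Fin len → Fin (n + 1) × Bool)
  let μ : S → MvPolynomial (Fin (n + 1)) ℝ := fun s =>
    (if s.1 then X 0 else 1) * ((List.ofFn s.2.2).map (fac r)).prod
  obtain ⟨S', hS', hsound, hcomp⟩ :=
    moment_rep μ (fun _ : Unit => X 0 * G) (chartOut x0 y0 Pr)
  refine ⟨S', hS', fun x hx => ?_, fun l ρ η hl hρ hρr hbox hG => ?_⟩
  · obtain ⟨L, hμ, hg, hout⟩ := hsound x hx
    have hprods : ∀ (b : Bool) (l : List (Fin (n + 1) × Bool)), l.length ≤ K → ∀ c0 c,
        0 ≤ L ((if b then X 0 else 1) * (l.map (fac r)).prod * aff c0 c ^ 2) := by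
      intro b l hl c0 c
      have := hμ (b, ⟨⟨l.length, by omega⟩, l.get⟩) c0 c
      simpa only [μ, List.ofFn_get] using this
    have hP : LPos r K L := lpos_of_prods fun l hl c0 c => by simpa using hprods false l hl c0 c
    set L' := L.comp (LinearMap.mulLeft ℝ (X 0)) with hL'
    have hP' : LPos r K L' := lpos_of_prods fun l hl c0 c => by
      simpa [L', mul_assoc] using hprods true l hl c0 c
    have e1 : aff (n := n + 1) 1 0 = 1 := by simp [aff]
    have hL1 : 0 ≤ L 1 := by simpa [e1] using hprods false [] (by simp) 1 0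
    have hLρ : 0 ≤ L (X 0) := by simpa [e1] using hprods true [] (by simp) 1 0
    have hfacs : ∀ (b : Bool) (j : Fin (n + 1)),
        |L ((if b then X 0 else 1) * X j)| ≤ r * L (if b then X 0 else 1) := fun b j => by
      have h1 := hprods b [(j, true)] (by simp [K]) 1 0
      have h2 := hprods b [(j, false)] (by simp [K]) 1 0
      simp only [e1, fac, List.map_cons, List.map_nil, List.prod_cons, List.prod_nil, one_pow,
        mul_one, if_true, Bool.false_eq_true, if_false, mul_add, mul_neg, map_add, map_neg] at h1 h2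
      rw [mul_comm _ (C r), ← smul_eq_C_mul, map_smul, smul_eq_mul] at h1 h2
      rw [abs_le]
      constructor <;> linarith
    have hx' : ∀ i, x i = L 1 * x0 i + L (X 0) * y0 i +
        ∑ j, Pr (Pi.single j 1) i * L (X 0 * X j.succ) := fun i => by
      rw [← hout i, chartOut, mul_add, Finset.mul_sum, map_add, map_add, map_sum]
      have e2 : ∀ (a : ℝ) (f : MvPolynomial (Fin (n + 1)) ℝ), L (C a * f) = a * L f := fun a f => by
        rw [← smul_eq_C_mul, map_smul, smul_eq_mul]
      rw [← mul_one (C (x0 i)), e2, mul_comm (X 0) (C (y0 i)), e2]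
      simp only [mul_left_comm (X 0 : MvPolynomial (Fin (n + 1)) ℝ), e2]
      ring
    rcases hLρ.lt_or_eq with hR | hR
    · have hL1' : 0 < L 1 := by
        have := hfacs false 0
        simp only [Bool.false_eq_true, if_false, one_mul] at this
        rcases hL1.lt_or_eq with h | h
        · exact h
        · rw [← h, mul_zero] at this
          linarith [le_abs_self (L (X 0))]
      set ρ := L (X 0) / L 1 with hρdef
      set η : Fin n → ℝ := fun j => L (X 0 * X j.succ) / L (X 0) with hηdef
      set m : Fin (n + 1) → ℝ := Fin.cons ρ η with hm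
      have hρr : ρ ≤ r := by
        have := hfacs false 0
        simp only [Bool.false_eq_true, if_false, one_mul] at this
        rw [hρdef, div_le_iff₀ hL1']
        linarith [le_abs_self (L (X 0))]
      have hρ0 : 0 < ρ := div_pos hR hL1'
      have hηr : ∀ j, |η j| ≤ r := fun j => by
        have := hfacs true j.succ
        simp only [if_true] at this
        simp only [hηdef, abs_div, abs_of_pos hR]
        rwa [div_le_iff₀ hR]
      have hmr : ∀ a, |m a| ≤ r := fun a => by
        cases a using Fin.cases with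
        | zero => simpa [m, abs_of_pos hρ0] using hρr
        | succ j => simpa [m] using hηr j
      refine ⟨L 1, ρ, η, hL1, hρ0.le, hρr, hηr, Or.inr ?_, funext fun i => ?_⟩
      · -- the constraint at the moments
        let Γ : Fin (n + 1) → Fin (n + 1) → ℝ := fun a b => L' (wv m a * wv m b)
        have hw0 : L (wv m 0) = 0 := by
          rw [wv, map_sub, show (C (m 0) : MvPolynomial (Fin (n + 1)) ℝ) = m 0 • 1 by
            simp [smul_eq_C_mul], map_smul, smul_eq_mul]
          simp [m, hρdef, hL1'.ne']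
        have hA0 : L' (wv m 0) = L (wv m 0 * wv m 0) := by
          have e : X 0 * wv m 0 = wv m 0 * wv m 0 + m 0 • wv m 0 := by
            rw [smul_eq_C_mul]; simp only [wv]; ring
          simp [L', e, hw0]
        have hAs : ∀ j : Fin n, L' (wv m j.succ) = 0 := fun j => by
          have e : X 0 * wv m j.succ = X 0 * X j.succ - m j.succ • X 0 := by
            rw [smul_eq_C_mul]; simp only [wv]; ring
          simp only [L', LinearMap.comp_apply, LinearMap.mulLeft_apply, e, map_sub, map_smul]
          simp [m, hηdef, hR.ne']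
        have hA : 0 ≤ L (wv m 0 * wv m 0) := by
          have := hP.gram m (Pi.single 0 1)
          simpa [Pi.single_apply] using this
        have hΓ00 : Γ 0 0 ≤ r * L (wv m 0 * wv m 0) := by
          have hf : BoxPos r K (fac r ((0 : Fin (n + 1)), false)) := by
            have := (BoxPos.fac (0 : Fin (n + 1)) false
              (BoxPos.const (n := n + 1) (r := r) (K := 0) zero_le_one)).mono
                (show 0 + 1 ≤ K by omega)
            simpa [fac] using this
          have := hP.comb m hf (Pi.single 0 1)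
          simp only [Pi.single_apply, ite_mul, one_mul, zero_mul, mul_ite, mul_zero, mul_one,
            Finset.sum_ite_eq', Finset.mem_univ, if_true, fac, Bool.false_eq_true, if_false,
            add_mul, neg_mul, map_add, map_neg, ← smul_eq_C_mul, map_smul, smul_eq_mul] at this
          simp only [Γ, L', LinearMap.comp_apply, LinearMap.mulLeft_apply]
          linarith
        have hΓd : ∀ a, 0 ≤ Γ a a := fun a => by
          have := hP'.gram m (Pi.single a 1)
          simpa [Pi.single_apply] using this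
        have hpert : ∀ a b, L' (wv m a * wv m b * phi m (T a b)) ≤
            eval 0 (T a b) * Γ a b + ε / 2 * (Γ a a + Γ b b) := fun a b => by
          have hD : Bd r K ε (phi m (T a b) - C (eval 0 (T a b))) := by
            refine (hRb a b r hr (hle.trans (Finset.min'_le _ _ (Finset.mem_insert_of_mem
              (Finset.mem_image.2 ⟨(a, b), Finset.mem_univ _, rfl⟩)))) m hmr).mono ?_ le_rfl
            refine le_trans ?_ (Nat.le_succ _)
            refine le_trans ?_ (Finset.single_le_sum (fun _ _ => Nat.zero_le _) (Finset.mem_univ a))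
            exact Finset.single_le_sum (f := fun b => KT a b) (fun _ _ => Nat.zero_le _)
              (Finset.mem_univ b)
          have h := (abs_le.1 (hP'.pert m hD a b)).2
          rw [mul_sub, map_sub, mul_comm (wv m a * wv m b) (C _), ← smul_eq_C_mul, map_smul,
            smul_eq_mul] at h
          linarith
        let M : Matrix (Fin (n + 1)) (Fin (n + 1)) ℝ := Matrix.of fun a b =>
          -((eval 0 (T a b) + eval 0 (T b a)) / 2) +
            ((if a = 0 then if b = 0 then (C0 : ℝ) else 0 else 0) - if a = b then c else 0)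
        have hM : M.PosSemidef := by
          refine Matrix.PosSemidef.of_dotProduct_mulVec_nonneg ?_ fun u => ?_
          · ext a b
            simp only [M, Matrix.conjTranspose_apply, Matrix.of_apply, star_trivial]
            rcases eq_or_ne a b with rfl | hab
            · rfl
            · rw [if_neg hab, if_neg hab.symm]
              rcases eq_or_ne a 0 with rfl | ha
              · simp [hab.symm, add_comm]
              · simp [ha, add_comm]
          · have e : u ⬝ᵥ M *ᵥ u = -(Q u - C0 * u 0 ^ 2) - c * (u ⬝ᵥ u) := by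
              simp only [dotProduct, Matrix.mulVec, M, Matrix.of_apply, Q, add_mul, sub_mul,
                mul_add, mul_sub, neg_mul, mul_neg, Finset.mul_sum, Finset.sum_add_distrib,
                Finset.sum_sub_distrib, Finset.sum_neg_distrib, ite_mul, mul_ite, zero_mul,
                mul_zero, Finset.sum_ite_eq, Finset.sum_ite_eq', Finset.mem_univ, if_true,
                Finset.sum_ite_irrel, Finset.sum_const_zero]
              have e1 : ∑ a, ∑ b, u a * ((eval 0 (T a b) + eval 0 (T b a)) / 2 * u b) =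
                  ∑ a, ∑ b, u a * u b * eval 0 (T a b) := by
                have : ∀ a b, u a * ((eval 0 (T a b) + eval 0 (T b a)) / 2 * u b) =
                    u a * u b * eval 0 (T a b) / 2 + u b * u a * eval 0 (T b a) / 2 := fun a b => by
                  ring
                simp only [this, Finset.sum_add_distrib]
                rw [Finset.sum_comm (f := fun a b => u b * u a * eval 0 (T b a) / 2)]
                simp only [← Finset.sum_add_distrib, add_halves]
              have e2 : ∑ a, u a * (c * u a) = ∑ a, c * (u a * u a) :=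
                Finset.sum_congr rfl fun a _ => by ring
              rw [e1, e2]
              ring
            rw [star_trivial, e]
            linarith [hcQ u]
        obtain ⟨F, hF⟩ := Vale.Agent.P256.exists_factor hM
        have hMΓ : 0 ≤ ∑ a, ∑ b, M a b * Γ a b := by
          have : ∑ a, ∑ b, M a b * Γ a b = ∑ l, ∑ a, ∑ b, F l a * F l b * Γ a b := by
            simp only [hF, Matrix.mul_apply, Matrix.transpose_apply, Finset.sum_mul]
            rw [Finset.sum_congr rfl fun a _ => Finset.sum_comm, Finset.sum_comm]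
          rw [this]
          exact Finset.sum_nonneg fun l _ => hP'.gram m (F l)
        have hsym : ∀ a b, Γ a b = Γ b a := fun a b => by simp only [Γ, mul_comm]
        have hMe : ∑ a, ∑ b, M a b * Γ a b =
            -(∑ a, ∑ b, eval 0 (T a b) * Γ a b) + (C0 * Γ 0 0 - c * ∑ a, Γ a a) := by
          simp only [M, Matrix.of_apply, add_mul, sub_mul, neg_mul, Finset.sum_add_distrib,
            Finset.sum_sub_distrib, Finset.sum_neg_distrib, ite_mul, zero_mul, Finset.mul_sum,
            Finset.sum_ite_eq, Finset.sum_ite_eq', Finset.mem_univ, if_true, Finset.sum_ite_irrel,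
            Finset.sum_const_zero]
          congr 2
          have e1 : ∀ a b, (eval 0 (T a b) + eval 0 (T b a)) / 2 * Γ a b =
              eval 0 (T a b) * Γ a b / 2 + eval 0 (T b a) * Γ b a / 2 := fun a b => by
            rw [hsym b a]; ring
          simp only [e1, Finset.sum_add_distrib]
          rw [Finset.sum_comm (f := fun a b => eval 0 (T b a) * Γ b a / 2)]
          simp only [← Finset.sum_add_distrib, add_halves]
        have hTsum : ∑ a, ∑ b, L' (wv m a * wv m b * phi m (T a b)) ≤ C0 * Γ 0 0 := by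
          have h1 : ∑ a, ∑ b, L' (wv m a * wv m b * phi m (T a b)) ≤
              ∑ a, ∑ b, (eval 0 (T a b) * Γ a b + ε / 2 * (Γ a a + Γ b b)) :=
            Finset.sum_le_sum fun a _ => Finset.sum_le_sum fun b _ => hpert a b
          have h2 : ∑ a : Fin (n + 1), ∑ b : Fin (n + 1), ε / 2 * (Γ a a + Γ b b) =
              ε * ((n : ℝ) + 1) * ∑ a, Γ a a := by
            simp [mul_add, Finset.sum_add_distrib, ← Finset.mul_sum]
            ring
          have h3 : ε * ((n : ℝ) + 1) = c := div_mul_cancel₀ _ (by positivity)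
          simp only [Finset.sum_add_distrib (f := fun b => eval 0 (T _ b) * Γ _ b),
            Finset.sum_add_distrib] at h1
          rw [h2, h3] at h1
          rw [hMe] at hMΓ
          linarith
        have hlin : ∑ a, eval m (pderiv a G) * L' (wv m a) ≤
            d0 / 2 * L (wv m 0 * wv m 0) := by
          rw [Fin.sum_univ_succ, hA0]
          simp only [hAs, mul_zero, Finset.sum_const_zero, add_zero]
          refine mul_le_mul_of_nonneg_right (le_of_lt (hgrad ?_)) hA
          rw [dist_pi_lt_iff hr1]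
          intro a
          simpa [Real.dist_eq] using lt_of_le_of_lt (hmr a) hr1'.1
        have hG0 : 0 ≤ L' G := by simpa [L'] using hg ()
        have hexp : L' G = eval m G * L (X 0) + ∑ a, eval m (pderiv a G) * L' (wv m a) +
            ∑ a, ∑ b, L' (wv m a * wv m b * phi m (T a b)) := by
          conv_lhs => rw [hT m]
          simp only [map_add, map_sum, ← smul_eq_C_mul, map_smul, smul_eq_mul]
          rw [show (C (eval m G) : MvPolynomial (Fin (n + 1)) ℝ) = eval m G • 1 by
            simp [smul_eq_C_mul], map_smul, smul_eq_mul]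
          simp [L']
        have hCr : (C0 : ℝ) * Γ 0 0 ≤ -(d0 / 2) * L (wv m 0 * wv m 0) := by
          refine (mul_le_mul_of_nonneg_left hΓ00 (Nat.cast_nonneg C0)).trans ?_
          rw [← mul_assoc]
          exact mul_le_mul_of_nonneg_right hr1'.2 hA
        exact (mul_nonneg_iff_of_pos_right hR).1 (by linarith)
      · rw [hx' i, Pi.smul_apply, Pi.add_apply, Pi.smul_apply, Pi.add_apply,
          ← pull_apply_eq Pr η i]
        simp only [smul_eq_mul, mul_add, Finset.mul_sum, hρdef, hηdef]
        rw [add_assoc]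
        congr 1
        congr 1
        · field_simp
        · refine Finset.sum_congr rfl fun j _ => ?_
          field_simp
    · refine ⟨L 1, 0, 0, hL1, le_rfl, hr.le, fun i => by simpa using hr.le, Or.inl rfl,
        funext fun i => ?_⟩
      have hz : ∀ j : Fin n, L (X 0 * X j.succ) = 0 := fun j => by
        have := hfacs true j.succ
        simp only [if_true] at this
        rw [← hR, mul_zero] at this
        exact abs_nonpos_iff.1 this
      simp [hx' i, hz, ← hR]
  · have hz : ∀ a, |(Fin.cons ρ η : Fin (n + 1) → ℝ) a| ≤ r := fun a => by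
      cases a using Fin.cases with
      | zero => simpa [abs_of_nonneg hρ] using hρr
      | succ j => simpa using hbox j
    have := hcomp l (Fin.cons ρ η) hl (fun s => ?_) (fun _ => by simpa using mul_nonneg hρ hG)
    · convert this using 1
      funext i
      simp [chartOut, ← pull_apply_eq Pr η i, mul_add]
    · simp only [μ, map_mul, map_list_prod]
      refine mul_nonneg (by rcases s.1 <;> simp [hρ]) (List.prod_nonneg fun v hv => ?_)
      simp only [List.map_map, List.mem_map] at hv
      obtain ⟨⟨i, b⟩, -, rfl⟩ := hv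
      have := abs_le.1 (hz i)
      cases b <;> simp [fac] <;> linarith

end Vale.Agent.P256.Shadow
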