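import Mathlib

/-!
Restrictions of a multivariate polynomial to a line, and real-rooted univariate polynomials:
the two Newton bounds used for the curvature of hyperbolicity cones.
-/

namespace Vale.Agent.P256.Shadow

open MvPolynomial

variable {K : Type*} [CommRing K] {n : ℕ}

/-- The derivation in the constant direction `u`. -/
noncomputable def Dv (u : Fin n → K) (P : MvPolynomial (Fin n) K) : MvPolynomial (Fin n) K :=
  ∑ i, C (u i) * pderiv i P

/-- The polynomial `s ↦ P (z + s u)`. -/
noncomputable def LP (P : MvPolynomial (Fin n) K) (z u : Fin n → K) : Polynomial K :=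
  aeval (fun i => Polynomial.C (z i) + Polynomial.C (u i) * Polynomial.X) P

@[simp] lemma LP_C (a : K) (z u : Fin n → K) : LP (C a) z u = Polynomial.C a := by
  simp [LP]

@[simp] lemma LP_X (i : Fin n) (z u : Fin n → K) :
    LP (X i) z u = Polynomial.C (z i) + Polynomial.C (u i) * Polynomial.X := by
  simp [LP]

@[simp] lemma LP_add (P Q : MvPolynomial (Fin n) K) (z u : Fin n → K) :
    LP (P + Q) z u = LP P z u + LP Q z u := by simp [LP]

@[simp] lemma LP_sub (P Q : MvPolynomial (Fin n) K) (z u : Fin n → K) :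
    LP (P - Q) z u = LP P z u - LP Q z u := by simp [LP]

@[simp] lemma LP_mul (P Q : MvPolynomial (Fin n) K) (z u : Fin n → K) :
    LP (P * Q) z u = LP P z u * LP Q z u := by simp [LP]

@[simp] lemma LP_sum {ι : Type*} (s : Finset ι) (P : ι → MvPolynomial (Fin n) K)
    (z u : Fin n → K) : LP (∑ i ∈ s, P i) z u = ∑ i ∈ s, LP (P i) z u := by simp [LP]

lemma eval_LP (P : MvPolynomial (Fin n) K) (z u : Fin n → K) (s : K) :
    (LP P z u).eval s = eval (z + s • u) P := by
  induction P using MvPolynomial.induction_on with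
  | C a => simp
  | add P Q hP hQ => simp [hP, hQ]
  | mul_X P i hP => simp [hP]; ring

lemma derivative_LP (P : MvPolynomial (Fin n) K) (z u : Fin n → K) :
    Polynomial.derivative (LP P z u) = LP (Dv u P) z u := by
  classical
  induction P using MvPolynomial.induction_on with
  | C a => simp [Dv, LP]
  | add P Q hP hQ => simp [Dv, hP, hQ, mul_add, Finset.sum_add_distrib]
  | mul_X P i hP =>
    have e : Dv u (P * X i) = Dv u P * X i + P * C (u i) := by
      simp only [Dv, Finset.sum_mul]
      rw [show P * C (u i) = ∑ j, if j = i then P * C (u i) else 0 by simp,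
        ← Finset.sum_add_distrib]
      refine Finset.sum_congr rfl fun j _ => ?_
      rcases eq_or_ne j i with rfl | h
      · simp; ring
      · simp [pderiv_X_of_ne h.symm, h]; ring
    rw [e]
    simp [Polynomial.derivative_mul, hP]

lemma coeff_zero_LP (P : MvPolynomial (Fin n) K) (z u : Fin n → K) :
    (LP P z u).coeff 0 = eval z P := by
  simp [Polynomial.coeff_zero_eq_eval_zero, eval_LP]

lemma coeff_one_LP (P : MvPolynomial (Fin n) K) (z u : Fin n → K) :
    (LP P z u).coeff 1 = eval z (Dv u P) := by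
  have h := coeff_zero_LP (Dv u P) z u
  rw [← derivative_LP, Polynomial.coeff_derivative] at h
  simpa using h

lemma coeff_two_LP (P : MvPolynomial (Fin n) K) (z u : Fin n → K) :
    2 * (LP P z u).coeff 2 = eval z (Dv u (Dv u P)) := by
  have h := coeff_one_LP (Dv u P) z u
  rw [← derivative_LP, Polynomial.coeff_derivative] at h
  norm_num at h
  rw [← h]; ring

lemma natDegree_LP_le {P : MvPolynomial (Fin n) K} {d : ℕ} (h : P.IsHomogeneous d)
    (z u : Fin n → K) : (LP P z u).natDegree ≤ d ∧ (LP P z u).coeff d = eval u P := by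
  classical
  have key : ∀ c ∈ P.support, (LP (monomial c (coeff c P)) z u).natDegree ≤ d ∧
      (LP (monomial c (coeff c P)) z u).coeff d = eval u (monomial c (coeff c P)) := by
    intro c hc
    have hd : ∑ i, c i = d := by
      have h1 := h (MvPolynomial.mem_support_iff.mp hc)
      rwa [Finsupp.weight_apply, Finsupp.sum_fintype _ _ (fun _ => by simp), Finset.sum_congr rfl
        (fun i _ => show c i • (1 : Fin n → ℕ) i = c i by simp)] at h1
    have hb : ∀ i, ((Polynomial.C (z i) + Polynomial.C (u i) * Polynomial.X) ^ c i).natDegree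
        ≤ c i := fun i => by
      refine Polynomial.natDegree_pow_le.trans ?_
      calc c i * _ ≤ c i * 1 := Nat.mul_le_mul_left _
            ((Polynomial.natDegree_add_le _ _).trans (max_le (by simp)
              (Polynomial.natDegree_C_mul_le _ _ |>.trans Polynomial.natDegree_X_le)))
        _ = c i := mul_one _
    have e : LP (monomial c (coeff c P)) z u = Polynomial.C (coeff c P) *
        ∏ i, (Polynomial.C (z i) + Polynomial.C (u i) * Polynomial.X) ^ c i := by
      rw [LP, aeval_monomial, Finsupp.prod_fintype _ _ (fun _ => by simp),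
        Polynomial.algebraMap_eq]
    have hp : (∏ i, (Polynomial.C (z i) + Polynomial.C (u i) * Polynomial.X) ^ c i).natDegree
        ≤ d := by
      refine (Polynomial.natDegree_prod_le _ _).trans ?_
      exact hd ▸ Finset.sum_le_sum fun i _ => hb i
    have hpc : (∏ i, (Polynomial.C (z i) + Polynomial.C (u i) * Polynomial.X) ^ c i).coeff d
        = ∏ i, u i ^ c i := by
      have : ∀ s : Finset (Fin n),
          (∏ i ∈ s, (Polynomial.C (z i) + Polynomial.C (u i) * Polynomial.X) ^ c i).coeff
            (∑ i ∈ s, c i) = ∏ i ∈ s, u i ^ c i ∧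
          (∏ i ∈ s, (Polynomial.C (z i) + Polynomial.C (u i) * Polynomial.X) ^ c i).natDegree
            ≤ ∑ i ∈ s, c i := by
        intro s
        induction s using Finset.induction with
        | empty => simp
        | @insert j s hj ih =>
          rw [Finset.prod_insert hj, Finset.sum_insert hj, Finset.prod_insert hj]
          refine ⟨?_, Polynomial.natDegree_mul_le.trans (add_le_add (hb j) ih.2)⟩
          rw [Polynomial.coeff_mul_add_eq_of_natDegree_le (hb j) ih.2, ih.1]
          congr 1
          have := Polynomial.coeff_pow_of_natDegree_le (m := c j) (n := 1)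
            (p := Polynomial.C (z j) + Polynomial.C (u j) * Polynomial.X)
            ((Polynomial.natDegree_add_le _ _).trans (max_le (by simp)
              (Polynomial.natDegree_C_mul_le _ _ |>.trans Polynomial.natDegree_X_le)))
          rw [mul_one] at this
          rw [this]
          simp
      exact hd ▸ (this Finset.univ).1
    rw [e]
    refine ⟨Polynomial.natDegree_C_mul_le _ _ |>.trans hp, ?_⟩
    rw [Polynomial.coeff_C_mul, hpc, eval_monomial, Finsupp.prod_fintype _ _ (fun _ => by simp)]
  conv => enter [1, 1, 1]; rw [P.as_sum]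
  conv => enter [2, 1, 1, 1]; rw [P.as_sum]
  conv => enter [2, 2]; rw [P.as_sum]
  rw [LP_sum, Polynomial.finsetSum_coeff, map_sum]
  exact ⟨Polynomial.natDegree_sum_le_of_forall_le _ _ fun c hc => (key c hc).1,
    Finset.sum_congr rfl fun c hc => (key c hc).2⟩

/-! ### Real-rooted polynomials -/

/-- All complex roots are real. -/
def RR (q : Polynomial ℝ) : Prop := ∀ z : ℂ, Polynomial.aeval z q = 0 → z.im = 0

lemma RR.splits {q : Polynomial ℝ} (h : RR q) : q.Splits := by
  refine Polynomial.Splits.of_splits_map (algebraMap ℝ ℂ) (IsAlgClosed.splits _) fun z hz => ?_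
  have hz' : Polynomial.aeval z q = 0 := by
    rw [Polynomial.mem_roots'] at hz
    rw [Polynomial.aeval_def, ← Polynomial.eval_map]
    exact hz.2
  exact ⟨z.re, Complex.ext (by simp) (by simp [h z hz'])⟩

lemma splits_derivative {q : Polynomial ℝ} (h : q.Splits) :
    (Polynomial.derivative q).Splits := by
  rw [Polynomial.splits_iff_card_roots] at h ⊢
  have h1 := Polynomial.card_roots_le_derivative q
  have h2 := Polynomial.card_roots' (Polynomial.derivative q)
  have h3 := Polynomial.natDegree_derivative_le q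
  omega

lemma prod_one_sub (m : Multiset ℝ) :
    let q : Polynomial ℝ := (m.map fun a => 1 - Polynomial.C a * Polynomial.X).prod
    q.coeff 0 = 1 ∧ q.coeff 1 = -m.sum ∧
      2 * q.coeff 2 = m.sum ^ 2 - (m.map fun a => a ^ 2).sum := by
  induction m using Multiset.induction with
  | empty => simp [Polynomial.coeff_one]
  | cons a m ih =>
    obtain ⟨h0, h1, h2⟩ := ih
    simp only [Multiset.map_cons, Multiset.prod_cons, sub_mul, one_mul, mul_assoc,
      Polynomial.coeff_sub, Polynomial.coeff_C_mul, Multiset.sum_cons]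
    refine ⟨by simp [h0], ?_, ?_⟩
    · rw [Polynomial.coeff_X_mul, h0, h1]; ring
    · rw [Polynomial.coeff_X_mul, h1]; linear_combination h2

lemma splits_factor {q : Polynomial ℝ} (h : q.Splits) (h0 : q.coeff 0 ≠ 0) :
    ∃ m : Multiset ℝ, m.card = q.natDegree ∧
      q = Polynomial.C (q.coeff 0) * (m.map fun a => 1 - Polynomial.C a * Polynomial.X).prod := by
  refine ⟨q.roots.map fun r => r⁻¹, by
    rw [Multiset.card_map, ← h.natDegree_eq_card_roots], ?_⟩
  have hr : ∀ r ∈ q.roots, r ≠ 0 := fun r hr hr0 => h0 (by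
    rw [Polynomial.coeff_zero_eq_eval_zero]; have := (Polynomial.mem_roots'.1 hr).2; subst hr0; exact this)
  have key : ∀ m : Multiset ℝ, (∀ r ∈ m, r ≠ 0) →
      (m.map fun r => Polynomial.X - Polynomial.C r).prod = Polynomial.C (m.map fun r => -r).prod *
        ((m.map fun r => r⁻¹).map fun a => 1 - Polynomial.C a * Polynomial.X).prod := by
    intro m
    induction m using Multiset.induction with
    | empty => simp
    | cons r m ih =>
      intro hm
      have hr0 := hm r (Multiset.mem_cons_self r m)
      simp only [Multiset.map_cons, Multiset.prod_cons,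
        ih fun x hx => hm x (Multiset.mem_cons_of_mem hx), map_mul]
      have : (Polynomial.C (-r)) * (1 - Polynomial.C r⁻¹ * Polynomial.X)
          = Polynomial.X - Polynomial.C r := by
        rw [mul_sub, ← mul_assoc, ← map_mul]
        simp [hr0]; ring
      rw [← this]; ring
  have e := h.eq_prod_roots
  rw [key _ hr, ← mul_assoc, ← map_mul] at e
  have e0 := congrArg (fun f => Polynomial.coeff f 0) e
  simp only [Polynomial.coeff_C_mul, (prod_one_sub _).1, mul_one] at e0
  rwa [← e0] at e

lemma newton {q : Polynomial ℝ} (h : q.Splits) :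
    0 ≤ q.coeff 1 ^ 2 - 2 * q.coeff 0 * q.coeff 2 ∨ q.coeff 0 = 0 := by
  rcases eq_or_ne (q.coeff 0) 0 with h0 | h0
  · exact Or.inr h0
  left
  obtain ⟨m, -, hq⟩ := splits_factor h h0
  obtain ⟨-, h1, h2⟩ := prod_one_sub m
  have hs : 0 ≤ (m.map fun a => a ^ 2).sum := Multiset.sum_nonneg fun x hx => by
    obtain ⟨a, -, rfl⟩ := Multiset.mem_map.1 hx; positivity
  rw [hq]
  simp only [Polynomial.coeff_C_mul, (prod_one_sub m).1, h1]
  nlinarith [mul_nonneg (sq_nonneg (q.coeff 0)) hs]

/-- Bounded first two normalised coefficients confine the roots away from `0`. -/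
lemma near_const {q : Polynomial ℝ} (h : q.Splits) (h0 : 0 < q.coeff 0) {B : ℝ} (hB : 0 ≤ B)
    (h1 : |q.coeff 1| ≤ B * q.coeff 0) (h2 : |q.coeff 2| ≤ B * q.coeff 0) {d : ℕ}
    (hd : q.natDegree ≤ d) (s : ℝ) :
    |q.eval s| ≤ q.coeff 0 * (1 + (B + 1) * |s|) ^ d ∧
      ((B + 1) * |s| < 1 → 0 < q.eval s) := by
  obtain ⟨m, hm, hq⟩ := splits_factor h h0.ne'
  obtain ⟨p0, p1, p2⟩ := prod_one_sub m
  have e1 : q.coeff 1 = q.coeff 0 * -m.sum := by
    conv_lhs => rw [hq]
    rw [Polynomial.coeff_C_mul, p1]
  have e2 : 2 * q.coeff 2 = q.coeff 0 * (m.sum ^ 2 - (m.map fun a => a ^ 2).sum) := by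
    conv_lhs => rw [hq]
    rw [Polynomial.coeff_C_mul, ← p2]; ring
  have hs1 : |m.sum| ≤ B := by
    rw [e1, abs_mul, abs_of_pos h0, abs_neg, mul_comm B] at h1
    exact le_of_mul_le_mul_left h1 h0
  have hs2 : (m.map fun a => a ^ 2).sum ≤ (B + 1) ^ 2 := by
    have hb := abs_le.1 h2
    have hsq : m.sum ^ 2 ≤ B ^ 2 := by nlinarith [abs_le.1 hs1]
    have : q.coeff 0 * (m.map fun a => a ^ 2).sum ≤ q.coeff 0 * (B ^ 2 + 2 * B) := by nlinarith
    have := le_of_mul_le_mul_left this h0
    nlinarith
  have ha : ∀ a ∈ m, |a * s| ≤ (B + 1) * |s| := fun a ha => by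
    rw [abs_mul]
    refine mul_le_mul_of_nonneg_right ?_ (abs_nonneg _)
    refine abs_le_of_sq_le_sq ((Multiset.single_le_sum (fun x hx => ?_) (a ^ 2)
      (Multiset.mem_map_of_mem (fun a : ℝ => a ^ 2) ha)).trans hs2) (by linarith)
    obtain ⟨b, -, rfl⟩ := Multiset.mem_map.1 hx; positivity
  have key : ∀ m : Multiset ℝ, (∀ a ∈ m, |a * s| ≤ (B + 1) * |s|) →
      |(m.map fun a => 1 - a * s).prod| ≤ (1 + (B + 1) * |s|) ^ m.card ∧
        ((B + 1) * |s| < 1 → 0 < (m.map fun a => 1 - a * s).prod) := by
    intro m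
    induction m using Multiset.induction with
    | empty => simp
    | cons a m ih =>
      intro hm
      obtain ⟨i1, i2⟩ := ih fun x hx => hm x (Multiset.mem_cons_of_mem hx)
      have hA := abs_le.1 (hm a (Multiset.mem_cons_self a m))
      rw [Multiset.map_cons, Multiset.prod_cons, Multiset.card_cons, pow_succ']
      refine ⟨?_, fun hlt => mul_pos (by linarith) (i2 hlt)⟩
      rw [abs_mul]
      exact mul_le_mul (abs_le.2 ⟨by linarith, by linarith⟩) i1 (abs_nonneg _) (by
        have : 0 ≤ (B + 1) * |s| := by positivity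
        linarith)
  have ee : q.eval s = q.coeff 0 * (m.map fun a => 1 - a * s).prod := by
    conv_lhs => rw [hq]
    simp [Polynomial.eval_multiset_prod]
  obtain ⟨k1, k2⟩ := key m ha
  rw [ee]
  refine ⟨?_, fun hlt => mul_pos h0 (k2 hlt)⟩
  rw [abs_mul, abs_of_pos h0]
  refine mul_le_mul_of_nonneg_left (k1.trans (pow_le_pow_right₀ ?_ (hm ▸ hd))) h0.le
  have : 0 ≤ (B + 1) * |s| := by positivity
  linarith

end Vale.Agent.P256.Shadow
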