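import Vale.Agent.P256.Normal
import Vale.Agent.P256.Shadow.Line

/-!
The certificate behind the local lift: a symmetric polynomial matrix that is strictly concave at
`0` has, on a small box, first order gaps that are sums of products of the box constraints with
squares of affine polynomials.
-/

namespace Vale.Agent.P256.Shadow

open MvPolynomial Matrix

variable {n k : ℕ}

/-- The cone spanned by products of at most `K` constraints `r ± X i`. -/
inductive BoxPos (r : ℝ) : ℕ → MvPolynomial (Fin n) ℝ → Prop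
  | const {K : ℕ} {c : ℝ} : 0 ≤ c → BoxPos r K (C c)
  | fac {K : ℕ} {f : MvPolynomial (Fin n) ℝ} (i : Fin n) (b : Bool) :
      BoxPos r K f → BoxPos r (K + 1) (f * (C r + (if b then X i else -X i)))
  | add {K : ℕ} {f g : MvPolynomial (Fin n) ℝ} :
      BoxPos r K f → BoxPos r K g → BoxPos r K (f + g)

namespace BoxPos

variable {r : ℝ} {K K' : ℕ} {f g : MvPolynomial (Fin n) ℝ}

lemma mono (h : BoxPos r K f) (hK : K ≤ K') : BoxPos r K' f := by
  induction h generalizing K' with
  | const hc => exact const hc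
  | @fac K f i b _ ih =>
    obtain ⟨K'', rfl⟩ : ∃ K'', K' = K'' + 1 := ⟨K' - 1, by omega⟩
    exact fac i b (ih (by omega))
  | add _ _ ih1 ih2 => exact add (ih1 hK) (ih2 hK)

lemma cmul (h : BoxPos r K f) {c : ℝ} (hc : 0 ≤ c) : BoxPos r K (C c * f) := by
  induction h with
  | @const K a ha => rw [← map_mul]; exact const (mul_nonneg hc ha)
  | fac i b _ ih => rw [← mul_assoc]; exact fac i b ih
  | add _ _ ih1 ih2 => rw [mul_add]; exact add ih1 ih2

lemma mul (hf : BoxPos r K f) (hg : BoxPos r K' g) : BoxPos r (K + K') (f * g) := by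
  induction hg with
  | const hc => rw [mul_comm]; exact (hf.cmul hc).mono (by omega)
  | fac i b _ ih => rw [← mul_assoc, ← Nat.add_assoc]; exact fac i b ih
  | add _ _ ih1 ih2 => rw [mul_add]; exact add ih1 ih2

lemma eval_nonneg (h : BoxPos r K f) {z : Fin n → ℝ} (hz : ∀ i, |z i| ≤ r) :
    0 ≤ eval z f := by
  induction h with
  | const hc => simpa using hc
  | @fac K f i b _ ih =>
    have := abs_le.1 (hz i)
    rw [map_mul]
    refine mul_nonneg ih ?_
    cases b <;> simp <;> linarith
  | add _ _ ih1 ih2 => rw [map_add]; linarith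

end BoxPos

/-- `f` lies between `-B` and `B`, certified on the box. -/
def Bd (r : ℝ) (K : ℕ) (B : ℝ) (f : MvPolynomial (Fin n) ℝ) : Prop :=
  BoxPos r K (C B + f) ∧ BoxPos r K (C B - f)

namespace Bd

variable {r B B' : ℝ} {K K' : ℕ} {f g : MvPolynomial (Fin n) ℝ}

lemma mono (h : Bd r K B f) (hK : K ≤ K') (hB : B ≤ B') : Bd r K' B' f := by
  have hc : BoxPos r K' (C (B' - B) : MvPolynomial (Fin n) ℝ) := .const (by linarith)
  constructor
  · have := hc.add (h.1.mono hK)
    rwa [map_sub, ← add_assoc, sub_add_cancel] at this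
  · have := hc.add (h.2.mono hK)
    rwa [map_sub, sub_add_sub_cancel] at this

lemma const {c : ℝ} : Bd r K |c| (C c : MvPolynomial (Fin n) ℝ) := by
  constructor
  · rw [← map_add]; exact .const (by linarith [neg_abs_le c])
  · rw [← map_sub]; exact .const (by linarith [le_abs_self c])

lemma var (i : Fin n) : Bd r 1 r (X i) := by
  have h1 : BoxPos r 0 (C (1 : ℝ) : MvPolynomial (Fin n) ℝ) := .const zero_le_one
  constructor
  · simpa using BoxPos.fac i true h1
  · simpa [sub_eq_add_neg] using BoxPos.fac i false h1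

lemma add (hf : Bd r K B f) (hg : Bd r K B' g) : Bd r K (B + B') (f + g) := by
  constructor
  · have := hf.1.add hg.1
    rwa [add_add_add_comm, ← map_add] at this
  · have := hf.2.add hg.2
    rwa [sub_add_sub_comm, ← map_add] at this

lemma mul (hf : Bd r K B f) (hg : Bd r K' B' g) : Bd r (K + K') (B * B') (f * g) := by
  have h2 : (C (1 / 2 : ℝ) : MvPolynomial (Fin n) ℝ) * 2 = 1 := by
    rw [show (2 : MvPolynomial (Fin n) ℝ) = C 2 from (map_ofNat C 2).symm, ← map_mul]; norm_num
  constructor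
  · have := ((hf.1.mul hg.1).add (hf.2.mul hg.2)).cmul (show (0 : ℝ) ≤ 1 / 2 by norm_num)
    convert this using 1
    rw [map_mul]
    linear_combination -(C B * C B' + f * g) * h2
  · have := ((hf.1.mul hg.2).add (hf.2.mul hg.1)).cmul (show (0 : ℝ) ≤ 1 / 2 by norm_num)
    convert this using 1
    rw [map_mul]
    linear_combination -(C B * C B' - f * g) * h2

end Bd

/-- Substitution of the second block of variables by `m`. -/
noncomputable def phi (m : Fin n → ℝ) :
    MvPolynomial (Fin n ⊕ Fin n) ℝ →ₐ[ℝ] MvPolynomial (Fin n) ℝ :=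
  aeval (Sum.elim X (fun i => C (m i)))

lemma phi_small (T : MvPolynomial (Fin n ⊕ Fin n) ℝ) :
    ∃ K, ∀ ε : ℝ, 0 < ε → ∃ r0 : ℝ, 0 < r0 ∧ ∀ r : ℝ, 0 < r → r ≤ r0 →
      ∀ m : Fin n → ℝ, (∀ i, |m i| ≤ r) → Bd r K ε (phi m T - C (eval 0 T)) := by
  induction T using MvPolynomial.induction_on with
  | C a =>
    refine ⟨0, fun ε hε => ⟨1, one_pos, fun r _ _ m _ => ?_⟩⟩
    have : phi m (C a) - C (eval (0 : Fin n ⊕ Fin n → ℝ) (C a)) =
        (C (0 : ℝ) : MvPolynomial (Fin n) ℝ) := by
      simp [phi]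
    rw [this]
    exact Bd.const.mono le_rfl (by simpa using hε.le)
  | add P Q hP hQ =>
    obtain ⟨KP, hP⟩ := hP
    obtain ⟨KQ, hQ⟩ := hQ
    refine ⟨KP + KQ, fun ε hε => ?_⟩
    obtain ⟨r1, hr1, h1⟩ := hP (ε / 2) (half_pos hε)
    obtain ⟨r2, hr2, h2⟩ := hQ (ε / 2) (half_pos hε)
    refine ⟨min r1 r2, lt_min hr1 hr2, fun r hr hle m hm => ?_⟩
    have := ((h1 r hr (hle.trans (min_le_left _ _)) m hm).mono (K' := KP + KQ) (by omega) le_rfl).add
      ((h2 r hr (hle.trans (min_le_right _ _)) m hm).mono (K' := KP + KQ) (by omega) le_rfl)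
    rw [add_halves] at this
    convert this using 1
    simp; ring
  | mul_X P s hP =>
    obtain ⟨KP, hP⟩ := hP
    refine ⟨KP + 1, fun ε hε => ?_⟩
    obtain ⟨r1, hr1, h1⟩ := hP 1 one_pos
    set B : ℝ := 1 + |eval 0 P| with hB
    have hB0 : 0 < B := by positivity
    refine ⟨min r1 (ε / B), lt_min hr1 (div_pos hε hB0), fun r hr hle m hm => ?_⟩
    have hP' : Bd r KP B (phi m P) := by
      have := (h1 r hr (hle.trans (min_le_left _ _)) m hm).add (Bd.const (c := eval 0 P))
      rwa [sub_add_cancel] at this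
    have hX : Bd r 1 r (phi m (X s)) := by
      rcases s with i | i
      · simpa [phi] using Bd.var i
      · simpa [phi] using (Bd.const (r := r) (K := 1) (c := m i)).mono le_rfl (hm i)
    have := (hP'.mul hX).mono le_rfl (show B * r ≤ ε by
      have := hle.trans (min_le_right _ _)
      rw [le_div_iff₀ hB0] at this
      linarith)
    simpa using this

/-- `X a - m a`. -/
noncomputable def wv (m : Fin n → ℝ) (a : Fin n) : MvPolynomial (Fin n) ℝ := X a - C (m a)

lemma expansion (f : MvPolynomial (Fin n) ℝ) :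
    ∃ T : Fin n → Fin n → MvPolynomial (Fin n ⊕ Fin n) ℝ,
      (∀ m, f = C (eval m f) + ∑ a, C (eval m (pderiv a f)) * wv m a +
        ∑ a, ∑ b, wv m a * wv m b * phi m (T a b)) ∧
      ∀ u : Fin n → ℝ, ∑ a, ∑ b, u a * u b * eval 0 (T a b) = (LP f 0 u).coeff 2 := by
  suffices h : ∃ T : Fin n → Fin n → MvPolynomial (Fin n ⊕ Fin n) ℝ,
      ∀ m, f = C (eval m f) + ∑ a, C (eval m (pderiv a f)) * wv m a +
        ∑ a, ∑ b, wv m a * wv m b * phi m (T a b) by
    obtain ⟨T, hT⟩ := h
    refine ⟨T, hT, fun u => ?_⟩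
    have hw : ∀ a, LP (wv (0 : Fin n → ℝ) a) 0 u = Polynomial.C (u a) * Polynomial.X := fun a => by
      simp [wv]
    have hphi : ∀ a b, eval (0 : Fin n → ℝ) (phi 0 (T a b)) = eval 0 (T a b) := fun a b => by
      induction T a b using MvPolynomial.induction_on with
      | C c => simp [phi]
      | add P Q hP hQ => simp only [map_add, hP, hQ]
      | mul_X P s hP => rcases s with i | i <;> simp [phi]
    conv_rhs => rw [hT 0]
    simp only [LP_add, LP_sum, LP_mul, LP_C, hw, Polynomial.coeff_add, Polynomial.finsetSum_coeff,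
      Polynomial.coeff_C_mul, Polynomial.coeff_X]
    simp only [Polynomial.coeff_C, OfNat.ofNat_ne_zero, if_false, show ¬((1 : ℕ) = 2) by omega,
      mul_zero, Finset.sum_const_zero, zero_add]
    refine Finset.sum_congr rfl fun a _ => Finset.sum_congr rfl fun b _ => ?_
    have hc : ∀ Q : Polynomial ℝ, (Q * Polynomial.X ^ 2).coeff 2 = Q.coeff 0 := fun Q => by
      simpa using Polynomial.coeff_mul_X_pow Q 2 0
    rw [show Polynomial.C (u a) * Polynomial.X * (Polynomial.C (u b) * Polynomial.X) *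
        LP (phi 0 (T a b)) 0 u = Polynomial.C (u a * u b) *
        (LP (phi 0 (T a b)) 0 u * Polynomial.X ^ 2) by rw [map_mul]; ring,
      Polynomial.coeff_C_mul, hc, coeff_zero_LP, hphi]
  classical
  induction f using MvPolynomial.induction_on with
  | C a => exact ⟨fun _ _ => 0, fun m => by simp⟩
  | add P Q hP hQ =>
    obtain ⟨TP, hP⟩ := hP
    obtain ⟨TQ, hQ⟩ := hQ
    refine ⟨fun a b => TP a b + TQ a b, fun m => ?_⟩
    simp only [map_add, add_mul, mul_add, Finset.sum_add_distrib]
    linear_combination hP m + hQ m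
  | mul_X P i hP =>
    obtain ⟨T, hT⟩ := hP
    refine ⟨fun a b => T a b * X (Sum.inl i) +
      (if b = i then rename Sum.inr (pderiv a P) else 0), fun m => ?_⟩
    have hr : ∀ Q : MvPolynomial (Fin n) ℝ, phi m (rename Sum.inr Q) = C (eval m Q) := fun Q => by
      induction Q using MvPolynomial.induction_on with
      | C c => simp [phi]
      | add A B hA hB => simp [hA, hB]
      | mul_X A j hA => simp [hA]; simp [phi]
    have h1 : ∀ a, pderiv a (P * X i) = pderiv a P * X i + P * (if a = i then 1 else 0) := fun a => by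
      rw [pderiv_mul, pderiv_X]
      simp [Pi.single_apply, eq_comm]
    have e1 : ∑ a, C (eval m (pderiv a (P * X i))) * wv m a =
        C (m i) * ∑ a, C (eval m (pderiv a P)) * wv m a + C (eval m P) * wv m i := by
      have : ∀ a, C (eval m (pderiv a (P * X i))) * wv m a =
          C (m i) * (C (eval m (pderiv a P)) * wv m a) +
            (if a = i then C (eval m P) * wv m i else 0) := fun a => by
        rw [h1]
        split_ifs with h
        · subst h; simp only [mul_one, map_add, map_mul, eval_X]; ring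
        · simp only [mul_zero, add_zero, map_mul, eval_X]; ring
      simp only [this, Finset.sum_add_distrib, Finset.sum_ite_eq', Finset.mem_univ, if_true,
        ← Finset.mul_sum]
    have e2 : ∑ a, ∑ b, wv m a * wv m b * phi m (T a b * X (Sum.inl i) +
        (if b = i then rename Sum.inr (pderiv a P) else 0)) =
        (∑ a, ∑ b, wv m a * wv m b * phi m (T a b)) * X i +
          wv m i * ∑ a, C (eval m (pderiv a P)) * wv m a := by
      have hX : phi m (X (Sum.inl i)) = X i := by simp [phi]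
      have : ∀ a b, wv m a * wv m b * phi m (T a b * X (Sum.inl i) +
          (if b = i then rename Sum.inr (pderiv a P) else 0)) =
          wv m a * wv m b * phi m (T a b) * X i +
            (if b = i then wv m i * (C (eval m (pderiv a P)) * wv m a) else 0) := fun a b => by
        split_ifs with h
        · subst h; rw [map_add, map_mul, hX, hr]; ring
        · rw [add_zero, map_mul, hX]; ring
      simp only [this, Finset.sum_add_distrib, Finset.sum_ite_eq', Finset.mem_univ, if_true,
        ← Finset.mul_sum, ← Finset.sum_mul]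
    rw [e1, e2, map_mul, eval_X, map_mul]
    have hw : wv m i = X i - C (m i) := rfl
    rw [hw]
    linear_combination (X i) * hT m

/-! ### Compactness -/

lemma bihom_neg {Q : (Fin n → ℝ) → (Fin k → ℝ) → ℝ}
    (hc : Continuous fun x : (Fin n → ℝ) × (Fin k → ℝ) => Q x.1 x.2)
    (hh : ∀ a b : ℝ, ∀ u v, Q (a • u) (b • v) = a ^ 2 * b ^ 2 * Q u v)
    (hneg : ∀ u v, u ≠ 0 → v ≠ 0 → Q u v < 0) :
    ∃ c > 0, ∀ u v, Q u v ≤ -c * (u ⬝ᵥ u) * (v ⬝ᵥ v) := by
  have sph : ∀ j : ℕ, IsCompact {x : Fin j → ℝ | x ⬝ᵥ x = 1} := fun j => by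
    apply Metric.isCompact_of_isClosed_isBounded
    · exact isClosed_eq (continuous_id.dotProduct continuous_id) continuous_const
    · refine (Metric.isBounded_iff_subset_closedBall 0).mpr ⟨1, fun x hx => ?_⟩
      rw [mem_closedBall_zero_iff, pi_norm_le_iff_of_nonneg zero_le_one]
      intro i
      have h := Finset.single_le_sum (f := fun i => x i * x i) (fun i _ => mul_self_nonneg _)
        (Finset.mem_univ i)
      rw [Real.norm_eq_abs]
      exact abs_le_one_iff_mul_self_le_one.mpr (h.trans (le_of_eq hx))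
  have hne : ∀ {j : ℕ} {x : Fin j → ℝ}, x ∈ {y : Fin j → ℝ | y ⬝ᵥ y = 1} → x ≠ 0 :=
    fun hx h0 => by simp [h0] at hx
  obtain ⟨c, hc0, hle⟩ := ((sph n).prod (sph k)).exists_forall_le' (f := fun x => -Q x.1 x.2)
    hc.neg.continuousOn (a := 0) fun x hx => neg_pos.2 (hneg _ _ (hne hx.1) (hne hx.2))
  refine ⟨c, hc0, fun u v => ?_⟩
  rcases eq_or_ne u 0 with rfl | hu
  · have := hh 0 1 0 v
    simp at this
    simp [this]
  rcases eq_or_ne v 0 with rfl | hv
  · have := hh 1 0 u 0
    simp at this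
    simp [this]
  have pos : ∀ {j : ℕ} {x : Fin j → ℝ}, x ≠ 0 → 0 < x ⬝ᵥ x := fun hx => by
    refine lt_of_le_of_ne (Finset.sum_nonneg fun i _ => mul_self_nonneg _) fun h => hx ?_
    exact dotProduct_self_eq_zero.1 h.symm
  set A := Real.sqrt (u ⬝ᵥ u) with hA
  set B := Real.sqrt (v ⬝ᵥ v) with hB
  have hA0 : 0 < A := Real.sqrt_pos.2 (pos hu)
  have hB0 : 0 < B := Real.sqrt_pos.2 (pos hv)
  have hmem : (A⁻¹ • u, B⁻¹ • v) ∈ {x : Fin n → ℝ | x ⬝ᵥ x = 1} ×ˢ {x : Fin k → ℝ | x ⬝ᵥ x = 1} := by
    constructor <;> simp only [Set.mem_ofPred_eq, smul_dotProduct, dotProduct_smul, smul_eq_mul]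
    · rw [← mul_assoc, ← mul_inv, ← Real.sqrt_mul (pos hu).le, Real.sqrt_mul_self (pos hu).le,
        inv_mul_cancel₀ (pos hu).ne']
    · rw [← mul_assoc, ← mul_inv, ← Real.sqrt_mul (pos hv).le, Real.sqrt_mul_self (pos hv).le,
        inv_mul_cancel₀ (pos hv).ne']
  have h1 := hle _ hmem
  have h2 := hh A B (A⁻¹ • u) (B⁻¹ • v)
  simp only [smul_smul, mul_inv_cancel₀ hA0.ne', mul_inv_cancel₀ hB0.ne', one_smul] at h2
  rw [h2, hA, hB, Real.sq_sqrt (pos hu).le, Real.sq_sqrt (pos hv).le]
  nlinarith [mul_pos (pos hu) (pos hv)]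

/-- If `A < 0` where `B = 0` on a compact set then `A - b B < 0` for all large `b`. -/
lemma exists_large {α : Type*} [TopologicalSpace α] {S : Set α} (hS : IsCompact S) {A B : α → ℝ}
    (hA : Continuous A) (hB : Continuous B) (hB0 : ∀ x, 0 ≤ B x)
    (h : ∀ x ∈ S, B x = 0 → A x < 0) : ∃ b : ℕ, ∀ x ∈ S, A x - b * B x < 0 := by
  obtain ⟨b, hb⟩ := hS.elim_directed_cover (fun b : ℕ => {x | A x - b * B x < 0})
    (fun b => isOpen_lt (hA.sub (continuous_const.mul hB)) continuous_const)
    (fun x hx => by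
      rcases (hB0 x).lt_or_eq with hlt | heq
      · obtain ⟨b, hb⟩ := exists_nat_gt (A x / B x)
        refine Set.mem_iUnion.2 ⟨b, ?_⟩
        rw [div_lt_iff₀ hlt] at hb
        show A x - b * B x < 0
        linarith
      · refine Set.mem_iUnion.2 ⟨0, ?_⟩
        show A x - (0 : ℕ) * B x < 0
        simpa using h x hx heq.symm)
    (Monotone.directed_le fun i j hij x hx => by
      have : (i : ℝ) * B x ≤ j * B x := mul_le_mul_of_nonneg_right (by exact_mod_cast hij) (hB0 x)
      show A x - j * B x < 0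
      exact lt_of_le_of_lt (by linarith) (show A x - i * B x < 0 from hx))
  exact ⟨b, fun x hx => hb hx⟩

/-! ### The certificate -/

/-- The quadratic form `v` applied to a polynomial matrix. -/
noncomputable def quad (G : Fin k → Fin k → MvPolynomial (Fin n) ℝ) (v : Fin k → ℝ) :
    MvPolynomial (Fin n) ℝ := ∑ i, ∑ j, C (v i * v j) * G i j

/-- Second-order strict concavity at `0`. -/
def StrictConcave (G : Fin k → Fin k → MvPolynomial (Fin n) ℝ) : Prop :=
  ∀ (u : Fin n → ℝ) (v : Fin k → ℝ), u ≠ 0 → v ≠ 0 → (LP (quad G v) 0 u).coeff 2 < 0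

/-- An affine polynomial. -/
noncomputable def aff (c0 : ℝ) (c : Fin n → ℝ) : MvPolynomial (Fin n) ℝ :=
  C c0 + ∑ i, C (c i) * X i

/-- The conditions on a linear functional that make it behave like a measure on the box. -/
def LPos (r : ℝ) (K : ℕ) (L : MvPolynomial (Fin n) ℝ →ₗ[ℝ] ℝ) : Prop :=
  ∀ f, BoxPos r K f → ∀ c0 c, 0 ≤ L (f * aff c0 c ^ 2)

lemma wv_comb (m c : Fin n → ℝ) : ∑ a, C (c a) * wv m a = aff (-(∑ a, c a * m a)) c := by
  simp only [aff, wv, mul_sub, Finset.sum_sub_distrib, map_neg, map_sum, map_mul]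
  ring

namespace LPos

variable {r ε : ℝ} {K : ℕ} {L : MvPolynomial (Fin n) ℝ →ₗ[ℝ] ℝ}

lemma comb (hL : LPos r K L) (m : Fin n → ℝ) {f : MvPolynomial (Fin n) ℝ} (hf : BoxPos r K f)
    (z : Fin n → ℝ) : 0 ≤ ∑ a, ∑ b, z a * z b * L (f * (wv m a * wv m b)) := by
  have h := hL f hf (-(∑ a, z a * m a)) z
  rw [← wv_comb] at h
  convert h using 1
  rw [sq, Finset.sum_mul_sum, Finset.mul_sum, map_sum]
  refine Finset.sum_congr rfl fun a _ => ?_
  rw [Finset.mul_sum, map_sum]
  refine Finset.sum_congr rfl fun b _ => ?_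
  rw [show f * (C (z a) * wv m a * (C (z b) * wv m b)) =
    (z a * z b) • (f * (wv m a * wv m b)) by rw [smul_eq_C_mul, map_mul]; ring]
  simp

lemma gram (hL : LPos r K L) (m : Fin n → ℝ) (z : Fin n → ℝ) :
    0 ≤ ∑ a, ∑ b, z a * z b * L (wv m a * wv m b) := by
  simpa using hL.comb m (f := 1) (by simpa using BoxPos.const (r := r) (K := K) zero_le_one) z

/-- A small certified multiplier perturbs the second moments by a small amount. -/
lemma pert (hL : LPos r K L) (m : Fin n → ℝ) {D : MvPolynomial (Fin n) ℝ} (hD : Bd r K ε D)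
    (a b : Fin n) : |L (wv m a * wv m b * D)| ≤
      ε / 2 * (L (wv m a * wv m a) + L (wv m b * wv m b)) := by
  obtain ⟨hp, hm'⟩ := hD
  have key : ∀ (f : MvPolynomial (Fin n) ℝ), BoxPos r K f → ∀ s : ℝ, s = 1 ∨ s = -1 →
      0 ≤ L (f * (wv m a * wv m a)) + L (f * (wv m b * wv m b)) +
        2 * s * L (f * (wv m a * wv m b)) := by
    intro f hf s hs
    have h := hL.comb m hf (Pi.single a 1 + Pi.single b s)
    simp only [Pi.add_apply, add_mul, mul_add, Finset.sum_add_distrib, Pi.single_apply, ite_mul,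
      mul_ite, zero_mul, mul_zero, one_mul, mul_one, Finset.sum_ite_eq', Finset.mem_univ,
      if_true] at h
    have hs2 : s * s = 1 := by rcases hs with rfl | rfl <;> norm_num
    rw [hs2, one_mul, show wv m b * wv m a = wv m a * wv m b from mul_comm _ _] at h
    linarith
  have e : ∀ f : MvPolynomial (Fin n) ℝ,
      L ((C ε + D) * f) = ε * L f + L (f * D) ∧ L ((C ε - D) * f) = ε * L f - L (f * D) := by
    intro f
    simp only [add_mul (C ε) D f, sub_mul (C ε) D f, ← smul_eq_C_mul, mul_comm D f]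
    simp
  have h1 := key _ hp 1 (Or.inl rfl)
  have h2 := key _ hm' (-1) (Or.inr rfl)
  have h3 := key _ hp (-1) (Or.inr rfl)
  have h4 := key _ hm' 1 (Or.inl rfl)
  simp only [(e _).1, (e _).2] at h1 h2 h3 h4
  rw [abs_le]
  constructor <;> linarith

end LPos

theorem concave_cert (G : Fin k → Fin k → MvPolynomial (Fin n) ℝ) (hG : StrictConcave G) :
    ∃ c > 0, ∃ K : ℕ, ∃ r0 > 0, ∀ r : ℝ, 0 < r → r ≤ r0 → ∀ m : Fin n → ℝ, (∀ i, |m i| ≤ r) →
      ∀ (v : Fin k → ℝ) (L : MvPolynomial (Fin n) ℝ →ₗ[ℝ] ℝ), LPos r K L →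
        c * (v ⬝ᵥ v) * ∑ a, L (wv m a * wv m a) ≤
          L (C (eval m (quad G v)) + ∑ a, C (eval m (pderiv a (quad G v))) * wv m a - quad G v) := by
  choose T hT hT2 using fun i j => expansion (G i j)
  let Q : (Fin n → ℝ) → (Fin k → ℝ) → ℝ := fun u v =>
    ∑ i, ∑ j, v i * v j * ∑ a, ∑ b, u a * u b * eval 0 (T i j a b)
  have hQ : ∀ u v, Q u v = (LP (quad G v) 0 u).coeff 2 := fun u v => by
    simp only [Q, quad, LP_sum, LP_mul, LP_C, Polynomial.finsetSum_coeff, Polynomial.coeff_C_mul,
      hT2]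
  obtain ⟨c, hc, hQc⟩ := bihom_neg (Q := Q) (by fun_prop) (fun a b u v => by
      simp only [Q, Pi.smul_apply, smul_eq_mul, Finset.mul_sum]
      refine Finset.sum_congr rfl fun i _ => Finset.sum_congr rfl fun j _ =>
        Finset.sum_congr rfl fun x _ => Finset.sum_congr rfl fun y _ => by ring)
    (fun u v hu hv => by rw [hQ]; exact hG u v hu hv)
  choose KT hKT using fun i j a b => phi_small (T i j a b)
  set ε : ℝ := c / (2 * ((k : ℝ) * n + 1)) with hε
  have hε0 : 0 < ε := by positivity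
  choose R hR0 hR using fun i j a b => hKT i j a b ε hε0
  let S := insert (1 : ℝ) (Finset.univ.image fun x : Fin k × Fin k × Fin n × Fin n =>
    R x.1 x.2.1 x.2.2.1 x.2.2.2)
  refine ⟨c / 2, half_pos hc, ∑ i, ∑ j, ∑ a, ∑ b, KT i j a b, S.min' (Finset.insert_nonempty _ _),
    ?_, fun r hr hle m hm v L hL => ?_⟩
  · refine (Finset.lt_min'_iff _ _).2 fun y hy => ?_
    rcases Finset.mem_insert.1 hy with rfl | hy
    · exact one_pos
    · obtain ⟨x, -, rfl⟩ := Finset.mem_image.1 hy; exact hR0 _ _ _ _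
  set K := ∑ i, ∑ j, ∑ a, ∑ b, KT i j a b with hK
  have hD : ∀ i j a b, Bd r K ε (phi m (T i j a b) - C (eval 0 (T i j a b))) := fun i j a b => by
    refine (hR i j a b r hr (hle.trans (Finset.min'_le _ _ (Finset.mem_insert_of_mem
      (Finset.mem_image.2 ⟨(i, j, a, b), Finset.mem_univ _, rfl⟩)))) m hm).mono ?_ le_rfl
    refine le_trans ?_ (Finset.single_le_sum (fun _ _ => Nat.zero_le _) (Finset.mem_univ i))
    refine le_trans ?_ (Finset.single_le_sum (fun _ _ => Nat.zero_le _) (Finset.mem_univ j))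
    refine le_trans ?_ (Finset.single_le_sum (fun _ _ => Nat.zero_le _) (Finset.mem_univ a))
    exact Finset.single_le_sum (f := fun b => KT i j a b) (fun _ _ => Nat.zero_le _)
      (Finset.mem_univ b)
  let Γ : Fin n → Fin n → ℝ := fun a b => L (wv m a * wv m b)
  have hΓ : ∀ z : Fin n → ℝ, 0 ≤ ∑ a, ∑ b, z a * z b * Γ a b := hL.gram m
  have hpert : ∀ i j a b, |L (wv m a * wv m b * (phi m (T i j a b) - C (eval 0 (T i j a b))))| ≤
      ε / 2 * (Γ a a + Γ b b) := fun i j a b => hL.pert m (hD i j a b) a b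
  -- the main term
  let M : Matrix (Fin n) (Fin n) ℝ := Matrix.of fun a b =>
    -(∑ i, ∑ j, v i * v j * (eval 0 (T i j a b) + eval 0 (T i j b a)) / 2) -
      if a = b then c * (v ⬝ᵥ v) else 0
  have hM : M.PosSemidef := by
    refine Matrix.PosSemidef.of_dotProduct_mulVec_nonneg ?_ fun u => ?_
    · ext a b
      simp only [M, Matrix.conjTranspose_apply, Matrix.of_apply, star_trivial]
      rcases eq_or_ne a b with rfl | hab
      · rfl
      · rw [if_neg hab, if_neg hab.symm]
        simp only [add_comm (eval 0 (T _ _ b a))]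
    · have h := hQc u v
      have e : u ⬝ᵥ M *ᵥ u = -Q u v - c * (v ⬝ᵥ v) * (u ⬝ᵥ u) := by
        simp only [dotProduct, Matrix.mulVec, M, Matrix.of_apply, Q, sub_mul, mul_sub, neg_mul,
          mul_neg, Finset.mul_sum, Finset.sum_mul, Finset.sum_sub_distrib, Finset.sum_neg_distrib,
          ite_mul, zero_mul, Finset.sum_ite_eq, Finset.mem_univ, if_true]
        congr 1
        · congr 1
          have sw : ∀ F : Fin n → Fin n → Fin k → Fin k → ℝ,
              ∑ a, ∑ b, ∑ i, ∑ j, F a b i j = ∑ i, ∑ j, ∑ a, ∑ b, F a b i j := fun F => by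
            rw [Finset.sum_congr rfl fun a _ => Finset.sum_comm, Finset.sum_comm]
            refine Finset.sum_congr rfl fun i _ => ?_
            rw [Finset.sum_congr rfl fun a _ => Finset.sum_comm, Finset.sum_comm]
          rw [sw]
          refine Finset.sum_congr rfl fun i _ => Finset.sum_congr rfl fun j _ => ?_
          have e1 : ∀ a b, u a * (v i * v j * (eval 0 (T i j a b) + eval 0 (T i j b a)) / 2 * u b) =
              v i * v j * (u a * u b * eval 0 (T i j a b)) / 2 +
                v i * v j * (u b * u a * eval 0 (T i j b a)) / 2 := fun a b => by ring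
          simp only [e1, Finset.sum_add_distrib]
          rw [Finset.sum_comm (f := fun a b => v i * v j * (u b * u a * eval 0 (T i j b a)) / 2)]
          simp only [← Finset.sum_add_distrib, add_halves]
        · exact Finset.sum_congr rfl fun a _ => Finset.sum_congr rfl fun x _ => by ring
      rw [star_trivial, e]
      linarith
  obtain ⟨F, hF⟩ := Vale.Agent.P256.exists_factor hM
  have hmain : 0 ≤ ∑ a, ∑ b, M a b * Γ a b := by
    have : ∑ a, ∑ b, M a b * Γ a b = ∑ l, ∑ a, ∑ b, F l a * F l b * Γ a b := by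
      simp only [hF, Matrix.mul_apply, Matrix.transpose_apply, Finset.sum_mul]
      rw [Finset.sum_congr rfl fun a _ => Finset.sum_comm, Finset.sum_comm]
    rw [this]
    exact Finset.sum_nonneg fun l _ => hΓ (F l)
  have hΓd : ∀ a, 0 ≤ Γ a a := fun a => by
    have := hΓ (Pi.single a 1)
    simpa [Pi.single_apply] using this
  have hsym : ∀ a b, Γ a b = Γ b a := fun a b => by simp only [Γ, mul_comm]
  -- split the gap
  have hgap : L (C (eval m (quad G v)) + ∑ a, C (eval m (pderiv a (quad G v))) * wv m a - quad G v) =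
      -∑ i, ∑ j, v i * v j * ∑ a, ∑ b, (eval 0 (T i j a b) * Γ a b +
        L (wv m a * wv m b * (phi m (T i j a b) - C (eval 0 (T i j a b))))) := by
    rw [show C (eval m (quad G v)) + ∑ a, C (eval m (pderiv a (quad G v))) * wv m a - quad G v =
        -∑ i, ∑ j, (v i * v j) • ∑ a, ∑ b, wv m a * wv m b * phi m (T i j a b) by
      have q0 : (C (eval m (quad G v)) : MvPolynomial (Fin n) ℝ) = ∑ i, ∑ j, C (v i * v j) * C (eval m (G i j)) := by
        simp [quad, map_sum]
      have q1 : ∑ a, C (eval m (pderiv a (quad G v))) * wv m a =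
          ∑ i, ∑ j, C (v i * v j) * ∑ a, C (eval m (pderiv a (G i j))) * wv m a := by
        have : ∀ a, eval m (pderiv a (quad G v)) =
            ∑ i, ∑ j, v i * v j * eval m (pderiv a (G i j)) := fun a => by
          simp only [quad, map_sum, pderiv_mul, pderiv_C, zero_mul, zero_add, map_mul, mul_zero, add_zero, eval_C]
        simp only [this, map_sum, Finset.sum_mul, Finset.mul_sum, map_mul]
        rw [Finset.sum_comm]
        refine Finset.sum_congr rfl fun i _ => ?_
        rw [Finset.sum_comm]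
        exact Finset.sum_congr rfl fun j _ => Finset.sum_congr rfl fun a _ => by ring
      rw [q0, q1, quad]
      simp only [← Finset.sum_add_distrib, ← Finset.sum_sub_distrib, ← Finset.sum_neg_distrib,
        smul_eq_C_mul]
      refine Finset.sum_congr rfl fun i _ => Finset.sum_congr rfl fun j _ => ?_
      linear_combination (-C (v i * v j)) * hT i j m]
    rw [map_neg, map_sum]
    congr 1
    refine Finset.sum_congr rfl fun i _ => ?_
    rw [map_sum]
    refine Finset.sum_congr rfl fun j _ => ?_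
    rw [map_smul, smul_eq_mul, map_sum]
    congr 1
    refine Finset.sum_congr rfl fun a _ => ?_
    rw [map_sum]
    refine Finset.sum_congr rfl fun b _ => ?_
    rw [mul_sub, map_sub, mul_comm (wv m a * wv m b) (C _), ← smul_eq_C_mul, map_smul]
    simp [Γ]
  rw [hgap]
  set D : Fin k → Fin k → Fin n → Fin n → ℝ := fun i j a b =>
    L (wv m a * wv m b * (phi m (T i j a b) - C (eval 0 (T i j a b)))) with hDdef
  have hmain' : c * (v ⬝ᵥ v) * ∑ a, Γ a a ≤ -∑ i, ∑ j, v i * v j * ∑ a, ∑ b, eval 0 (T i j a b) * Γ a b := by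
    have e : ∑ a, ∑ b, M a b * Γ a b =
        -(∑ i, ∑ j, v i * v j * ∑ a, ∑ b, eval 0 (T i j a b) * Γ a b) - c * (v ⬝ᵥ v) * ∑ a, Γ a a := by
      simp only [M, Matrix.of_apply, sub_mul, neg_mul, Finset.sum_mul, Finset.sum_sub_distrib,
        Finset.sum_neg_distrib, ite_mul, zero_mul, Finset.sum_ite_eq, Finset.mem_univ, if_true,
        Finset.mul_sum]
      congr 2
      have sw : ∀ F : Fin n → Fin n → Fin k → Fin k → ℝ,
          ∑ a, ∑ b, ∑ i, ∑ j, F a b i j = ∑ i, ∑ j, ∑ a, ∑ b, F a b i j := fun F => by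
        rw [Finset.sum_congr rfl fun a _ => Finset.sum_comm, Finset.sum_comm]
        refine Finset.sum_congr rfl fun i _ => ?_
        rw [Finset.sum_congr rfl fun a _ => Finset.sum_comm, Finset.sum_comm]
      rw [sw]
      refine Finset.sum_congr rfl fun i _ => Finset.sum_congr rfl fun j _ => ?_
      have e1 : ∀ a b, v i * v j * (eval 0 (T i j a b) + eval 0 (T i j b a)) / 2 * Γ a b =
          v i * v j * (eval 0 (T i j a b) * Γ a b) / 2 +
            v i * v j * (eval 0 (T i j b a) * Γ b a) / 2 := fun a b => by rw [hsym b a]; ring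
      simp only [e1, Finset.sum_add_distrib]
      rw [Finset.sum_comm (f := fun a b => v i * v j * (eval 0 (T i j b a) * Γ b a) / 2)]
      simp only [← Finset.sum_add_distrib, add_halves]
    linarith
  have hD' : |∑ i, ∑ j, v i * v j * ∑ a, ∑ b, D i j a b| ≤
      ε * n * ((k : ℝ) * (v ⬝ᵥ v)) * ∑ a, Γ a a := by
    have h1 : ∀ i j, |∑ a, ∑ b, D i j a b| ≤ ε * n * ∑ a, Γ a a := fun i j => by
      refine (Finset.abs_sum_le_sum_abs _ _).trans ?_
      refine (Finset.sum_le_sum fun a _ => (Finset.abs_sum_le_sum_abs _ _).trans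
        (Finset.sum_le_sum fun b _ => hpert i j a b)).trans (le_of_eq ?_)
      simp [mul_add, Finset.sum_add_distrib, ← Finset.mul_sum]
      ring
    have h2 : (∑ i, |v i|) ^ 2 ≤ (k : ℝ) * (v ⬝ᵥ v) := by
      have := sq_sum_le_card_mul_sum_sq (s := Finset.univ) (f := fun i => |v i|)
      simpa [dotProduct, sq_abs, ← sq] using this
    have hS : 0 ≤ ε * n * ∑ a, Γ a a :=
      mul_nonneg (by positivity) (Finset.sum_nonneg fun a _ => hΓd a)
    calc |∑ i, ∑ j, v i * v j * ∑ a, ∑ b, D i j a b| ≤ ∑ i, ∑ j, |v i| * |v j| * (ε * n * ∑ a, Γ a a) := by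
          refine (Finset.abs_sum_le_sum_abs _ _).trans (Finset.sum_le_sum fun i _ => ?_)
          refine (Finset.abs_sum_le_sum_abs _ _).trans (Finset.sum_le_sum fun j _ => ?_)
          rw [abs_mul, abs_mul]
          exact mul_le_mul_of_nonneg_left (h1 i j) (by positivity)
      _ = (∑ i, |v i|) ^ 2 * (ε * n * ∑ a, Γ a a) := by
          rw [sq, Finset.sum_mul_sum, Finset.sum_mul]
          exact Finset.sum_congr rfl fun i _ => by rw [Finset.sum_mul]
      _ ≤ _ := le_of_le_of_eq (mul_le_mul_of_nonneg_right h2 hS) (by ring)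
  have hε2 : ε * n * k ≤ c / 2 := by
    rw [hε, div_mul_eq_mul_div, div_mul_eq_mul_div, div_le_iff₀ (by positivity)]
    nlinarith
  have hv0 : 0 ≤ (v ⬝ᵥ v) * ∑ a, Γ a a := mul_nonneg
    (Finset.sum_nonneg fun i _ => mul_self_nonneg _) (Finset.sum_nonneg fun a _ => hΓd a)
  have := mul_le_mul_of_nonneg_right hε2 hv0
  simp only [mul_add, Finset.sum_add_distrib]
  have hb := abs_le.1 hD'
  nlinarith

end Vale.Agent.P256.Shadow
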