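import Vale.Agent.P078.Local.Stable.Garding
import Vale.Agent.P256.Base
import Vale.Agent.P256.Shadow.Line

/-!
Gårding's facts for `hypCone`: the open cone, convexity, closedness, the boundary, and the
real-rootedness of lines through interior points.
-/

namespace Vale.Agent.P256.Shadow

open MvPolynomial
open Vale.Agent.P078.Local (IsHyp)

variable {n d : ℕ} {p : MvPolynomial (Fin n) ℝ} {e : Fin n → ℝ}

/-- The complexification of a real vector. -/
noncomputable def cpx (n : ℕ) : (Fin n → ℝ) →ₗ[ℝ] (Fin n → ℂ) :=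
  (Complex.ofRealCLM.toLinearMap).compLeft (Fin n)

@[simp] lemma cpx_apply (x : Fin n → ℝ) (i : Fin n) : cpx n x i = (x i : ℂ) := rfl

lemma aeval_cpx (p : MvPolynomial (Fin n) ℝ) (x : Fin n → ℝ) :
    aeval (cpx n x) p = ((eval x p : ℝ) : ℂ) := by
  induction p using MvPolynomial.induction_on with
  | C a => simp
  | add P Q hP hQ => simp [hP, hQ]
  | mul_X P i hP => simp [hP]

lemma eval_map_eq_aeval (p : MvPolynomial (Fin n) ℝ) (v : Fin n → ℂ) :
    eval v (map (algebraMap ℝ ℂ) p) = aeval v p := by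
  rw [eval_map, aeval_def]

lemma aeval_smul (hp : p.IsHomogeneous d) (c : ℂ) (v : Fin n → ℂ) :
    aeval (c • v) p = c ^ d * aeval v p := by
  classical
  have e : ∀ w : Fin n → ℂ, aeval w p =
      ∑ m ∈ p.support, algebraMap ℝ ℂ (coeff m p) * ∏ i, w i ^ m i := fun w => by
    rw [aeval_def, eval₂_eq']
  rw [e, e, Finset.mul_sum]
  refine Finset.sum_congr rfl fun m hm => ?_
  have h1 := hp (MvPolynomial.mem_support_iff.mp hm)
  rw [Finsupp.weight_apply, Finsupp.sum_fintype _ _ (fun _ => by simp), Finset.sum_congr rfl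
    (fun i _ => show m i • (1 : Fin n → ℕ) i = m i by simp)] at h1
  simp only [Pi.smul_apply, smul_eq_mul, mul_pow, Finset.prod_mul_distrib,
    Finset.prod_pow_eq_pow_sum, h1]
  ring

lemma eval_smul (hp : p.IsHomogeneous d) (c : ℝ) (x : Fin n → ℝ) :
    eval (c • x) p = c ^ d * eval x p := by
  apply Complex.ofReal_injective
  rw [← aeval_cpx, map_smul]
  have : c • cpx n x = (c : ℂ) • cpx n x := (Complex.coe_smul c _).symm
  rw [this, aeval_smul hp, aeval_cpx]
  push_cast; ring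

/-- The hypotheses of Gårding's theory. -/
lemma isHyp (hp : p.IsHomogeneous d) (h : Hyperbolic p e) :
    IsHyp (fun v : Fin n → ℂ => aeval v p) d (LinearMap.range (cpx n)) (cpx n e) where
  cont := by
    simp only [← eval_map_eq_aeval]
    exact MvPolynomial.continuous_eval (map (algebraMap ℝ ℂ) p)
  line a b := by
    have hd := natDegree_LP_le (hp.map (algebraMap ℝ ℂ)) b a
    refine ⟨LP (map (algebraMap ℝ ℂ) p) b a, hd.1, ?_, fun t => ?_⟩
    · rw [hd.2, eval_map_eq_aeval]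
    · rw [eval_LP, eval_map_eq_aeval]
  hom c v := aeval_smul hp c v
  e_mem := ⟨e, rfl⟩
  e_ne := by
    simp only [aeval_cpx]
    exact_mod_cast h.1.ne'
  nz := by
    rintro _ ⟨x, rfl⟩ t ht hz
    refine ht (h.2 (-x) t ?_)
    have : cpx n x + t • cpx n e = fun i => t * (e i : ℂ) - ((-x) i : ℝ) := by
      funext i; simp; ring
    simpa only [this] using hz

/-- The open hyperbolicity cone. -/
def oc (p : MvPolynomial (Fin n) ℝ) (e : Fin n → ℝ) : Set (Fin n → ℝ) :=
  {x | ∀ t : ℝ, 0 ≤ t → eval (x + t • e) p ≠ 0}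

lemma aeval_cpx_add (x : Fin n → ℝ) (t : ℝ) :
    aeval (cpx n x + (t : ℂ) • cpx n e) p = ((eval (x + t • e) p : ℝ) : ℂ) := by
  rw [← aeval_cpx, map_add, map_smul]
  rfl

lemma mem_oc_iff {x : Fin n → ℝ} : x ∈ oc p e ↔
    cpx n x ∈ IsHyp.cone (fun v => aeval v p) (LinearMap.range (cpx n)) (cpx n e) := by
  constructor
  · refine fun hx => ⟨⟨x, rfl⟩, fun t ht => ?_⟩
    show aeval (cpx n x + (t : ℂ) • cpx n e) p ≠ 0
    rw [aeval_cpx_add]
    exact_mod_cast hx t ht
  · intro hx t ht h0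
    refine hx.2 t ht ?_
    show aeval (cpx n x + (t : ℂ) • cpx n e) p = 0
    rw [aeval_cpx_add, h0, Complex.ofReal_zero]

lemma isOpen_oc (hp : p.IsHomogeneous d) (h : Hyperbolic p e) : IsOpen (oc p e) := by
  refine isOpen_iff_forall_mem_open.2 fun x hx => ?_
  obtain ⟨W, hW, hxW, hWc⟩ := (isHyp hp h).exists_open (mem_oc_iff.1 hx)
  exact ⟨cpx n ⁻¹' W, fun y hy => mem_oc_iff.2 (hWc _ hy ⟨y, rfl⟩),
    hW.preimage (cpx n).continuous_of_finiteDimensional, hxW⟩

lemma e_mem_oc (hp : p.IsHomogeneous d) (h : Hyperbolic p e) : e ∈ oc p e :=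
  mem_oc_iff.2 (isHyp hp h).mem_cone_self

lemma smul_mem_oc (hp : p.IsHomogeneous d) (h : Hyperbolic p e) {c : ℝ} (hc : 0 < c)
    {x : Fin n → ℝ} (hx : x ∈ oc p e) : c • x ∈ oc p e := by
  refine mem_oc_iff.2 ?_
  have := (isHyp hp h).smul_mem hc (mem_oc_iff.1 hx)
  rwa [map_smul, ← Complex.coe_smul]

lemma add_mem_oc (hp : p.IsHomogeneous d) (h : Hyperbolic p e) {a b : Fin n → ℝ}
    (ha : a ∈ oc p e) (hb : b ∈ oc p e) : a + b ∈ oc p e := by
  refine mem_oc_iff.2 ?_
  rw [map_add]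
  exact (isHyp hp h).add_mem (mem_oc_iff.1 hb) (mem_oc_iff.1 ha)

lemma oc_add_smul_e {x : Fin n → ℝ} (hx : x ∈ oc p e) {s : ℝ} (hs : 0 ≤ s) :
    x + s • e ∈ oc p e := fun t ht => by
  rw [add_assoc, ← add_smul]
  exact hx _ (add_nonneg hs ht)

lemma eval_pos (h : Hyperbolic p e) (hp : p.IsHomogeneous d) {x : Fin n → ℝ} (hx : x ∈ oc p e) :
    0 < eval x p := by
  set f : ℝ → ℝ := fun s => eval ((1 - s) • x + s • e) p with hf
  have hc : Continuous f := (MvPolynomial.continuous_eval p).comp (by fun_prop)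
  have hne : ∀ s ∈ Set.Icc (0 : ℝ) 1, f s ≠ 0 := by
    intro s hs
    rcases hs.2.lt_or_eq with hlt | heq
    · have : (1 - s) • x + s • e = (1 - s) • (x + (s / (1 - s)) • e) := by
        rw [smul_add, smul_smul, mul_div_cancel₀ _ (by linarith)]
      simp only [hf, this, eval_smul hp]
      exact mul_ne_zero (pow_ne_zero _ (by linarith)) (hx _ (div_nonneg hs.1 (by linarith)))
    · simp only [hf, heq, sub_self, zero_smul, zero_add, one_smul]
      exact h.1.ne'
  by_contra hneg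
  have h0 : f 0 ≤ 0 := by simpa [hf] using not_lt.1 hneg
  have h1 : (0 : ℝ) ≤ f 1 := by simpa [hf] using h.1.le
  obtain ⟨s, hs, hs0⟩ := intermediate_value_Icc (zero_le_one (α := ℝ)) hc.continuousOn ⟨h0, h1⟩
  exact hne s hs hs0

lemma rr_LP (hp : p.IsHomogeneous d) (h : Hyperbolic p e) {a : Fin n → ℝ} (ha : a ∈ oc p e)
    (u : Fin n → ℝ) : RR (LP p a u) := by
  intro z hz
  by_contra hzi
  have hz0 : z ≠ 0 := fun hh => hzi (by simp [hh])
  have e1 : Polynomial.aeval z (LP p a u) = aeval (cpx n a + z • cpx n u) p := by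
    clear hz hp h ha
    induction p using MvPolynomial.induction_on with
    | C c => simp
    | add P Q hP hQ => simp [hP, hQ]
    | mul_X P i hP => simp [hP]; left; ring
  have e2 : cpx n a + z • cpx n u = z • (cpx n u + z⁻¹ • cpx n a) := by
    rw [smul_add, smul_smul, mul_inv_cancel₀ hz0, one_smul, add_comm]
  rw [e1, e2, aeval_smul hp] at hz
  have him : z⁻¹.im ≠ 0 := by
    rw [Complex.inv_im]
    exact div_ne_zero (neg_ne_zero.2 hzi) (Complex.normSq_pos.2 hz0).ne'
  exact (isHyp hp h).nz_dir (mem_oc_iff.1 ha) (t := z⁻¹) ⟨u, rfl⟩ him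
    ((mul_eq_zero.1 hz).resolve_left (pow_ne_zero _ hz0))

lemma seg_mem_oc (hp : p.IsHomogeneous d) (h : Hyperbolic p e) {a b : Fin n → ℝ}
    (ha : a ∈ oc p e) (hne : ∀ s ∈ Set.Icc (0 : ℝ) 1, eval (a + s • (b - a)) p ≠ 0) :
    b ∈ oc p e := by
  refine mem_oc_iff.2 ?_
  have hb : Continuous fun s : ℝ => cpx n (a + s • (b - a)) :=
    (cpx n).continuous_of_finiteDimensional.comp (by fun_prop)
  have := (isHyp hp h).mem_of_path hb (fun s _ => ⟨_, rfl⟩)
    (fun s hs => by
      show aeval (cpx n (a + s • (b - a))) p ≠ 0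
      rw [aeval_cpx]
      exact_mod_cast hne s hs) (by simpa using mem_oc_iff.1 ha)
  simpa using this

/-! ### The closed cone -/

lemma mem_hypCone_iff (hp : p.IsHomogeneous d) {x : Fin n → ℝ} :
    x ∈ hypCone p e ↔ ∀ t : ℝ, 0 < t → x + t • e ∈ oc p e := by
  have key : ∀ s : ℝ, (-s) • e - x = (-1 : ℝ) • (x + s • e) := fun s => by
    module
  constructor
  · intro hx t ht s hs h0
    have : eval ((-(t + s)) • e - x) p = 0 := by
      rw [key, eval_smul hp, add_smul, ← add_assoc, h0, mul_zero]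
    linarith [hx _ this]
  · intro hx t h0
    by_contra hneg
    refine hx (-t / 2) (by linarith) (-t / 2) (by linarith) ?_
    have := key (-t)
    rw [neg_neg] at this
    rw [this, eval_smul hp] at h0
    rw [add_assoc, ← add_smul, show -t / 2 + -t / 2 = -t by ring]
    exact (mul_eq_zero.1 h0).resolve_left (by simp)

lemma oc_subset (hp : p.IsHomogeneous d) {x : Fin n → ℝ} (hx : x ∈ oc p e) :
    x ∈ hypCone p e :=
  (mem_hypCone_iff hp).2 fun _ ht => oc_add_smul_e hx ht.le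

lemma eval_nonneg (h : Hyperbolic p e) (hp : p.IsHomogeneous d) {x : Fin n → ℝ}
    (hx : x ∈ hypCone p e) : 0 ≤ eval x p := by
  have hc : Continuous fun t : ℝ => eval (x + t • e) p :=
    (MvPolynomial.continuous_eval p).comp (by fun_prop)
  have := ge_of_tendsto (hc.continuousWithinAt (s := Set.Ioi 0) (x := 0))
    (Filter.eventually_of_mem self_mem_nhdsWithin fun t ht =>
      (eval_pos h hp ((mem_hypCone_iff hp).1 hx t ht)).le)
  simpa using this

lemma add_mem_hypCone (hp : p.IsHomogeneous d) (h : Hyperbolic p e) {a b : Fin n → ℝ}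
    (ha : a ∈ hypCone p e) (hb : b ∈ hypCone p e) : a + b ∈ hypCone p e := by
  refine (mem_hypCone_iff hp).2 fun t ht => ?_
  have := add_mem_oc hp h ((mem_hypCone_iff hp).1 ha (t / 2) (by linarith))
    ((mem_hypCone_iff hp).1 hb (t / 2) (by linarith))
  rwa [add_add_add_comm, ← add_smul, add_halves] at this

lemma smul_mem_hypCone (hp : p.IsHomogeneous d) (h : Hyperbolic p e) {c : ℝ} (hc : 0 ≤ c)
    {a : Fin n → ℝ} (ha : a ∈ hypCone p e) : c • a ∈ hypCone p e := by
  refine (mem_hypCone_iff hp).2 fun t ht => ?_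
  rcases hc.lt_or_eq with hc' | rfl
  · have := smul_mem_oc hp h hc' ((mem_hypCone_iff hp).1 ha (t / c) (div_pos ht hc'))
    rwa [smul_add, smul_smul, mul_div_cancel₀ _ hc'.ne'] at this
  · simpa using smul_mem_oc hp h ht (e_mem_oc hp h)

lemma isClosed_hypCone (hp : p.IsHomogeneous d) (h : Hyperbolic p e) :
    IsClosed (hypCone p e) := by
  refine isClosed_of_closure_subset fun x hx => (mem_hypCone_iff hp).2 fun t ht => ?_
  have hU : IsOpen ((fun y => x - y + (t / 2) • e) ⁻¹' oc p e) :=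
    (isOpen_oc hp h).preimage (by fun_prop)
  obtain ⟨y, hy, hyK⟩ := mem_closure_iff.1 hx _ hU
    (by simpa using smul_mem_oc hp h (half_pos ht) (e_mem_oc hp h))
  have := add_mem_oc hp h hy ((mem_hypCone_iff hp).1 hyK (t / 2) (half_pos ht))
  have e1 : x - y + (t / 2) • e + (y + (t / 2) • e) = x + t • e := by module
  exact e1 ▸ this

lemma eval_eq_zero_of_not_oc (hp : p.IsHomogeneous d) {x : Fin n → ℝ} (hx : x ∈ hypCone p e)
    (hxo : x ∉ oc p e) : eval x p = 0 := by
  simp only [oc, Set.mem_ofPred_eq, not_forall, not_not] at hxo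
  obtain ⟨t, ht, h0⟩ := hxo
  rcases ht.lt_or_eq with ht' | rfl
  · exact absurd h0 (by simpa using (mem_hypCone_iff hp).1 hx t ht' 0 le_rfl)
  · simpa using h0

lemma mem_frontier_of (hp : p.IsHomogeneous d) (h : Hyperbolic p e) {x : Fin n → ℝ}
    (hx : x ∈ hypCone p e) (h0 : eval x p = 0) : x ∈ frontier (hypCone p e) := by
  rw [(isClosed_hypCone hp h).frontier_eq]
  refine ⟨hx, fun hi => ?_⟩
  have hc : Continuous fun s : ℝ => x - s • e := by fun_prop
  obtain ⟨δ, hδ, hball⟩ := Metric.isOpen_iff.1 (isOpen_interior.preimage hc) 0 (by simpa using hi)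
  have hm : δ / 2 ∈ Metric.ball (0 : ℝ) δ := by
    simp [abs_of_pos hδ]; linarith
  have := (mem_hypCone_iff hp).1 (interior_subset (hball hm)) (δ / 2) (half_pos hδ) 0 le_rfl
  simp [h0] at this

lemma frontier_facts (hp : p.IsHomogeneous d) (h : Hyperbolic p e) {x : Fin n → ℝ}
    (hx : x ∈ frontier (hypCone p e)) : x ∈ hypCone p e ∧ eval x p = 0 := by
  rw [(isClosed_hypCone hp h).frontier_eq] at hx
  refine ⟨hx.1, eval_eq_zero_of_not_oc hp hx.1 fun ho => hx.2 ?_⟩
  exact interior_maximal (fun y hy => oc_subset hp hy) (isOpen_oc hp h) ho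

end Vale.Agent.P256.Shadow
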