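import Vale.Agent.P256.Shadow.Box

/-!
Spectrahedral shadows, linear representations of conical shadows and their sums, and the local lift
by truncated moments on a box.
-/

namespace Vale.Agent.P256.Shadow

open MvPolynomial Matrix

/-- A spectrahedral shadow: the projection of the solution set of one symmetric linear matrix
inequality. -/
def IsShadow {m : ℕ} (S : Set (Fin m → ℝ)) : Prop :=
  ∃ (r a : ℕ) (A₀ : Matrix (Fin r) (Fin r) ℝ) (A : Fin m → Matrix (Fin r) (Fin r) ℝ)
    (B : Fin a → Matrix (Fin r) (Fin r) ℝ),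
    A₀.IsSymm ∧ (∀ i, (A i).IsSymm) ∧ (∀ j, (B j).IsSymm) ∧
    ∀ x, x ∈ S ↔ ∃ u : Fin a → ℝ, (A₀ + ∑ i, x i • A i + ∑ j, u j • B j).PosSemidef

/-- A conical shadow with a linear (homogeneous) description. -/
def Rep {n : ℕ} (S : Set (Fin n → ℝ)) : Prop :=
  ∃ (ι κ : Type) (_ : Fintype ι) (_ : Fintype κ) (P : (ι → ℝ) →ₗ[ℝ] (Fin n → ℝ))
    (F : (ι → ℝ) →ₗ[ℝ] Matrix κ κ ℝ),
    (∀ y, (F y).IsSymm) ∧ ∀ x, x ∈ S ↔ ∃ y, P y = x ∧ (F y).PosSemidef

lemma psd_iff {κ : Type*} [Fintype κ] {M : Matrix κ κ ℝ} (h : M.IsSymm) :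
    M.PosSemidef ↔ ∀ v : κ → ℝ, 0 ≤ v ⬝ᵥ M *ᵥ v := by
  rw [posSemidef_iff_dotProduct_mulVec]
  simp [Matrix.IsHermitian, Matrix.conjTranspose_eq_transpose_of_trivial, h.eq]

lemma psd_blocks {κ κ' : Type*} [Fintype κ] [Fintype κ'] {A : Matrix κ κ ℝ} {D : Matrix κ' κ' ℝ}
    (hA : A.IsSymm) (hD : D.IsSymm) :
    (fromBlocks A 0 0 D).PosSemidef ↔ A.PosSemidef ∧ D.PosSemidef := by
  rw [psd_iff (hA.fromBlocks (by simp) hD), psd_iff hA, psd_iff hD]
  constructor
  · intro h
    refine ⟨fun v => ?_, fun v => ?_⟩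
    · simpa [fromBlocks_mulVec, dotProduct, Fintype.sum_sum_type, Function.comp_def] using
        h (Sum.elim v (0 : κ' → ℝ))
    · simpa [fromBlocks_mulVec, dotProduct, Fintype.sum_sum_type, Function.comp_def] using
        h (Sum.elim (0 : κ → ℝ) v)
  · intro h v
    have e : v ⬝ᵥ fromBlocks A 0 0 D *ᵥ v =
        (v ∘ Sum.inl) ⬝ᵥ A *ᵥ (v ∘ Sum.inl) + (v ∘ Sum.inr) ⬝ᵥ D *ᵥ (v ∘ Sum.inr) := by
      simp [fromBlocks_mulVec, dotProduct, Fintype.sum_sum_type]
    rw [e]
    exact add_nonneg (h.1 _) (h.2 _)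

section Blocks

variable {V κ κ' : Type*} [AddCommGroup V] [Module ℝ V]

/-- Two linear matrix maps as one block diagonal map. -/
noncomputable def blocks (f : V →ₗ[ℝ] Matrix κ κ ℝ) (g : V →ₗ[ℝ] Matrix κ' κ' ℝ) :
    V →ₗ[ℝ] Matrix (κ ⊕ κ') (κ ⊕ κ') ℝ where
  toFun v := fromBlocks (f v) 0 0 (g v)
  map_add' a b := by simp [fromBlocks_add]
  map_smul' c a := by simp [fromBlocks_smul]

lemma blocks_symm {f : V →ₗ[ℝ] Matrix κ κ ℝ} {g : V →ₗ[ℝ] Matrix κ' κ' ℝ}
    (hf : ∀ v, (f v).IsSymm) (hg : ∀ v, (g v).IsSymm) (v : V) : (blocks f g v).IsSymm :=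
  (hf v).fromBlocks (by simp) (hg v)

end Blocks

variable {n k : ℕ}

lemma Rep.zero : Rep ({0} : Set (Fin n → ℝ)) :=
  ⟨Empty, Empty, inferInstance, inferInstance, 0, 0, fun _ => isSymm_zero, fun x =>
    ⟨fun h => ⟨0, by simpa using h.symm, by simpa using Matrix.PosSemidef.zero⟩,
      fun ⟨_, h, _⟩ => by simpa using h.symm⟩⟩

open scoped Pointwise in
lemma Rep.add {S T : Set (Fin n → ℝ)} (hS : Rep S) (hT : Rep T) : Rep (S + T) := by
  obtain ⟨ι, κ, _, _, P, F, hF, hS⟩ := hS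
  obtain ⟨ι', κ', _, _, P', F', hF', hT⟩ := hT
  refine ⟨ι ⊕ ι', κ ⊕ κ', inferInstance, inferInstance,
    P ∘ₗ LinearMap.funLeft ℝ ℝ Sum.inl + P' ∘ₗ LinearMap.funLeft ℝ ℝ Sum.inr,
    blocks (F ∘ₗ LinearMap.funLeft ℝ ℝ Sum.inl) (F' ∘ₗ LinearMap.funLeft ℝ ℝ Sum.inr),
    blocks_symm (fun _ => hF _) (fun _ => hF' _), fun x => ?_⟩
  constructor
  · rintro ⟨a, ha, b, hb, rfl⟩
    obtain ⟨y, rfl, hy⟩ := (hS a).1 ha
    obtain ⟨y', rfl, hy'⟩ := (hT b).1 hb
    exact ⟨Sum.elim y y', by simp [LinearMap.funLeft, Function.comp_def],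
      (psd_blocks (hF _) (hF' _)).2 ⟨by simpa [LinearMap.funLeft, Function.comp_def] using hy,
        by simpa [LinearMap.funLeft, Function.comp_def] using hy'⟩⟩
  · rintro ⟨y, rfl, hy⟩
    obtain ⟨h1, h2⟩ := (psd_blocks (hF _) (hF' _)).1 hy
    exact ⟨_, (hS _).2 ⟨_, rfl, h1⟩, _, (hT _).2 ⟨_, rfl, h2⟩, rfl⟩

lemma Rep.isShadow {S : Set (Fin n → ℝ)} (h : Rep S) : IsShadow S := by
  classical
  obtain ⟨ι, κ, _, _, P, F, hF, hS⟩ := h
  let d : (Fin n → ℝ) →ₗ[ℝ] Matrix (Fin n) (Fin n) ℝ := diagonalLinearMap (Fin n) ℝ ℝ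
  let D : (Fin n → ℝ) × (ι → ℝ) →ₗ[ℝ] (Fin n → ℝ) := LinearMap.fst ℝ _ _ - P ∘ₗ LinearMap.snd ℝ _ _
  let Ψ := blocks (F ∘ₗ LinearMap.snd ℝ (Fin n → ℝ) (ι → ℝ)) (blocks (d ∘ₗ D) (d ∘ₗ (-D)))
  have hΨ : ∀ v, (Ψ v).IsSymm :=
    blocks_symm (fun _ => hF _) (blocks_symm (fun _ => isSymm_diagonal _) fun _ => isSymm_diagonal _)
  have hiff : ∀ x, x ∈ S ↔ ∃ y, (Ψ (x, y)).PosSemidef := fun x => by
    rw [hS]
    refine exists_congr fun y => ?_
    show _ ↔ (fromBlocks (F y) 0 0
      (fromBlocks (diagonal (x - P y)) 0 0 (diagonal (-(x - P y))))).PosSemidef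
    rw [psd_blocks (hF y) ((isSymm_diagonal _).fromBlocks (by simp) (isSymm_diagonal _)),
      psd_blocks (isSymm_diagonal _) (isSymm_diagonal _), posSemidef_diagonal_iff,
      posSemidef_diagonal_iff]
    simp only [Pi.sub_apply, Pi.neg_apply]
    constructor
    · rintro ⟨rfl, h⟩; exact ⟨h, by simp, by simp⟩
    · rintro ⟨h, h1, h2⟩
      exact ⟨funext fun i => by linarith [h1 i, h2 i], h⟩
  let eκ := Fintype.equivFin (κ ⊕ (Fin n ⊕ Fin n))
  let eι := Fintype.equivFin ι
  let R : Matrix (κ ⊕ (Fin n ⊕ Fin n)) (κ ⊕ (Fin n ⊕ Fin n)) ℝ ≃ₗ[ℝ] _ :=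
    Matrix.reindexLinearEquiv ℝ ℝ eκ eκ
  refine ⟨_, Fintype.card ι, 0, fun i => R (Ψ (Pi.single i 1, 0)),
    fun j => R (Ψ (0, Pi.single (eι.symm j) 1)), isSymm_zero, fun i => (hΨ _).submatrix _,
    fun j => (hΨ _).submatrix _, fun x => (hiff x).trans ?_⟩
  have key : ∀ (y : ι → ℝ), (0 + ∑ i, x i • R (Ψ (Pi.single i 1, 0)) +
      ∑ j, y (eι.symm j) • R (Ψ (0, Pi.single (eι.symm j) 1))) = R (Ψ (x, y)) := fun y => by
    simp only [zero_add, ← map_smul, ← map_sum, ← map_add]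
    congr 2
    rw [Equiv.sum_comp eι.symm (fun i => y i • ((0 : Fin n → ℝ), (Pi.single i (1 : ℝ) : ι → ℝ)))]
    refine Prod.ext ?_ ?_
    · simp [Prod.fst_sum, ← pi_eq_sum_univ']
    · simp [Prod.snd_sum, ← pi_eq_sum_univ']
  constructor
  · rintro ⟨y, hy⟩
    exact ⟨fun j => y (eι.symm j), by rw [key]; exact hy.submatrix _⟩
  · rintro ⟨u, hu⟩
    refine ⟨fun i => u (eι i), ?_⟩
    have := key (fun i => u (eι i))
    simp only [Equiv.apply_symm_apply] at this
    rw [this] at hu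
    exact (posSemidef_submatrix_equiv eκ.symm).1 hu

/-! ### The local lift -/

/-- A constraint of the box. -/
noncomputable def fac (r : ℝ) (s : Fin n × Bool) : MvPolynomial (Fin n) ℝ :=
  C r + (if s.2 then X s.1 else -X s.1)

/-- The monomial basis of affine polynomials. -/
noncomputable def hb : Option (Fin n) → MvPolynomial (Fin n) ℝ
  | none => 1
  | some i => X i

lemma aff_eq (c0 : ℝ) (c : Fin n → ℝ) :
    aff c0 c = ∑ a : Option (Fin n), C (a.elim c0 c) * hb a := by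
  simp [aff, hb, Fintype.sum_option]

/-- The functional given by truncated moments. -/
noncomputable def mom (A : Finset (Fin n →₀ ℕ)) :
    (↥A → ℝ) →ₗ[ℝ] MvPolynomial (Fin n) ℝ →ₗ[ℝ] ℝ :=
  ∑ α : ↥A, (LinearMap.proj α).smulRight
    ((LinearMap.id : ℝ →ₗ[ℝ] ℝ) ∘ₗ MvPolynomial.lcoeff ℝ (α : Fin n →₀ ℕ))

lemma mom_apply (A : Finset (Fin n →₀ ℕ)) (y : ↥A → ℝ) (f : MvPolynomial (Fin n) ℝ) :
    mom A y f = ∑ α : ↥A, y α * coeff (α : Fin n →₀ ℕ) f := by
  simp [mom]

lemma eval_eq_mom {A : Finset (Fin n →₀ ℕ)} {f : MvPolynomial (Fin n) ℝ} (hf : f.support ⊆ A)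
    (c : ℝ) (m : Fin n → ℝ) :
    mom A (fun α => c * eval m (monomial (α : Fin n →₀ ℕ) 1)) f = c * eval m f := by
  rw [mom_apply, Finset.sum_coe_sort A (fun α => c * eval m (monomial α 1) * coeff α f)]
  conv_rhs => rw [f.as_sum, map_sum, Finset.mul_sum,
    Finset.sum_subset hf (fun α _ hα => by simp [notMem_support_iff.1 hα])]
  refine Finset.sum_congr rfl fun α _ => ?_
  simp [eval_monomial]; ring

theorem local_lift (G : Fin k → Fin k → MvPolynomial (Fin n) ℝ) (hsym : ∀ i j, G i j = G j i)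
    (hG : StrictConcave G) :
    ∃ r0 > 0, ∃ c > 0, ∀ r : ℝ, 0 < r → r ≤ r0 →
      (∀ m z : Fin n → ℝ, (∀ i, |m i| ≤ r) → (∀ i, |z i| ≤ r) → ∀ v : Fin k → ℝ,
        eval z (quad G v) + c * (v ⬝ᵥ v) * ∑ a, (z a - m a) ^ 2 ≤
          eval m (quad G v) + ∑ a, eval m (pderiv a (quad G v)) * (z a - m a)) ∧
      ∀ (x0 : Fin n → ℝ) (Pr : (Fin n → ℝ) →ₗ[ℝ] (Fin n → ℝ)), ∃ S, Rep S ∧
        (∀ x ∈ S, x = 0 ∨ ∃ l : ℝ, 0 < l ∧ ∃ m : Fin n → ℝ, (∀ i, |m i| ≤ r) ∧
          (∀ v, 0 ≤ eval m (quad G v)) ∧ x = l • (x0 + Pr m)) ∧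
        ∀ (l : ℝ) (m : Fin n → ℝ), 0 ≤ l → (∀ i, |m i| ≤ r) → (∀ v, 0 ≤ eval m (quad G v)) →
          l • (x0 + Pr m) ∈ S := by
  classical
  obtain ⟨c, hc, K, r0, hr0, hcert⟩ := concave_cert G hG
  refine ⟨r0, hr0, c, hc, fun r hr hle => ⟨fun m z hm hz v => ?_, fun x0 Pr => ?_⟩⟩
  · have h := hcert r hr hle m hm v (MvPolynomial.aeval z).toLinearMap (fun f hf c0 cc => by
      show 0 ≤ aeval z (f * aff c0 cc ^ 2)
      rw [aeval_eq_eval, map_mul, map_pow]
      exact mul_nonneg (hf.eval_nonneg hz) (sq_nonneg _))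
    simp only [AlgHom.toLinearMap_apply, aeval_eq_eval, map_add, map_sub, map_mul, map_sum,
      eval_C, wv, eval_X] at h
    simp only [sq]
    linarith
  let mu : List (Fin n × Bool) → MvPolynomial (Fin n) ℝ := fun l => (l.map (fac r)).prod
  let S := Σ len : Fin (K + 2), (Fin len → Fin n × Bool)
  let tst : S × Option (Fin n) → Option (Fin n) → MvPolynomial (Fin n) ℝ :=
    fun s b => mu (List.ofFn s.1.2) * (hb s.2 * hb b)
  let A : Finset (Fin n →₀ ℕ) := (insert (1 : MvPolynomial (Fin n) ℝ)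
    (Finset.univ.image (X : Fin n → MvPolynomial (Fin n) ℝ) ∪
      Finset.univ.image (fun x : Fin k × Fin k => G x.1 x.2) ∪
      Finset.univ.image (fun x : (S × Option (Fin n)) × Option (Fin n) => tst x.1 x.2))).biUnion
    MvPolynomial.support
  let Mm : (↥A → ℝ) →ₗ[ℝ] Matrix (S × Option (Fin n)) (S × Option (Fin n)) ℝ :=
    { toFun := fun y => Matrix.of fun a b => if a.1 = b.1 then mom A y (tst a b.2) else 0
      map_add' := fun y z => by
        ext a b
        simp only [Matrix.of_apply, Matrix.add_apply, map_add, LinearMap.add_apply]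
        split_ifs <;> simp
      map_smul' := fun c y => by
        ext a b
        simp only [Matrix.of_apply, Matrix.smul_apply, map_smul, LinearMap.smul_apply,
          RingHom.id_apply]
        split_ifs <;> simp }
  let Gm : (↥A → ℝ) →ₗ[ℝ] Matrix (Fin k) (Fin k) ℝ :=
    { toFun := fun y => Matrix.of fun i j => mom A y (G i j)
      map_add' := fun y z => by ext i j; simp
      map_smul' := fun c y => by ext i j; simp }
  let Xm : (↥A → ℝ) →ₗ[ℝ] (Fin n → ℝ) := LinearMap.pi fun i => (mom A).flip (X i)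
  let P : (↥A → ℝ) →ₗ[ℝ] (Fin n → ℝ) := ((mom A).flip 1).smulRight x0 + Pr ∘ₗ Xm
  have hMs : ∀ y, (Mm y).IsSymm := fun y => by
    ext a b
    show (if b.1 = a.1 then _ else 0) = if a.1 = b.1 then _ else 0
    rcases eq_or_ne a.1 b.1 with h | h
    · rw [if_pos h.symm, if_pos h]
      simp only [tst]
      rw [h, mul_comm (hb b.2)]
    · rw [if_neg h, if_neg (Ne.symm h)]
  have hGs : ∀ y, (Gm y).IsSymm := fun y => by ext i j; simp [Gm, hsym i j]
  have hquadG : ∀ y v, v ⬝ᵥ Gm y *ᵥ v = mom A y (quad G v) := fun y v => by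
    simp only [quad, dotProduct, Matrix.mulVec, Gm, LinearMap.coe_mk, AddHom.coe_mk,
      Matrix.of_apply, Finset.mul_sum, map_sum, ← smul_eq_C_mul, map_smul, smul_eq_mul]
    exact Finset.sum_congr rfl fun i _ => Finset.sum_congr rfl fun j _ => by ring
  have hquadM : ∀ y v, v ⬝ᵥ Mm y *ᵥ v =
      ∑ s : S, mom A y (mu (List.ofFn s.2) * (∑ a, C (v (s, a)) * hb a) ^ 2) := fun y v => by
    simp only [dotProduct, Matrix.mulVec, Mm, LinearMap.coe_mk, AddHom.coe_mk, Matrix.of_apply,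
      Fintype.sum_prod_type]
    refine Finset.sum_congr rfl fun s _ => ?_
    rw [sq, Finset.sum_mul_sum, Finset.mul_sum, map_sum]
    refine Finset.sum_congr rfl fun a _ => ?_
    rw [Finset.sum_eq_single s (fun s' _ h => by simp [h.symm])
      (fun h => absurd (Finset.mem_univ _) h)]
    simp only [if_true]
    rw [Finset.mul_sum, Finset.mul_sum, map_sum]
    refine Finset.sum_congr rfl fun b _ => ?_
    rw [show mu (List.ofFn s.2) * (C (v (s, a)) * hb a * (C (v (s, b)) * hb b)) =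
      (v (s, a) * v (s, b)) • tst (s, a) b by
        simp only [tst, smul_eq_C_mul, map_mul]; ring, map_smul, smul_eq_mul]
    ring
  refine ⟨{x | ∃ y, P y = x ∧ (blocks Mm Gm y).PosSemidef}, ⟨↥A, _, inferInstance, inferInstance,
    P, blocks Mm Gm, blocks_symm hMs hGs, fun x => Iff.rfl⟩, ?_, ?_⟩
  · rintro x ⟨y, rfl, hy⟩
    obtain ⟨hM, hGy⟩ := (psd_blocks (hMs y) (hGs y)).1 hy
    rw [psd_iff (hMs y)] at hM
    rw [psd_iff (hGs y)] at hGy
    set L := mom A y with hL
    have hmu : ∀ (l : List (Fin n × Bool)), l.length ≤ K + 1 → ∀ c0 cc,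
        0 ≤ L (mu l * aff c0 cc ^ 2) := by
      intro l hl c0 cc
      let s0 : S := ⟨⟨l.length, by omega⟩, l.get⟩
      have hs0 : List.ofFn s0.2 = l := List.ofFn_get l
      have h := hM (fun x => if x.1 = s0 then x.2.elim c0 cc else 0)
      rw [hquadM, Finset.sum_eq_single s0 (fun s _ hs => by simp [hs]) (fun h => absurd
        (Finset.mem_univ _) h)] at h
      simp only [if_true, hs0] at h
      rwa [← aff_eq] at h
    have hpos : ∀ K' f, BoxPos r K' f → ∀ l : List (Fin n × Bool), l.length + K' ≤ K + 1 →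
        ∀ c0 cc, 0 ≤ L (mu l * f * aff c0 cc ^ 2) := by
      intro K' f hf
      induction hf with
      | @const K' a ha =>
        intro l hl c0 cc
        rw [show mu l * C a * aff c0 cc ^ 2 = a • (mu l * aff c0 cc ^ 2) by
          rw [smul_eq_C_mul]; ring, map_smul, smul_eq_mul]
        exact mul_nonneg ha (hmu l (by omega) c0 cc)
      | @fac K' f i b _ ih =>
        intro l hl c0 cc
        have := ih ((i, b) :: l) (by simp; omega) c0 cc
        convert this using 2
        simp only [mu, fac, List.map_cons, List.prod_cons]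
        ring
      | add _ _ i1 i2 =>
        intro l hl c0 cc
        rw [mul_add, add_mul, map_add]
        exact add_nonneg (i1 l hl c0 cc) (i2 l hl c0 cc)
    have hLPos : LPos r K L := fun f hf c0 cc => by
      simpa [mu] using hpos K f hf [] (by simp) c0 cc
    have h0 : 0 ≤ L 1 := by simpa [mu, aff] using hmu [] (by simp) 1 0
    have hX : ∀ i, |L (X i)| ≤ r * L 1 := fun i => by
      have h1 := hmu [(i, true)] (by simp) 1 0
      have h2 := hmu [(i, false)] (by simp) 1 0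
      simp only [mu, aff, fac, List.map_cons, List.map_nil, List.prod_cons, List.prod_nil, map_zero,
        zero_mul, Finset.sum_const_zero, add_zero, map_one, one_pow, mul_one, Pi.zero_apply,
        Bool.false_eq_true, if_true, if_false, map_add, map_neg] at h1 h2
      rw [show (C r : MvPolynomial (Fin n) ℝ) = r • 1 by simp [smul_eq_C_mul], map_smul,
        smul_eq_mul] at h1 h2
      rw [abs_le]
      constructor <;> linarith
    rcases h0.lt_or_eq with hl | hl
    · refine Or.inr ⟨L 1, hl, fun i => L (X i) / L 1, fun i => ?_, fun v => ?_, ?_⟩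
      · rw [abs_div, abs_of_pos hl, div_le_iff₀ hl]; exact hX i
      · set m : Fin n → ℝ := fun i => L (X i) / L 1
        have hm : ∀ i, |m i| ≤ r := fun i => by
          rw [abs_div, abs_of_pos hl, div_le_iff₀ hl]; exact hX i
        have h := hcert r hr hle m hm v L hLPos
        have hw : ∀ a, L (wv m a) = 0 := fun a => by
          rw [wv, map_sub, show C (m a) = m a • (1 : MvPolynomial (Fin n) ℝ) by
            simp [smul_eq_C_mul], map_smul, smul_eq_mul]
          simp [m, hl.ne']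
        have hwb : ∀ a, 0 ≤ L (wv m a * wv m a) := fun a => by
          have := hLPos 1 (by simpa using BoxPos.const (r := r) (K := K) zero_le_one)
            (-(m a)) (Pi.single a 1)
          simpa [aff, wv, Pi.single_apply, ite_mul, sq, sub_eq_neg_add] using this
        simp only [map_add, map_sub, map_sum, ← smul_eq_C_mul, map_smul, hw, smul_zero,
          Finset.sum_const_zero, add_zero] at h
        rw [show C (eval m (quad G v)) = eval m (quad G v) • (1 : MvPolynomial (Fin n) ℝ) by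
          simp [smul_eq_C_mul], map_smul, smul_eq_mul] at h
        have hq : 0 ≤ L (quad G v) := hquadG y v ▸ hGy v
        have : 0 ≤ c * (v ⬝ᵥ v) * ∑ a, L (wv m a * wv m a) :=
          mul_nonneg (mul_nonneg hc.le (Finset.sum_nonneg fun i _ => mul_self_nonneg _))
            (Finset.sum_nonneg fun a _ => hwb a)
        exact (mul_nonneg_iff_of_pos_right hl).1 (by linarith)
      · simp only [P, Xm, LinearMap.add_apply, LinearMap.coe_smulRight, LinearMap.flip_apply,
          LinearMap.comp_apply, smul_add, ← map_smul, L]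
        congr 2
        funext i
        simp only [LinearMap.pi_apply, LinearMap.flip_apply, Pi.smul_apply, smul_eq_mul]
        rw [mul_div_cancel₀ _ hl.ne']
    · left
      have : Xm y = 0 := funext fun i => by
        have := hX i
        rw [← hl, mul_zero, abs_nonpos_iff] at this
        exact this
      simp [P, this, ← hL, ← hl]
  · intro l m hl hm hv
    let y : ↥A → ℝ := fun α => l * eval m (monomial (α : Fin n →₀ ℕ) 1)
    have hy : ∀ f : MvPolynomial (Fin n) ℝ, (f = 1 ∨ (∃ i, f = X i) ∨ (∃ i j, f = G i j) ∨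
        ∃ s b, f = tst s b) → mom A y f = l * eval m f := fun f hf => by
      refine eval_eq_mom ?_ l m
      refine Finset.subset_biUnion_of_mem MvPolynomial.support ?_
      rcases hf with rfl | ⟨i, rfl⟩ | ⟨i, j, rfl⟩ | ⟨s, b, rfl⟩
      · exact Finset.mem_insert_self _ _
      all_goals refine Finset.mem_insert_of_mem ?_
      · simp
      · simp
      · simp
    refine ⟨y, ?_, (psd_blocks (hMs y) (hGs y)).2 ⟨(psd_iff (hMs y)).2 fun v => ?_,
      (psd_iff (hGs y)).2 fun v => ?_⟩⟩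
    · simp only [P, Xm, LinearMap.add_apply, LinearMap.coe_smulRight, LinearMap.flip_apply,
        LinearMap.comp_apply, hy 1 (Or.inl rfl), map_one, mul_one, smul_add, ← map_smul]
      congr 2
      funext i
      simp [hy (X i) (Or.inr (Or.inl ⟨i, rfl⟩))]
    · rw [hquadM]
      refine Finset.sum_nonneg fun s _ => ?_
      have e : mom A y (mu (List.ofFn s.2) * (∑ a, C (v (s, a)) * hb a) ^ 2) =
          l * eval m (mu (List.ofFn s.2) * (∑ a, C (v (s, a)) * hb a) ^ 2) := by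
        have ee : mu (List.ofFn s.2) * (∑ a, C (v (s, a)) * hb a) ^ 2 =
            ∑ a, ∑ b, (v (s, a) * v (s, b)) • tst (s, a) b := by
          rw [sq, Finset.sum_mul_sum, Finset.mul_sum]
          refine Finset.sum_congr rfl fun a _ => ?_
          rw [Finset.mul_sum]
          exact Finset.sum_congr rfl fun b _ => by simp only [tst, smul_eq_C_mul, map_mul]; ring
        simp only [ee, map_sum, Finset.mul_sum, smul_eq_C_mul, map_mul,
          eval_C]
        refine Finset.sum_congr rfl fun a _ => Finset.sum_congr rfl fun b _ => ?_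
        rw [← map_mul C, ← smul_eq_C_mul, map_smul, hy _ (Or.inr (Or.inr (Or.inr ⟨_, _, rfl⟩)))]
        simp; ring
      rw [e, map_mul, map_pow]
      refine mul_nonneg hl (mul_nonneg ?_ (sq_nonneg _))
      rw [show mu (List.ofFn s.2) = ((List.ofFn s.2).map (fac r)).prod from rfl, map_list_prod]
      refine List.prod_nonneg fun x hx => ?_
      simp only [List.map_map, List.mem_map] at hx
      obtain ⟨⟨i, b⟩, -, rfl⟩ := hx
      have := abs_le.1 (hm i)
      cases b <;> simp [fac] <;> linarith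
    · rw [hquadG]
      have : mom A y (quad G v) = l * eval m (quad G v) := by
        simp only [quad, map_sum, ← smul_eq_C_mul, map_smul, smul_eq_mul, Finset.mul_sum]
        refine Finset.sum_congr rfl fun i _ => Finset.sum_congr rfl fun j _ => ?_
        rw [hy _ (Or.inr (Or.inr (Or.inl ⟨i, j, rfl⟩))), smul_eq_C_mul, map_mul, eval_C]
        ring
      rw [this]
      exact mul_nonneg hl (hv v)

end Vale.Agent.P256.Shadow
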