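import Vale.Agent.P256.Shadow.Cone
import Vale.Agent.P256.Shadow.Rep

/-!
From a strictly matrix-concave local description of a hyperbolicity cone to a local conical lift,
and the passage from a degenerate concave matrix `G` to `G - b G²`.
-/

namespace Vale.Agent.P256.Shadow

open MvPolynomial Matrix

variable {n k d : ℕ}

/-- Pull back along a linear map. -/
noncomputable def pull (Pr : (Fin n → ℝ) →ₗ[ℝ] (Fin n → ℝ)) :
    MvPolynomial (Fin n) ℝ →ₐ[ℝ] MvPolynomial (Fin n) ℝ :=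
  aeval fun i => ∑ l, C (Pr (Pi.single l 1) i) * X l

lemma pull_apply_eq (Pr : (Fin n → ℝ) →ₗ[ℝ] (Fin n → ℝ)) (z : Fin n → ℝ) (i : Fin n) :
    ∑ l, Pr (Pi.single l 1) i * z l = Pr z i := by
  conv_rhs => rw [pi_eq_sum_univ' z]
  simp [mul_comm]

lemma eval_pull (Pr : (Fin n → ℝ) →ₗ[ℝ] (Fin n → ℝ)) (z : Fin n → ℝ)
    (P : MvPolynomial (Fin n) ℝ) : eval z (pull Pr P) = eval (Pr z) P := by
  induction P using MvPolynomial.induction_on with
  | C a => simp [pull]
  | add P Q hP hQ => simp [hP, hQ]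
  | mul_X P i hP => simp [hP]; simp [pull, pull_apply_eq]

lemma LP_pull (Pr : (Fin n → ℝ) →ₗ[ℝ] (Fin n → ℝ)) (u : Fin n → ℝ)
    (P : MvPolynomial (Fin n) ℝ) : LP (pull Pr P) 0 u = LP P 0 (Pr u) := by
  induction P using MvPolynomial.induction_on with
  | C a => simp [pull]
  | add P Q hP hQ => simp [hP, hQ]
  | mul_X P i hP =>
    have : LP (pull Pr (X i)) 0 u = LP (X i) 0 (Pr u) := by
      simp only [pull, aeval_X, LP_sum, LP_mul, LP_C, LP_X, Pi.zero_apply, map_zero, zero_add,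
        ← pull_apply_eq Pr u i, map_sum, map_mul, Finset.sum_mul]
      exact Finset.sum_congr rfl fun l _ => by ring
    simp only [map_mul, LP_mul, hP, this]

lemma coeff_two_smul (P : MvPolynomial (Fin n) ℝ) (a : ℝ) (u : Fin n → ℝ) :
    (LP P 0 (a • u)).coeff 2 = a ^ 2 * (LP P 0 u).coeff 2 := by
  have h1 := coeff_two_LP P 0 (a • u)
  have h2 := coeff_two_LP P 0 u
  have e : eval 0 (Dv (a • u) (Dv (a • u) P)) = a ^ 2 * eval 0 (Dv u (Dv u P)) := by
    simp only [Dv, Pi.smul_apply, smul_eq_mul, map_sum, map_mul, eval_C, Finset.mul_sum,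
      pderiv_mul, pderiv_C, zero_mul, mul_zero, zero_add]
    exact Finset.sum_congr rfl fun i _ => Finset.sum_congr rfl fun j _ => by ring
  linear_combination h1 / 2 + (-a ^ 2 / 2) * h2 + e / 2

lemma quad_smul (G : Fin k → Fin k → MvPolynomial (Fin n) ℝ) (b : ℝ) (v : Fin k → ℝ) :
    quad G (b • v) = C (b ^ 2) * quad G v := by
  simp only [quad, Pi.smul_apply, smul_eq_mul, Finset.mul_sum]
  exact Finset.sum_congr rfl fun i _ => Finset.sum_congr rfl fun j _ => by
    simp only [map_mul, map_pow]; ring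

lemma coeff_two_hom (G : Fin k → Fin k → MvPolynomial (Fin n) ℝ) (a b : ℝ) (u : Fin n → ℝ)
    (v : Fin k → ℝ) :
    (LP (quad G (b • v)) 0 (a • u)).coeff 2 = a ^ 2 * b ^ 2 * (LP (quad G v) 0 u).coeff 2 := by
  rw [quad_smul, LP_mul, LP_C, Polynomial.coeff_C_mul, coeff_two_smul]
  ring

lemma eval_quad (G : Fin k → Fin k → MvPolynomial (Fin n) ℝ) (v : Fin k → ℝ) (z : Fin n → ℝ) :
    eval z (quad G v) = ∑ i, ∑ j, v i * v j * eval z (G i j) := by
  simp [quad]

/-- A chart of the projective space at `x0`: the complement orthogonal to `x0`. -/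
noncomputable def proj (a : Fin n → ℝ) : (Fin n → ℝ) →ₗ[ℝ] (Fin n → ℝ) :=
  LinearMap.id - (((a ⬝ᵥ a)⁻¹) • (dotProductBilin ℝ ℝ a)).smulRight a

lemma proj_apply (a z : Fin n → ℝ) : proj a z = z - ((a ⬝ᵥ a)⁻¹ * (a ⬝ᵥ z)) • a := by
  simp [proj]

lemma dot_self_pos {a : Fin n → ℝ} (ha : a ≠ 0) : 0 < a ⬝ᵥ a :=
  lt_of_le_of_ne (Finset.sum_nonneg fun i _ => mul_self_nonneg _)
    fun h => ha (dotProduct_self_eq_zero.1 h.symm)

lemma dot_proj {a : Fin n → ℝ} (ha : a ≠ 0) (z : Fin n → ℝ) : a ⬝ᵥ proj a z = 0 := by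
  rw [proj_apply, dotProduct_sub, dotProduct_smul, smul_eq_mul]
  field_simp [(dot_self_pos ha).ne']
  ring

lemma proj_of_dot {a z : Fin n → ℝ} (hz : a ⬝ᵥ z = 0) : proj a z = z := by
  simp [proj_apply, hz]

variable {p : MvPolynomial (Fin n) ℝ} {e : Fin n → ℝ}

/-- A strictly concave local description gives a local conical lift inside the cone. -/
theorem local_piece (hp : p.IsHomogeneous d) (h : Hyperbolic p e) {x0 : Fin n → ℝ} (hx : x0 ≠ 0)
    (hxK : x0 ∈ hypCone p e) (G : Fin k → Fin k → MvPolynomial (Fin n) ℝ)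
    (hsym : ∀ i j, G i j = G j i)
    (hneg : ∀ u v, x0 ⬝ᵥ u = 0 → u ≠ 0 → v ≠ 0 → (LP (quad G v) 0 u).coeff 2 < 0)
    {δ : ℝ} (hδ : 0 < δ)
    (hin : ∀ w, x0 ⬝ᵥ w = 0 → ‖w‖ < δ → x0 + w ∈ hypCone p e → ∀ v, 0 ≤ eval w (quad G v))
    (hpos : ∀ w, x0 ⬝ᵥ w = 0 → ‖w‖ < δ → (∀ v, v ≠ 0 → 0 < eval w (quad G v)) →
      eval (x0 + w) p ≠ 0) :
    ∃ S, Rep S ∧ S ⊆ hypCone p e ∧ ∃ U, IsOpen U ∧ x0 ∈ U ∧ hypCone p e ∩ U ⊆ S := by
  classical
  set Pr := proj x0 with hPr
  let ℓ : MvPolynomial (Fin n) ℝ := ∑ l, C (x0 l) * X l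
  let G' : Fin k → Fin k → MvPolynomial (Fin n) ℝ :=
    fun i j => pull Pr (G i j) - if i = j then ℓ * ℓ else 0
  have hG'q : ∀ v, quad G' v = pull Pr (quad G v) - C (v ⬝ᵥ v) * (ℓ * ℓ) := fun v => by
    simp only [quad, G', mul_sub, Finset.sum_sub_distrib, map_sum, map_mul, mul_ite, mul_zero,
      Finset.sum_ite_eq, Finset.mem_univ, if_true, dotProduct, Finset.sum_mul]
    simp [pull]
  have hG'e : ∀ v z, eval z (quad G' v) =
      eval (Pr z) (quad G v) - (v ⬝ᵥ v) * (x0 ⬝ᵥ z) ^ 2 := fun v z => by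
    rw [hG'q, map_sub, eval_pull]
    simp [ℓ, dotProduct, sq]
  have hstrict : StrictConcave G' := by
    intro u v hu hv
    have hℓ : LP ℓ 0 u = Polynomial.C (x0 ⬝ᵥ u) * Polynomial.X := by
      simp [ℓ, dotProduct, map_sum, Finset.sum_mul, mul_assoc]
    rw [hG'q, LP_sub, LP_pull, LP_mul, LP_C, LP_mul, hℓ, Polynomial.coeff_sub,
      show Polynomial.C (x0 ⬝ᵥ u) * Polynomial.X * (Polynomial.C (x0 ⬝ᵥ u) * Polynomial.X) =
        Polynomial.C ((x0 ⬝ᵥ u) * (x0 ⬝ᵥ u)) * Polynomial.X ^ 2 by rw [map_mul]; ring,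
      Polynomial.coeff_C_mul, Polynomial.coeff_C_mul, Polynomial.coeff_X_pow, if_pos rfl, mul_one]
    rcases eq_or_ne (Pr u) 0 with h0 | h0
    · have hz := coeff_two_smul (quad G v) 0 u
      rw [zero_smul] at hz
      rw [h0, hz]
      have hd : x0 ⬝ᵥ u ≠ 0 := fun hd => hu (by rwa [hPr, proj_of_dot hd] at h0)
      have := mul_pos (dot_self_pos hv) (mul_self_pos.2 hd)
      linarith
    · have h1 := hneg (Pr u) v (dot_proj hx u) h0 hv
      have := mul_nonneg (dot_self_pos hv).le (mul_self_nonneg (x0 ⬝ᵥ u))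
      linarith
  obtain ⟨r0, hr0, c, hc, hloc⟩ := local_lift G' (fun i j => by
    simp only [G', hsym i j, eq_comm (a := i) (b := j)]) hstrict
  set Prc := LinearMap.toContinuousLinearMap Pr
  set r' := min r0 (δ / 2) with hr'
  have hr'0 : 0 < r' := lt_min hr0 (half_pos hδ)
  set r := r' / (1 + ‖Prc‖) with hr
  have hr0' : 0 < r := div_pos hr'0 (by positivity)
  have hrle : r ≤ r' := div_le_self hr'0.le (by linarith [norm_nonneg Prc])
  obtain ⟨hconc, -⟩ := hloc r' hr'0 (min_le_left _ _)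
  obtain ⟨S, hS, hsound, hcomp⟩ := (hloc r hr0' (hrle.trans (min_le_left _ _))).2 x0 Pr
  have hsmall : ∀ w : Fin n → ℝ, ‖w‖ ≤ r' → ‖w‖ < δ := fun w hw =>
    lt_of_le_of_lt (hw.trans (min_le_right _ _)) (half_lt_self hδ)
  have hbox : ∀ {w : Fin n → ℝ} {s : ℝ}, ‖w‖ ≤ s → ∀ i, |w i| ≤ s := fun hw i => by
    have := (norm_le_pi_norm _ i).trans hw
    rwa [Real.norm_eq_abs] at this
  -- a point of the open cone in the chart near `x0`
  set lam : ℝ → ℝ := fun τ => 1 + τ * ((x0 ⬝ᵥ x0)⁻¹ * (x0 ⬝ᵥ e)) with hlam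
  set wt : ℝ → (Fin n → ℝ) := fun τ => (τ / lam τ) • Pr e with hwt
  have hl0 : ContinuousAt lam 0 := by fun_prop
  have hw0 : ContinuousAt wt 0 := by
    show ContinuousAt (fun τ => (τ / lam τ) • Pr e) 0
    have hd : ContinuousAt (fun τ : ℝ => τ / lam τ) 0 := continuousAt_id.div hl0 (by simp [hlam])
    exact hd.smul (continuousAt_const (y := Pr e))
  have hev : ∀ᶠ τ in nhds (0 : ℝ), 0 < lam τ ∧ ‖wt τ‖ < r' :=
    (hl0.eventually_const_lt (by simp [hlam])).and
      (hw0.norm.eventually_lt_const (by simpa [hwt, hlam] using hr'0))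
  obtain ⟨τ, ⟨hlpos, hwτ⟩, hτ⟩ :=
    ((hev.filter_mono nhdsWithin_le_nhds).and (self_mem_nhdsWithin (s := Set.Ioi (0 : ℝ)))).exists
  have hwoc : x0 + wt τ ∈ oc p e := by
    have h1 : x0 + τ • e = lam τ • (x0 + wt τ) := by
      rw [hwt, smul_add, smul_smul, mul_div_cancel₀ _ hlpos.ne', hPr, proj_apply, smul_sub,
        smul_smul, hlam, add_smul, one_smul]
      abel
    have h2 := smul_mem_oc hp h (inv_pos.2 hlpos) ((mem_hypCone_iff hp).1 hxK τ hτ)
    rwa [h1, inv_smul_smul₀ hlpos.ne'] at h2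
  have hwtdot : x0 ⬝ᵥ wt τ = 0 := by simp [hwt, hPr, dot_proj hx]
  -- soundness
  have hmemK : ∀ w, x0 ⬝ᵥ w = 0 → ‖w‖ ≤ r' → (∀ v, 0 ≤ eval w (quad G v)) →
      x0 + w ∈ hypCone p e := by
    intro w hw0 hw hwG
    rcases eq_or_ne w (wt τ) with rfl | hne
    · exact oc_subset hp hwoc
    have hT := hin _ hwtdot (hsmall _ hwτ.le) (oc_subset hp hwoc)
    have hseg : ∀ s : ℝ, 0 < s → s ≤ 1 → eval (x0 + (w + s • (wt τ - w))) p ≠ 0 := by
      intro s hs hs1
      rcases hs1.lt_or_eq with hlt | rfl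
      · set z := w + s • (wt τ - w) with hz
        have hz0 : x0 ⬝ᵥ z = 0 := by simp [hz, hw0, hwtdot, dotProduct_smul]
        have hzn : ‖z‖ ≤ r' := by
          have e1 : z = (1 - s) • w + s • wt τ := by rw [hz]; module
          rw [e1]
          refine (norm_add_le _ _).trans ?_
          rw [norm_smul, norm_smul, Real.norm_eq_abs, Real.norm_eq_abs, abs_of_pos hs,
            abs_of_pos (by linarith : 0 < 1 - s)]
          nlinarith [hwτ.le]
        refine hpos z hz0 (hsmall _ hzn) fun v hv => ?_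
        have h1 := hconc z w (hbox hzn) (hbox hw) v
        have h2 := hconc z (wt τ) (hbox hzn) (hbox hwτ.le) v
        simp only [hG'e, hPr, proj_of_dot hz0, proj_of_dot hw0, proj_of_dot hwtdot, hz0, hw0,
          hwtdot] at h1 h2
        have hlin : (1 - s) * ∑ a, eval z (pderiv a (quad G' v)) * (w a - z a) +
            s * ∑ a, eval z (pderiv a (quad G' v)) * (wt τ a - z a) = 0 := by
          rw [Finset.mul_sum, Finset.mul_sum, ← Finset.sum_add_distrib]
          refine Finset.sum_eq_zero fun a _ => ?_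
          simp only [hz, Pi.add_apply, Pi.smul_apply, Pi.sub_apply, smul_eq_mul]
          ring
        have hsq : 0 < ∑ a, (w a - z a) ^ 2 := by
          have : w - z ≠ 0 := by
            rw [hz, sub_add_cancel_left, neg_ne_zero]
            exact smul_ne_zero hs.ne' (sub_ne_zero.2 hne.symm)
          simpa [dotProduct, sq] using dot_self_pos this
        have hsq2 : 0 ≤ ∑ a, (wt τ a - z a) ^ 2 := Finset.sum_nonneg fun a _ => sq_nonneg _
        have hcv := mul_pos hc (dot_self_pos hv)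
        nlinarith [mul_pos (mul_pos (by linarith : 0 < 1 - s) hcv) hsq,
          mul_nonneg (mul_nonneg hs.le hcv.le) hsq2, mul_le_mul_of_nonneg_left h1
          (by linarith : 0 ≤ 1 - s), mul_le_mul_of_nonneg_left h2 hs.le,
          mul_nonneg (by linarith : 0 ≤ 1 - s) (hwG v), mul_nonneg hs.le (hT v)]
      · rw [one_smul, add_sub_cancel]
        exact hwoc 0 le_rfl |> fun h => by simpa using h
    have hoc : ∀ η : ℝ, 0 < η → η ≤ 1 → x0 + (w + η • (wt τ - w)) ∈ oc p e := by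
      intro η hη hη1
      refine seg_mem_oc hp h hwoc fun s hs => ?_
      have : x0 + wt τ + s • (x0 + (w + η • (wt τ - w)) - (x0 + wt τ)) =
          x0 + (w + (1 - s * (1 - η)) • (wt τ - w)) := by module
      rw [this]
      refine hseg _ ?_ ?_ <;> nlinarith [hs.1, hs.2]
    have hc' : Continuous fun η : ℝ => x0 + (w + η • (wt τ - w)) := by fun_prop
    refine (isClosed_hypCone hp h).mem_of_tendsto (b := nhdsWithin (0 : ℝ) (Set.Ioi 0))
      ((hc'.tendsto' 0 _ (by simp)).mono_left nhdsWithin_le_nhds) ?_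
    filter_upwards [self_mem_nhdsWithin, nhdsWithin_le_nhds (Iio_mem_nhds zero_lt_one)] with η h1 h2
      using oc_subset hp (hoc η h1 h2.le)
  refine ⟨S, hS, fun x hxS => ?_, ?_⟩
  · rcases hsound x hxS with rfl | ⟨l, hl, m, hm, hmG, rfl⟩
    · simpa using smul_mem_hypCone hp h le_rfl hxK
    · refine smul_mem_hypCone hp h hl.le (hmemK _ (dot_proj hx m) ?_ fun v => ?_)
      · refine (Prc.le_opNorm m).trans ?_
        have hm' : ‖m‖ ≤ r := (pi_norm_le_iff_of_nonneg hr0'.le).2 fun i => by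
          rw [Real.norm_eq_abs]; exact hm i
        calc ‖Prc‖ * ‖m‖ ≤ (1 + ‖Prc‖) * r :=
              mul_le_mul (by linarith) hm' (norm_nonneg _) (by positivity)
          _ = r' := by rw [hr]; field_simp
      · have := hmG v
        rw [hG'e] at this
        have := mul_nonneg (dotProduct_self_nonneg' v) (sq_nonneg (x0 ⬝ᵥ m))
        linarith
  · set L : (Fin n → ℝ) → ℝ := fun x => (x0 ⬝ᵥ x0)⁻¹ * (x0 ⬝ᵥ x) with hL
    have hLc : Continuous L := continuous_const.mul (continuous_const.dotProduct continuous_id)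
    refine ⟨{x | 0 < L x} ∩ {x | ‖Pr x‖ < L x * r},
      (isOpen_lt continuous_const hLc).inter
        (isOpen_lt Prc.continuous.norm (hLc.mul continuous_const)), ?_, ?_⟩
    · have : L x0 = 1 := inv_mul_cancel₀ (dot_self_pos hx).ne'
      refine ⟨by simp [this], ?_⟩
      show ‖Pr x0‖ < L x0 * r
      simp [this, hPr, proj_apply, (dot_self_pos hx).ne', hr0']
    · rintro x ⟨hxK', hlx, hnx⟩
      set l := L x
      set m := l⁻¹ • Pr x
      have hlx' : (0 : ℝ) < l := hlx
      have hm0 : x0 ⬝ᵥ m = 0 := by simp [m, hPr, dot_proj hx]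
      have hxeq : x = l • (x0 + Pr m) := by
        rw [hPr, proj_of_dot hm0, smul_add, smul_inv_smul₀ hlx'.ne', hPr, proj_apply]
        simp [l, L]
      have hmn : ‖m‖ ≤ r := by
        rw [norm_smul, norm_inv, Real.norm_eq_abs, abs_of_pos hlx', inv_mul_le_iff₀ hlx']
        exact le_of_lt hnx
      rw [hxeq]
      refine hcomp l m hlx'.le (hbox hmn) fun v => ?_
      have hxm : x0 + m ∈ hypCone p e := by
        have := smul_mem_hypCone hp h (inv_pos.2 hlx').le hxK'
        rwa [hxeq, inv_smul_smul₀ hlx'.ne', hPr, proj_of_dot hm0] at this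
      rw [hG'e, hm0, hPr, proj_of_dot hm0]
      simpa using hin m hm0 (hsmall m (hmn.trans hrle)) hxm v
where
  dotProduct_self_nonneg' {k : ℕ} (v : Fin k → ℝ) : 0 ≤ v ⬝ᵥ v :=
    Finset.sum_nonneg fun i _ => mul_self_nonneg (v i)

lemma sum_row_sq (G : Fin k → Fin k → MvPolynomial (Fin n) ℝ) (v : Fin k → ℝ) :
    ∑ l, (∑ j, C (v j) * G l j) * (∑ j, C (v j) * G l j) =
      quad (fun i j => ∑ l, G l i * G l j) v := by
  simp only [quad, Finset.sum_mul_sum]
  rw [Finset.sum_comm]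
  refine Finset.sum_congr rfl fun i _ => ?_
  rw [Finset.sum_comm]
  refine Finset.sum_congr rfl fun j _ => ?_
  rw [Finset.mul_sum]
  refine Finset.sum_congr rfl fun l _ => ?_
  rw [map_mul]
  ring

lemma quad_sub_sq (G : Fin k → Fin k → MvPolynomial (Fin n) ℝ) (b : ℝ) (v : Fin k → ℝ) :
    quad (fun i j => G i j - C b * ∑ l, G l i * G l j) v =
      quad G v - C b * ∑ l, (∑ j, C (v j) * G l j) * (∑ j, C (v j) * G l j) := by
  rw [sum_row_sq]
  unfold quad
  rw [Finset.mul_sum, ← Finset.sum_sub_distrib]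
  refine Finset.sum_congr rfl fun i _ => ?_
  rw [Finset.mul_sum, ← Finset.sum_sub_distrib]
  exact Finset.sum_congr rfl fun j _ => by ring

/-- `G - b G²` is strictly concave for large `b` if `G` is so on the kernel of its linear part. -/
theorem squash (a : Fin n → ℝ) (G : Fin k → Fin k → MvPolynomial (Fin n) ℝ)
    (hsym : ∀ i j, G i j = G j i) (h0 : ∀ i j, eval 0 (G i j) = 0)
    (hker : ∀ u v, a ⬝ᵥ u = 0 → u ≠ 0 → v ≠ 0 →
      (∀ i, (LP (∑ j, C (v j) * G i j) 0 u).coeff 1 = 0) → (LP (quad G v) 0 u).coeff 2 < 0) :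
    ∃ G' : Fin k → Fin k → MvPolynomial (Fin n) ℝ, (∀ i j, G' i j = G' j i) ∧
      (∀ u v, a ⬝ᵥ u = 0 → u ≠ 0 → v ≠ 0 → (LP (quad G' v) 0 u).coeff 2 < 0) ∧
      (∃ δ > 0, ∀ w, ‖w‖ < δ → (∀ v, 0 ≤ eval w (quad G v)) → ∀ v, 0 ≤ eval w (quad G' v)) ∧
      ∀ w v, eval w (quad G' v) ≤ eval w (quad G v) := by
  classical
  let row : (Fin k → ℝ) → Fin k → MvPolynomial (Fin n) ℝ := fun v i => ∑ j, C (v j) * G i j
  let Sn : Set (Fin n → ℝ) := {u | a ⬝ᵥ u = 0} ∩ Metric.sphere 0 1
  have hS : IsCompact (Sn ×ˢ Metric.sphere (0 : Fin k → ℝ) 1) :=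
    ((isCompact_sphere _ _).inter_left
      (isClosed_eq (continuous_const.dotProduct continuous_id) continuous_const)).prod
      (isCompact_sphere _ _)
  let A : (Fin n → ℝ) × (Fin k → ℝ) → ℝ := fun x => (LP (quad G x.2) 0 x.1).coeff 2
  let B : (Fin n → ℝ) × (Fin k → ℝ) → ℝ := fun x => ∑ i, ((LP (row x.2 i) 0 x.1).coeff 1) ^ 2
  have hA : Continuous A := by
    have : A = fun x => (∑ l, ∑ m, x.1 l * x.1 m * ∑ i, ∑ j, x.2 i * x.2 j *
        eval 0 (pderiv l (pderiv m (G i j)))) / 2 := by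
      funext x
      have h := coeff_two_LP (quad G x.2) 0 x.1
      have e : eval 0 (Dv x.1 (Dv x.1 (quad G x.2))) = ∑ l, ∑ m, x.1 l * x.1 m * ∑ i, ∑ j,
          x.2 i * x.2 j * eval 0 (pderiv l (pderiv m (G i j))) := by
        simp only [Dv, quad, map_sum, map_mul, eval_C, Finset.mul_sum, pderiv_mul, pderiv_C,
          zero_mul, mul_zero, zero_add, add_zero]
        refine Finset.sum_congr rfl fun l _ => Finset.sum_congr rfl fun m _ =>
          Finset.sum_congr rfl fun i _ => Finset.sum_congr rfl fun j _ => by ring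
      simp only [A]
      linarith
    rw [this]; fun_prop
  have hB : Continuous B := by
    have : B = fun x => ∑ i, (∑ l, x.1 l * ∑ j, x.2 j * eval 0 (pderiv l (G i j))) ^ 2 := by
      funext x
      refine Finset.sum_congr rfl fun i _ => ?_
      rw [coeff_one_LP]
      simp [Dv, row]
    rw [this]; fun_prop
  obtain ⟨b, hb⟩ := exists_large hS hA hB (fun x => Finset.sum_nonneg fun i _ => sq_nonneg _)
    (fun x hx hB0 => hker x.1 x.2 hx.1.1 (fun h => by simpa [h] using hx.1.2)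
      (fun h => by simpa [h] using hx.2) fun i => by
        have := (Finset.sum_eq_zero_iff_of_nonneg fun i _ => sq_nonneg _).1 hB0 i (Finset.mem_univ i)
        exact pow_eq_zero_iff two_ne_zero |>.1 this)
  let G' : Fin k → Fin k → MvPolynomial (Fin n) ℝ :=
    fun i j => G i j - C (b : ℝ) * ∑ l, G l i * G l j
  have hq : ∀ v, quad G' v = quad G v - C (b : ℝ) * ∑ l, row v l * row v l :=
    fun v => quad_sub_sq G b v
  have heval : ∀ w v, eval w (quad G' v) =
      eval w (quad G v) - b * ∑ l, eval w (row v l) ^ 2 := fun w v => by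
    simp [hq, sq]
  refine ⟨G', fun i j => ?_, fun u v hu hu0 hv0 => ?_, ?_, fun w v => ?_⟩
  · simp only [G', hsym i j]
    congr 2
    exact Finset.sum_congr rfl fun l _ => mul_comm _ _
  · have hun : 0 < ‖u‖ := norm_pos_iff.2 hu0
    have hvn : 0 < ‖v‖ := norm_pos_iff.2 hv0
    have hmem : (‖u‖⁻¹ • u, ‖v‖⁻¹ • v) ∈ Sn ×ˢ Metric.sphere (0 : Fin k → ℝ) 1 := by
      refine ⟨⟨by simp [hu], ?_⟩, ?_⟩ <;>
        simp [norm_smul, norm_inv, hun.ne', hvn.ne']
    have key : ∀ x : (Fin n → ℝ) × (Fin k → ℝ),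
        (LP (quad G' x.2) 0 x.1).coeff 2 = A x - b * B x := fun x => by
      have e0 : ∀ l, (LP (row x.2 l) 0 x.1).coeff 0 = 0 := fun l => by
        rw [coeff_zero_LP]; simp only [row, map_sum, map_mul, h0, mul_zero, Finset.sum_const_zero]
      simp only [hq, LP_sub, LP_mul, LP_C, LP_sum, Polynomial.coeff_sub, Polynomial.coeff_C_mul,
        Polynomial.finsetSum_coeff, A, B]
      congr 2
      refine Finset.sum_congr rfl fun l _ => ?_
      rw [Polynomial.coeff_mul]
      simp [Finset.Nat.sum_antidiagonal_succ, e0, sq]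
    have h1 := hb _ hmem
    rw [← key, coeff_two_hom] at h1
    by_contra hge
    exact absurd h1 (not_lt.2 (mul_nonneg (by positivity) (not_lt.1 hge)))
  · have hc : ContinuousAt (fun w => (b : ℝ) * ∑ i, eval w (G i i)) 0 :=
      (continuous_const.mul (continuous_finsetSum _ fun i _ =>
        MvPolynomial.continuous_eval (G i i))).continuousAt
    have h1 : (b : ℝ) * ∑ i, eval (0 : Fin n → ℝ) (G i i) < 1 := by
      simp only [h0, Finset.sum_const_zero, mul_zero, zero_lt_one]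
    obtain ⟨δ, hδ, hball⟩ := Metric.eventually_nhds_iff.1 (hc.eventually_lt_const h1)
    refine ⟨δ, hδ, fun w hw hG v => ?_⟩
    have htr : (b : ℝ) * ∑ i, eval w (G i i) < 1 := hball (by simpa using hw)
    let Gw : Matrix (Fin k) (Fin k) ℝ := Matrix.of fun i j => eval w (G i j)
    have hps : Gw.PosSemidef := (psd_iff (by ext i j; simp [Gw, hsym i j])).2 fun v => by
      have := hG v
      rw [eval_quad] at this
      simpa [dotProduct, Matrix.mulVec, Gw, Finset.mul_sum, mul_assoc, mul_comm, mul_left_comm]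
        using this
    obtain ⟨Q, hQ⟩ := Vale.Agent.P256.exists_factor hps
    have hQe : ∀ i j, eval w (G i j) = ∑ l, Q l i * Q l j := fun i j => by
      have := congrArg (fun M => M i j) hQ
      simpa [Gw, Matrix.mul_apply] using this
    have e1 : eval w (quad G v) = ∑ l, (∑ i, Q l i * v i) ^ 2 := by
      simp only [eval_quad, hQe, sq, Finset.mul_sum, Finset.sum_mul]
      rw [Finset.sum_congr rfl fun i _ => Finset.sum_comm, Finset.sum_comm]
      exact Finset.sum_congr rfl fun l _ => Finset.sum_congr rfl fun i _ =>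
        Finset.sum_congr rfl fun j _ => by ring
    have e2 : ∑ i, eval w (row v i) ^ 2 ≤ (∑ i, eval w (G i i)) * eval w (quad G v) := by
      rw [e1, Finset.sum_mul]
      refine Finset.sum_le_sum fun i _ => ?_
      have e3 : eval w (row v i) = ∑ l, Q l i * ∑ j, Q l j * v j := by
        simp only [row, map_sum, map_mul, eval_C, hQe, Finset.mul_sum]
        rw [Finset.sum_comm]
        exact Finset.sum_congr rfl fun l _ => Finset.sum_congr rfl fun j _ => by ring
      rw [e3, hQe]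
      have := Finset.sum_mul_sq_le_sq_mul_sq Finset.univ (fun l => Q l i)
        (fun l => ∑ j, Q l j * v j)
      simpa [sq] using this
    rw [heval]
    have h2 := mul_le_mul_of_nonneg_left e2 (Nat.cast_nonneg (α := ℝ) b)
    have h3 := mul_le_mul_of_nonneg_right htr.le (hG v)
    linarith
  · rw [heval]
    linarith [mul_nonneg (Nat.cast_nonneg (α := ℝ) b)
      (Finset.sum_nonneg fun l _ => sq_nonneg (eval w (row v l)) : 0 ≤ ∑ l, eval w (row v l) ^ 2)]

end Vale.Agent.P256.Shadow
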