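import Vale.Agent.P256.Shadow.Loc

/-!
A boundary direction `y` of the tangent cone: transversal slope, negative curvature, the local
description of the cone in the blow-up, and the sign of the radial derivative.
-/

namespace Vale.Agent.P256.Shadow

open MvPolynomial Matrix Filter
open scoped Topology

variable {n d m : ℕ} {p : MvPolynomial (Fin n) ℝ} {e x0 : Fin n → ℝ}

lemma dv_comm (u w : Fin n → ℝ) (P : MvPolynomial (Fin n) ℝ) :
    Dv u (Dv w P) = Dv w (Dv u P) := by
  simp only [Dv, map_sum, pderiv_C_mul, Finset.mul_sum]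
  rw [Finset.sum_comm]
  exact Finset.sum_congr rfl fun i _ => Finset.sum_congr rfl fun j _ => by
    rw [pderiv_comm' j i]; ring

lemma dv_iterate_comm (u w : Fin n → ℝ) (k : ℕ) (P : MvPolynomial (Fin n) ℝ) :
    Dv w ((Dv u)^[k] P) = (Dv u)^[k] (Dv w P) := by
  induction k generalizing P with
  | zero => rfl
  | succ k ih => rw [Function.iterate_succ_apply, Function.iterate_succ_apply, ih, dv_comm w u]

lemma derivative_iterate_LP (P : MvPolynomial (Fin n) ℝ) (z u : Fin n → ℝ) (k : ℕ) :
    Polynomial.derivative^[k] (LP P z u) = LP ((Dv u)^[k] P) z u := by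
  induction k with
  | zero => rfl
  | succ k ih => rw [Function.iterate_succ_apply', Function.iterate_succ_apply', ih, derivative_LP]

lemma eval_iterate_dv (P : MvPolynomial (Fin n) ℝ) (z u : Fin n → ℝ) (k : ℕ) :
    eval z ((Dv u)^[k] P) = (k.factorial : ℝ) * (LP P z u).coeff k := by
  rw [← coeff_zero_LP _ z u, ← derivative_iterate_LP, Polynomial.coeff_iterate_derivative,
    zero_add, Nat.descFactorial_self, nsmul_eq_mul]

lemma iterate_hom {P : MvPolynomial (Fin n) ℝ} {j : ℕ} (h : P.IsHomogeneous j) (u : Fin n → ℝ)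
    (k : ℕ) : ((Dv u)^[k] P).IsHomogeneous (j - k) := by
  induction k with
  | zero => exact h
  | succ k ih =>
    rw [Function.iterate_succ_apply', ← Nat.sub_sub]
    exact MvPolynomial.IsHomogeneous.sum _ _ _ fun i _ => ih.pderiv.C_mul _

lemma dv_smul (c : ℝ) (u : Fin n → ℝ) (P : MvPolynomial (Fin n) ℝ) :
    Dv (c • u) P = C c * Dv u P := by
  simp [Dv, Finset.mul_sum, mul_assoc]

lemma aeval_LP (P : MvPolynomial (Fin n) ℝ) (a u : Fin n → ℝ) (z : ℂ) :
    Polynomial.aeval z (LP P a u) = aeval (fun i => (a i : ℂ) + z * (u i : ℂ)) P := by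
  induction P using MvPolynomial.induction_on with
  | C c => simp
  | add A B hA hB => simp [hA, hB]
  | mul_X A i hA => simp [hA]; left; ring

namespace Point

variable (P : Point p e x0 d m)
include P

/-- `X ^ m` times the radial restriction of the blow-up is the restriction of `p`. -/
lemma radial (y : Fin n → ℝ) :
    Polynomial.X ^ m * LP (blow p x0 m) (Fin.cons 0 y) (Fin.cons 1 0) = LP p x0 y := by
  refine Polynomial.funext fun ρ => ?_
  simp only [Polynomial.eval_mul, Polynomial.eval_pow, Polynomial.eval_X, eval_LP]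
  rw [← eval_blow P.low ρ y]
  congr 3
  funext i
  cases i using Fin.cases <;> simp

lemma slope_eq (hm : 1 ≤ m) (y : Fin n → ℝ) :
    (LP (Dv e p) x0 y).coeff (m - 1) = eval y (Dv e (part p x0 m)) := by
  set u1 : Fin (n + 1) → ℝ := Fin.cons 0 e
  have key : Polynomial.X * LP (Dv e p) x0 y =
      Polynomial.X ^ m * LP (Dv u1 (blow p x0 m)) (Fin.cons 0 y) (Fin.cons 1 0) := by
    refine Polynomial.funext fun ρ => ?_
    simp only [Polynomial.eval_mul, Polynomial.eval_pow, Polynomial.eval_X, eval_LP]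
    have e1 : LP p (x0 + ρ • y) (ρ • e) =
        Polynomial.C (ρ ^ m) * LP (blow p x0 m) (Fin.cons ρ y) u1 := by
      refine Polynomial.funext fun t => ?_
      rw [Polynomial.eval_mul, Polynomial.eval_C, eval_LP, eval_LP,
        show x0 + ρ • y + t • ρ • e = x0 + ρ • (y + t • e) by module, ← eval_blow P.low]
      congr 3
      funext i
      cases i using Fin.cases <;> simp [u1]
    have h1 := congrArg (fun q => Polynomial.coeff q 1) e1
    simp only [Polynomial.coeff_C_mul, coeff_one_LP, dv_smul, map_mul, eval_C] at h1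
    rw [h1]
    congr 3
    funext i
    cases i using Fin.cases <;> simp
  have h1 := congrArg (fun q => Polynomial.coeff q m) key
  obtain ⟨m', rfl⟩ : ∃ m', m = m' + 1 := ⟨m - 1, by omega⟩
  simp only [Polynomial.coeff_X_mul, Polynomial.coeff_X_pow_mul', le_refl, if_true,
    Nat.sub_self, coeff_zero_LP] at h1
  rw [Nat.add_sub_cancel, h1, ← coeff_one_LP (blow p x0 (m' + 1)) (Fin.cons 0 y) u1,
    ← coeff_one_LP (part p x0 (m' + 1)) y e]
  congr 1
  refine Polynomial.funext fun t => ?_
  rw [eval_LP, eval_LP, ← eval_blow_zero P.low]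
  congr 2
  funext i
  cases i using Fin.cases <;> simp [u1]

variable {y : Fin n → ℝ} (hy : y ∈ hypCone (part p x0 m) e) (hy0 : eval y (part p x0 m) = 0)
  (hgy : ∃ i, eval y (pderiv i (part p x0 m)) ≠ 0)

include hy hy0 hgy in
lemma slope_pos : 0 < eval y (Dv e (part p x0 m)) :=
  grad_pos (part_hom p x0 m) P.tangent_hyperbolic hy hy0 hgy

omit P in
lemma line_eval (B : MvPolynomial (Fin (n + 1)) ℝ) (ρ : ℝ) (z v : Fin n → ℝ) (s : ℝ) :
    (LP B (Fin.cons ρ z) (Fin.cons 0 v)).eval s = eval (Fin.cons ρ (z + s • v)) B := by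
  rw [eval_LP]
  congr 2
  funext i
  cases i using Fin.cases <;> simp

include hy hy0 hgy in
/-- The transversal slope stays positive on a short segment near a boundary direction. -/
lemma slope_tube : ∃ σ : ℝ, 0 < σ ∧ ∀ᶠ z : ℝ × (Fin n → ℝ) in 𝓝 ((0 : ℝ), y),
    ∀ s ∈ Set.Icc 0 σ,
      0 < eval (Fin.cons z.1 (z.2 + s • e)) (Dv (Fin.cons 0 e) (blow p x0 m)) := by
  have hv : Continuous fun v : Fin (n + 1) → ℝ => eval v (Dv (Fin.cons 0 e) (blow p x0 m)) :=
    MvPolynomial.continuous_eval _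
  have hD0 : 0 < eval (Fin.cons 0 (y + (0 : ℝ) • e)) (Dv (Fin.cons 0 e) (blow p x0 m)) := by
    rw [zero_smul, add_zero, ← coeff_one_LP]
    have e1 : LP (blow p x0 m) (Fin.cons 0 y) (Fin.cons 0 e) = LP (part p x0 m) y e :=
      Polynomial.funext fun t => by rw [line_eval, eval_LP, eval_blow_zero P.low]
    rw [e1, coeff_one_LP]
    exact P.slope_pos hy hy0 hgy
  have hc : Continuous fun a : (ℝ × (Fin n → ℝ)) × ℝ =>
      (Fin.cons a.1.1 (a.1.2 + a.2 • e) : Fin (n + 1) → ℝ) :=
    cons_cont continuous_fst.fst (continuous_fst.snd.add (continuous_snd.smul continuous_const))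
  have hDf := hv.comp hc
  have hc0 := hDf.comp (show Continuous fun s : ℝ => (((0 : ℝ), y), s) from
    continuous_const.prodMk continuous_id')
  obtain ⟨σ, hσ, hσpos⟩ := Metric.eventually_nhds_iff.1
    ((hc0.continuousAt (x := 0)).eventually_const_lt hD0)
  refine ⟨σ / 2, half_pos hσ, Point.tube (f := fun ρ z s =>
    eval (Fin.cons ρ (z + s • e)) (Dv (Fin.cons 0 e) (blow p x0 m))) hDf fun s hs => hσpos ?_⟩
  rw [dist_zero_right, Real.norm_eq_abs, abs_of_nonneg hs.1]
  linarith [hs.2]

omit P in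
lemma strictMono_line {B : MvPolynomial (Fin (n + 1)) ℝ} {ρ σ : ℝ} {z v : Fin n → ℝ}
    (h : ∀ s ∈ Set.Icc 0 σ, 0 < eval (Fin.cons ρ (z + s • v)) (Dv (Fin.cons 0 v) B)) :
    StrictMonoOn (fun s => eval (Fin.cons ρ (z + s • v)) B) (Set.Icc 0 σ) := by
  simp only [← line_eval]
  refine strictMonoOn_of_deriv_pos (convex_Icc _ _) (Polynomial.continuous _).continuousOn
    fun a ha => ?_
  rw [interior_Icc] at ha
  rw [Polynomial.deriv, derivative_LP, line_eval]
  exact h a (Set.Ioo_subset_Icc_self ha)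

omit P in
lemma tau_bounds {σ s r : ℝ} (hσ : 0 < σ) (h0 : 0 < s) (h1 : s < σ) (hr : r ∈ Set.Icc (0 : ℝ) 1) :
    0 < (1 - r) * σ + r * s ∧ (1 - r) * σ + r * s ≤ σ := by
  constructor
  · rcases hr.2.lt_or_eq with h | h
    · linarith [mul_pos (sub_pos.2 h) hσ, mul_nonneg hr.1 h0.le]
    · rw [h]; linarith
  · linarith [mul_le_mul_of_nonneg_left h1.le hr.1]

include hy hy0 hgy in
/-- Near a boundary direction the cone is `{blow ≥ 0}`. -/
lemma near_iff : ∀ᶠ z : ℝ × (Fin n → ℝ) in 𝓝 ((0 : ℝ), y),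
    0 < z.1 → (x0 + z.1 • z.2 ∈ hypCone p e ↔ 0 ≤ eval (Fin.cons z.1 z.2) (blow p x0 m)) := by
  obtain ⟨σ, hσ, hev⟩ := P.slope_tube hy hy0 hgy
  have hqh := part_hom p x0 m
  have hq := P.tangent_hyperbolic
  have hσ2 : y + σ • e ∈ oc (part p x0 m) e :=
    add_mem_oc' hqh hq hy (smul_mem_oc hqh hq hσ (e_mem_oc hqh hq))
  have hmap : Tendsto (fun z : ℝ × (Fin n → ℝ) => (z.1, z.2 + σ • e)) (𝓝 ((0 : ℝ), y))
      (𝓝 ((0 : ℝ), y + σ • e)) :=
    (continuous_fst.prodMk (continuous_snd.add continuous_const)).tendsto ((0 : ℝ), y)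
  filter_upwards [hev, hmap.eventually (P.interior_dir hσ2)] with z hz hzi hρ
  constructor
  · intro hK
    have := eval_nonneg P.h P.hp hK
    rw [← eval_blow P.low] at this
    exact (mul_nonneg_iff_of_pos_left (pow_pos hρ m)).1 this
  intro hB
  refine (mem_hypCone_iff P.hp).2 fun t ht => ?_
  have htop : x0 + z.1 • (z.2 + σ • e) ∈ oc p e := hzi hρ
  have hs0 : 0 < t / z.1 := div_pos ht hρ
  have et : x0 + z.1 • z.2 + t • e = x0 + z.1 • (z.2 + (t / z.1) • e) := by
    rw [smul_add, smul_smul, mul_div_cancel₀ _ hρ.ne', add_assoc]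
  rw [et]
  generalize t / z.1 = s0 at hs0
  rcases le_or_gt σ s0 with hbig | hsmall
  · have h' := oc_add_smul_e htop (mul_nonneg hρ.le (sub_nonneg.2 hbig))
    have e1 : x0 + z.1 • (z.2 + s0 • e) =
        x0 + z.1 • (z.2 + σ • e) + (z.1 * (s0 - σ)) • e := by module
    rw [e1]
    exact h'
  · refine seg_mem_oc P.hp P.h htop fun r hr => ?_
    have e1 : x0 + z.1 • (z.2 + σ • e) +
        r • (x0 + z.1 • (z.2 + s0 • e) - (x0 + z.1 • (z.2 + σ • e))) =
        x0 + z.1 • (z.2 + ((1 - r) * σ + r * s0) • e) := by module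
    rw [e1, ← eval_blow P.low]
    refine (mul_pos (pow_pos hρ m) ?_).ne'
    obtain ⟨h0, h1⟩ := tau_bounds hσ hs0 hsmall hr
    have h2 := strictMono_line hz ⟨le_rfl, hσ.le⟩ ⟨h0.le, h1⟩ h0
    simp only [zero_smul, add_zero] at h2
    exact lt_of_le_of_lt hB h2

include hy hy0 hgy in
lemma radial_neg (hm : 1 ≤ m) (hx : x0 ≠ 0)
    (hstrict : ∀ x ∈ frontier (hypCone p e), ∀ y ∈ frontier (hypCone p e),
      (1 / 2 : ℝ) • (x + y) ∈ frontier (hypCone p e) → ¬ LinearIndependent ℝ ![x, y])
    (hyne : y ≠ 0) (hyx : x0 ⬝ᵥ y = 0) :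
    (LP (blow p x0 m) (Fin.cons 0 y) (Fin.cons 1 0)).coeff 1 < 0 := by
  set Bl := LP (blow p x0 m) (Fin.cons 0 y) (Fin.cons 1 0) with hBl
  have hrad := P.radial y
  have hlow : ∀ k < m, (LP p x0 y).coeff k = 0 := fun k hk => by
    rw [← hrad, Polynomial.coeff_X_pow_mul', if_neg (by omega)]
  have hmid : (LP p x0 y).coeff m = 0 := by
    rw [← hrad, Polynomial.coeff_X_pow_mul', if_pos le_rfl, Nat.sub_self, coeff_zero_LP,
      eval_blow_zero P.low, hy0]
  have htop : (LP p x0 y).coeff (m + 1) = Bl.coeff 1 := by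
    rw [← hrad, Polynomial.coeff_X_pow_mul', if_pos (by omega), Nat.add_sub_cancel_left]
  obtain ⟨m', rfl⟩ : ∃ m', m = m' + 1 := ⟨m - 1, by omega⟩
  set F := (Dv y)^[m'] p with hF
  obtain ⟨R1, hR1c, hR1, hR1e⟩ := exp_one F x0 e
  obtain ⟨R2, hR2c, -, hR2e⟩ := exp_one (Dv y F) x0 e
  obtain ⟨R3, hR3c, -, hR3e⟩ := exp_one (Dv y (Dv y F)) x0 e
  have v0 : eval x0 F = 0 := by
    rw [hF, eval_iterate_dv, hlow m' (by omega), mul_zero]
  have v1 : eval x0 (Dv y F) = 0 := by
    rw [hF, ← Function.iterate_succ_apply' (f := Dv y), eval_iterate_dv, hmid, mul_zero]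
  set D3 := eval x0 (Dv y (Dv y F)) with hD3
  have hD3' : D3 = ((m' + 1 + 1).factorial : ℝ) * Bl.coeff 1 := by
    rw [hD3, hF, ← Function.iterate_succ_apply' (f := Dv y),
      ← Function.iterate_succ_apply' (f := Dv y), eval_iterate_dv,
      htop]
  have hpos : 0 < R1 0 := by
    rw [hR1, hF, dv_iterate_comm, eval_iterate_dv,
      show m' = m' + 1 - 1 from rfl, P.slope_eq hm]
    exact mul_pos (by positivity) (P.slope_pos hy hy0 hgy)
  have hrr : ∀ᶠ t in 𝓝[>] (0 : ℝ), (LP F (x0 + t • e) y).Splits :=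
    ev_pos.mono fun t ht => by
      rw [hF, ← derivative_iterate_LP]
      have h0 := (rr_LP P.hp P.h ((mem_hypCone_iff P.hp).1 P.hxK t ht) y).splits
      clear_value F
      clear hF
      induction m' with
      | zero => exact h0
      | succ k _ =>
        have hk : ∀ j, (Polynomial.derivative^[j] (LP p (x0 + t • e) y)).Splits := fun j => by
          induction j with
          | zero => exact h0
          | succ j ih => rw [Function.iterate_succ_apply']; exact splits_derivative ih
        exact hk _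
  have c0 : ∀ t, (LP F (x0 + t • e) y).coeff 0 = t * R1 t := fun t => by
    rw [coeff_zero_LP, hR1e, v0, zero_add]
  have c1 : ∀ t, (LP F (x0 + t • e) y).coeff 1 = t * R2 t := fun t => by
    rw [coeff_one_LP, hR2e, v1, zero_add]
  have c2 : ∀ t, 2 * (LP F (x0 + t • e) y).coeff 2 = D3 + t * R3 t := fun t => by
    rw [coeff_two_LP, hR3e]
  have hle : D3 ≤ 0 := by
    have hl := lim_nonneg (f := fun t => t * R2 t ^ 2 - R1 t * (D3 + t * R3 t)) (by fun_prop) (by
      filter_upwards [hrr, ev_pos, ev_of_lt continuous_const hR1c hpos] with t hs ht hR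
      rcases newton hs with hn | hn
      · rw [c1, c0] at hn
        refine le_of_mul_le_mul_left ?_ ht
        rw [mul_zero, ← c2 t]
        exact hn.trans_eq (by ring)
      · exact absurd hn (by rw [c0]; positivity))
    simp only [zero_mul, zero_sub, add_zero] at hl
    by_contra hD
    linarith [mul_pos hpos (not_le.1 hD)]
  have hD0 : D3 ≠ 0 := fun h0 => by
    obtain ⟨hline, -⟩ := bounded_lines (iterate_hom P.hp y m') hrr hR1c hR2c
      (show Continuous fun t => R3 t / 2 by fun_prop) hpos c0 c1 (fun t => by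
        have := c2 t
        rw [h0, zero_add] at this
        linarith)
    have hzero : LP p x0 y = 0 := by
      refine Polynomial.ext fun k => ?_
      rw [Polynomial.coeff_zero]
      rcases lt_or_ge k m' with hk | hk
      · exact hlow k (by omega)
      · have hF0 : LP F x0 y = 0 := Polynomial.funext fun s => by
          rw [eval_LP, hline, Polynomial.eval_zero]
        rw [hF, ← derivative_iterate_LP] at hF0
        have h1 := congrArg (fun q => Polynomial.coeff q (k - m')) hF0
        simp only [Polynomial.coeff_iterate_derivative, Nat.sub_add_cancel hk, nsmul_eq_mul,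
          Polynomial.coeff_zero, mul_eq_zero, Nat.cast_eq_zero,
          Nat.descFactorial_eq_zero_iff_lt] at h1
        exact h1.resolve_left (by omega)
    refine no_segment P.hp P.h hstrict hx (mem_frontier_of P.hp P.h P.hxK ?_) hyne hyx ?_
    · have := congrArg (fun q => Polynomial.coeff q 0) hzero
      simpa [coeff_zero_LP] using this
    have hmap : Tendsto (fun s : ℝ => (s, y)) (𝓝[>] (0 : ℝ)) (𝓝 ((0 : ℝ), y)) :=
      ((continuous_id'.prodMk continuous_const).tendsto 0).mono_left nhdsWithin_le_nhds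
    filter_upwards [ev_pos, hmap.eventually (P.near_iff hy hy0 hgy)] with s hs hiff
    have hz : eval (x0 + s • y) p = 0 := by rw [← eval_LP, hzero, Polynomial.eval_zero]
    refine ⟨(hiff hs).2 (le_of_eq ?_), hz⟩
    rw [← eval_blow P.low] at hz
    exact ((mul_eq_zero.1 hz).resolve_left (pow_pos hs _).ne').symm
  have hlt : D3 < 0 := hle.lt_of_ne hD0
  rw [hD3'] at hlt
  by_contra hge
  exact absurd hlt (not_lt.2 (mul_nonneg (by positivity) (not_lt.1 hge)))

include hy hy0 in
lemma curvature_dir (hm : 2 ≤ m) (hx : x0 ≠ 0)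
    (hsmooth : ∀ u ∈ frontier (hypCone (part p x0 m) e), (¬ ∃ c : ℝ, u = c • x0) →
      ∃ i, eval u (pderiv i (part p x0 m)) ≠ 0)
    (hyne : y ≠ 0) (hyx : x0 ⬝ᵥ y = 0) {η : Fin n → ℝ} (hη0 : η ≠ 0) (hηx : x0 ⬝ᵥ η = 0)
    (hηy : y ⬝ᵥ η = 0) (hηg : eval y (Dv η (part p x0 m)) = 0) :
    bh (part p x0 m) y η η < 0 := by
  set q := part p x0 m with hqd
  have hq := P.tangent_hyperbolic
  have hqh := part_hom p x0 m
  have hoff : ∀ u : Fin n → ℝ, u ≠ 0 → x0 ⬝ᵥ u = 0 → ¬ ∃ c : ℝ, u = c • x0 := by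
    rintro u hu hd ⟨c, rfl⟩
    rw [dotProduct_smul, smul_eq_mul, mul_eq_zero] at hd
    rcases hd with rfl | hd
    · exact hu (zero_smul _ _)
    · exact (dot_self_pos hx).ne' hd
  have hgy := hsmooth y (mem_frontier_of hqh hq hy hy0) (hoff y hyne hyx)
  refine (hess_nonpos hqh hq hy hy0 hgy hηg).lt_of_ne fun hB => ?_
  obtain ⟨hline, ρ, hρ, hK⟩ := null_line hqh hq hy hy0 hgy hηg hB
  have hpoly : ∀ a : ℝ, LP q (y + a • η) η = 0 := fun a => Polynomial.funext fun s => by
    rw [eval_LP, add_assoc, ← add_smul, hline, Polynomial.eval_zero]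
  have hne : ∀ s : ℝ, y + s • η ≠ 0 ∧ x0 ⬝ᵥ (y + s • η) = 0 := fun s => by
    refine ⟨fun h0 => (dot_self_pos hyne).ne' ?_, by simp [hyx, hηx]⟩
    have := congrArg (fun v => y ⬝ᵥ v) h0
    simpa [hηy] using this
  have hall : ∀ s : ℝ, y + s • η ∈ hypCone q e := by
    have hclopen : IsClopen {s : ℝ | y + s • η ∈ hypCone q e} := by
      refine ⟨(isClosed_hypCone hqh hq).preimage (by fun_prop), isOpen_iff_forall_mem_open.2
        fun a ha => ?_⟩
      have hga := hsmooth _ (mem_frontier_of hqh hq ha (hline a)) (hoff _ (hne a).1 (hne a).2)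
      have h1 : eval (y + a • η) (Dv η q) = 0 := by
        rw [← coeff_one_LP, hpoly, Polynomial.coeff_zero]
      have h2 : bh q (y + a • η) η η = 0 := by
        rw [← bh_eq, ← coeff_two_LP, hpoly, Polynomial.coeff_zero, mul_zero]
      obtain ⟨-, ρ', hρ', hK'⟩ := null_line hqh hq ha (hline a) hga h1 h2
      refine ⟨Metric.ball a ρ', fun s hs => ?_, Metric.isOpen_ball, Metric.mem_ball_self hρ'⟩
      have := hK' (s - a) (by rwa [Metric.mem_ball, Real.dist_eq] at hs)
      rwa [add_assoc, ← add_smul, add_sub_cancel] at this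
    have huniv := hclopen.eq_univ ⟨0, by simpa using hy⟩
    intro s
    have : s ∈ {s : ℝ | y + s • η ∈ hypCone q e} := by rw [huniv]; exact Set.mem_univ s
    exact this
  have hlim : ∀ σ : ℝ, σ = 1 ∨ σ = -1 → σ • η ∈ hypCone q e := by
    intro σ hσ
    refine (isClosed_hypCone hqh hq).mem_of_tendsto (b := 𝓝[>] (0 : ℝ))
      (f := fun t : ℝ => t • y + σ • η) ?_ (ev_pos.mono fun t ht => ?_)
    · have hc : Continuous fun t : ℝ => t • y + σ • η := by fun_prop
      exact (hc.tendsto' 0 _ (by simp)).mono_left nhdsWithin_le_nhds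
    · have := smul_mem_hypCone hqh hq ht.le (hall (σ / t))
      rwa [smul_add, smul_smul, mul_div_cancel₀ _ ht.ne'] at this
  have hpη : η ∈ hypCone q e := by simpa using hlim 1 (Or.inl rfl)
  have hmη : -η ∈ hypCone q e := by simpa using hlim (-1) (Or.inr rfl)
  have hη' : eval η q = 0 := by
    have hc : Continuous fun t : ℝ => eval (t • y + η) q :=
      (MvPolynomial.continuous_eval q).comp (by fun_prop)
    have hev : ∀ᶠ t in 𝓝[>] (0 : ℝ), eval (t • y + η) q = 0 := ev_pos.mono fun t ht => by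
      have e1 : t • y + η = t • (y + t⁻¹ • η) := by
        rw [smul_add, smul_smul, mul_inv_cancel₀ ht.ne', one_smul]
      rw [e1, eval_smul hqh, hline, mul_zero]
    have := tendsto_nhds_unique ((hc.tendsto 0).mono_left nhdsWithin_le_nhds)
      ((tendsto_const_nhds (x := (0 : ℝ))).congr' (hev.mono fun t h => h.symm))
    simpa using this
  have hge := hsmooth η (mem_frontier_of hqh hq hpη hη') (hoff η hη0 hηx)
  have hslope := grad_pos hqh hq hpη hη' hge
  have hsp : (LP q η e).Splits := by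
    refine RR.splits fun z hz => hq.2 (fun i => -η i) z ?_
    rw [← hz]
    clear hz
    rw [aeval_LP]
    congr 2
    funext i
    push_cast
    ring
  have hroots : ∀ r ∈ (LP q η e).roots, r = 0 := by
    intro r hr
    have hr0 : eval (η + r • e) q = 0 := by rw [← eval_LP]; exact (Polynomial.mem_roots'.1 hr).2
    rcases lt_trichotomy r 0 with hlt | heq | hgt
    · have h1 := eval_pos hq hqh ((mem_hypCone_iff hqh).1 hmη (-r) (by linarith))
      have e1 : -η + (-r) • e = (-1 : ℝ) • (η + r • e) := by module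
      rw [e1, eval_smul hqh, hr0, mul_zero] at h1
      exact absurd h1 (lt_irrefl _)
    · exact heq
    · exact absurd hr0 (eval_pos hq hqh ((mem_hypCone_iff hqh).1 hpη r hgt)).ne'
  have hX : LP q η e = Polynomial.C (LP q η e).leadingCoeff *
      Polynomial.X ^ (LP q η e).roots.card := by
    conv_lhs => rw [hsp.eq_prod_roots]
    rw [Multiset.map_congr rfl (fun r hr => by
      rw [hroots r hr, map_zero, sub_zero] : ∀ r ∈ (LP q η e).roots,
        Polynomial.X - Polynomial.C r = Polynomial.X), Multiset.map_const', Multiset.prod_replicate]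
  have hdeg : (LP q η e).natDegree = m :=
    le_antisymm (natDegree_LP_le hqh η e).1 (Polynomial.le_natDegree_of_ne_zero (by
      rw [(natDegree_LP_le hqh η e).2]; exact hq.1.ne'))
  have h1 : (LP q η e).coeff 1 = 0 := by
    rw [hX, Polynomial.coeff_C_mul, Polynomial.coeff_X_pow, ← hsp.natDegree_eq_card_roots, hdeg,
      if_neg (by omega), mul_zero]
  rw [coeff_one_LP] at h1
  linarith

end Point

end Vale.Agent.P256.Shadow
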