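import Vale.Agent.P256.Shadow.Smooth

/-!
The tangent form of `p` at a boundary point: the blown-up polynomial, hyperbolicity of the tangent
form, and comparison of the cone with the tangent cone.
-/

namespace Vale.Agent.P256.Shadow

open MvPolynomial Matrix Filter
open scoped Topology

variable {n d m : ℕ} {p : MvPolynomial (Fin n) ℝ} {e x0 : Fin n → ℝ}

/-- The degree `j` part of the expansion of `p` at `x0`. -/
noncomputable def part (p : MvPolynomial (Fin n) ℝ) (x0 : Fin n → ℝ) (j : ℕ) :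
    MvPolynomial (Fin n) ℝ := homogeneousComponent j (sh p x0)

lemma part_hom (p : MvPolynomial (Fin n) ℝ) (x0 : Fin n → ℝ) (j : ℕ) :
    (part p x0 j).IsHomogeneous j := homogeneousComponent_isHomogeneous _ _

/-- The blown-up polynomial `(ρ, y) ↦ p (x0 + ρ y) / ρ ^ m`. -/
noncomputable def blow (p : MvPolynomial (Fin n) ℝ) (x0 : Fin n → ℝ) (m : ℕ) :
    MvPolynomial (Fin (n + 1)) ℝ :=
  ∑ j ∈ Finset.range ((sh p x0).totalDegree + 1 + (m + 1)),
    X 0 ^ (j - m) * rename Fin.succ (part p x0 j)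

lemma eval_blow (hlow : ∀ j < m, part p x0 j = 0) (ρ : ℝ) (y : Fin n → ℝ) :
    ρ ^ m * eval (Fin.cons ρ y) (blow p x0 m) = eval (x0 + ρ • y) p := by
  have e : eval (x0 + ρ • y) p =
      ∑ j ∈ Finset.range ((sh p x0).totalDegree + 1 + (m + 1)),
        ρ ^ j * eval y (part p x0 j) := by
    rw [← eval_sh]
    conv_lhs => rw [← sum_homogeneousComponent (sh p x0)]
    rw [map_sum, Finset.sum_subset (Finset.range_mono (Nat.le_add_right _ (m + 1)))
      (fun j _ hj => by
        rw [homogeneousComponent_eq_zero _ _ (by simpa [Finset.mem_range] using hj), map_zero])]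
    exact Finset.sum_congr rfl fun j _ => eval_smul (part_hom p x0 j) ρ y
  rw [e, blow, map_sum, Finset.mul_sum]
  refine Finset.sum_congr rfl fun j _ => ?_
  rcases lt_or_ge j m with hj | hj
  · simp [hlow j hj]
  · rw [map_mul, map_pow, eval_X, eval_rename, Fin.cons_zero, ← mul_assoc, ← pow_add,
      Nat.add_sub_cancel' hj]
    congr 1

lemma eval_blow_zero (hlow : ∀ j < m, part p x0 j = 0) (y : Fin n → ℝ) :
    eval (Fin.cons 0 y) (blow p x0 m) = eval y (part p x0 m) := by
  rw [blow, map_sum, Finset.sum_eq_single m]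
  · rw [Nat.sub_self, pow_zero, one_mul, eval_rename]
    congr 1
  · intro j _ hj
    rcases lt_or_gt_of_ne hj with hj | hj
    · simp [hlow j hj]
    · rw [map_mul, map_pow, eval_X, Fin.cons_zero, zero_pow (by omega), zero_mul]
  · intro hm
    exact absurd (Finset.mem_range.2 (by omega)) hm

lemma cons_cont {R α : Type*} [TopologicalSpace R] [TopologicalSpace α] {f : α → R}
    {g : α → Fin n → R} (hf : Continuous f) (hg : Continuous g) :
    Continuous fun a => (Fin.cons (f a) (g a) : Fin (n + 1) → R) := by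
  refine continuous_pi fun i => ?_
  cases i using Fin.cases with
  | zero => simpa using hf
  | succ j => simpa using (continuous_apply j).comp' hg

lemma cont_blow (p : MvPolynomial (Fin n) ℝ) (x0 : Fin n → ℝ) (m : ℕ) {α : Type*}
    [TopologicalSpace α] {f : α → ℝ} {g : α → Fin n → ℝ} (hf : Continuous f) (hg : Continuous g) :
    Continuous fun a => eval (Fin.cons (f a) (g a)) (blow p x0 m) :=
  (MvPolynomial.continuous_eval _).comp (cons_cont hf hg)

lemma continuous_blow (p : MvPolynomial (Fin n) ℝ) (x0 : Fin n → ℝ) (m : ℕ) :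
    Continuous fun z : ℝ × (Fin n → ℝ) => eval (Fin.cons z.1 z.2) (blow p x0 m) :=
  (MvPolynomial.continuous_eval _).comp (cons_cont continuous_fst continuous_snd)

lemma aeval_real_roots (h : Hyperbolic p e) (x : Fin n → ℝ) (ρ : ℝ) (y : Fin n → ℝ) {z : ℂ}
    (hρ : ρ ≠ 0)
    (hz : aeval (fun i => (x i : ℂ) + ρ * ((y i : ℂ) + z * (e i : ℂ))) p = 0) : z.im = 0 := by
  have h1 : ((ρ : ℂ) * z).im = 0 := h.2 (fun i => -(x i + ρ * y i)) (ρ * z) (by
    rw [← hz]
    congr 2
    funext i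
    push_cast
    ring)
  simpa [hρ] using h1

lemma roots_nonpos (hp : p.IsHomogeneous d) (h : Hyperbolic p e) {x b : Fin n → ℝ}
    (hx : x ∈ hypCone p e) (hb : b ∈ oc p e) {t : ℝ} (ht : 0 < t) :
    ∃ M : Multiset ℝ, M.card ≤ d ∧ (∀ c ∈ M, c ≤ 0 ∧ -(1 / t) ≤ c) ∧
      ∀ s, eval (x + t • b + s • b) p = eval (x + t • b) p * (M.map fun c => 1 - c * s).prod := by
  have ha : x + t • b ∈ oc p e := add_mem_oc' hp h hx (smul_mem_oc hp h ht hb)
  set q := LP p (x + t • b) b with hq
  have hq0 : q.coeff 0 = eval (x + t • b) p := coeff_zero_LP _ _ _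
  have hne : q.coeff 0 ≠ 0 := hq0 ▸ (eval_pos h hp ha).ne'
  obtain ⟨M, hM, hfac⟩ := splits_factor (rr_LP hp h ha b).splits hne
  have heval : ∀ s, eval (x + t • b + s • b) p =
      eval (x + t • b) p * (M.map fun c => 1 - c * s).prod := fun s => by
    rw [← eval_LP]
    conv_lhs => rw [hfac]
    simp [Polynomial.eval_multiset_prod, coeff_zero_LP]
  refine ⟨M, hM.le.trans (natDegree_LP_le hp _ _).1, fun c hc => ?_, heval⟩
  have hzero : c ≠ 0 → eval (x + t • b + c⁻¹ • b) p = 0 := fun hc0 => by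
    rw [heval, Multiset.prod_eq_zero, mul_zero]
    exact Multiset.mem_map.2 ⟨c, hc, by rw [mul_inv_cancel₀ hc0, sub_self]⟩
  have hoc : ∀ s : ℝ, 0 < t + s → x + t • b + s • b ∈ oc p e := fun s hs => by
    rw [add_assoc, ← add_smul]
    exact add_mem_oc' hp h hx (smul_mem_oc hp h hs hb)
  constructor
  · by_contra hpos
    rw [not_le] at hpos
    exact (eval_pos h hp (hoc _ (by positivity))).ne' (hzero hpos.ne')
  · by_contra hlt
    rw [not_le] at hlt
    have hcneg : c < 0 := hlt.trans (by simp [ht])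
    refine (eval_pos h hp (hoc _ ?_)).ne' (hzero hcneg.ne)
    have h1 := mul_lt_mul_of_pos_left hlt ht
    have h2 : t * -(1 / t) = -1 := by field_simp
    rw [h2] at h1
    have e1 : t + c⁻¹ = (t * c + 1) / c := by
      rw [eq_div_iff hcneg.ne, add_mul, inv_mul_cancel₀ hcneg.ne]
    rw [e1]
    exact div_pos_of_neg_of_neg (by linarith) hcneg

lemma growth_le (hp : p.IsHomogeneous d) (h : Hyperbolic p e) {x b : Fin n → ℝ}
    (hx : x ∈ hypCone p e) (hb : b ∈ oc p e) {t T : ℝ} (ht : 0 < t) (hT : t ≤ T) :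
    eval (x + T • b) p ≤ (T / t) ^ d * eval (x + t • b) p := by
  obtain ⟨M, hM, hc, he⟩ := roots_nonpos hp h hx hb ht
  have h1 := he (T - t)
  rw [add_assoc, ← add_smul, add_sub_cancel] at h1
  rw [h1, mul_comm ((T / t) ^ d)]
  refine mul_le_mul_of_nonneg_left ?_
    (eval_pos h hp (add_mem_oc' hp h hx (smul_mem_oc hp h ht hb))).le
  refine (le_trans (b := (T / t) ^ M.card) ?_ (pow_le_pow_right₀ ((one_le_div ht).2 hT) hM))
  have key : ∀ M : Multiset ℝ, (∀ c ∈ M, c ≤ 0 ∧ -(1 / t) ≤ c) →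
      0 ≤ (M.map fun c => 1 - c * (T - t)).prod ∧
        (M.map fun c => 1 - c * (T - t)).prod ≤ (T / t) ^ M.card := by
    intro M
    induction M using Multiset.induction with
    | empty => simp
    | cons c M ih =>
      intro hM
      obtain ⟨i1, i2⟩ := ih fun y hy => hM y (Multiset.mem_cons_of_mem hy)
      obtain ⟨c1, c2⟩ := hM c (Multiset.mem_cons_self c M)
      rw [Multiset.map_cons, Multiset.prod_cons, Multiset.card_cons, pow_succ']
      have h2 : 0 ≤ 1 - c * (T - t) := by nlinarith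
      have h3 : 1 - c * (T - t) ≤ T / t := by
        have e1 : T / t = 1 + (1 / t) * (T - t) := by field_simp; ring
        rw [e1]
        nlinarith
      exact ⟨mul_nonneg h2 i1, mul_le_mul h3 i2 i1 (div_nonneg (by linarith) ht.le)⟩
  exact (key M hc).2

lemma eval_mono (hp : p.IsHomogeneous d) (h : Hyperbolic p e) {x b : Fin n → ℝ}
    (hx : x ∈ hypCone p e) (hb : b ∈ oc p e) {t T : ℝ} (ht : 0 < t) (hT : t ≤ T) :
    eval (x + t • b) p ≤ eval (x + T • b) p := by
  obtain ⟨M, -, hc, he⟩ := roots_nonpos hp h hx hb ht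
  have h1 := he (T - t)
  rw [add_assoc, ← add_smul, add_sub_cancel] at h1
  rw [h1]
  refine le_mul_of_one_le_right (eval_pos h hp (add_mem_oc' hp h hx (smul_mem_oc hp h ht hb))).le ?_
  refine Multiset.one_le_prod fun a ha => ?_
  obtain ⟨c, hcM, rfl⟩ := Multiset.mem_map.1 ha
  nlinarith [(hc c hcM).1]

/-- The standing hypotheses at a boundary point of multiplicity `m`. -/
structure Point (p : MvPolynomial (Fin n) ℝ) (e x0 : Fin n → ℝ) (d m : ℕ) : Prop where
  hp : p.IsHomogeneous d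
  h : Hyperbolic p e
  hxK : x0 ∈ hypCone p e
  low : ∀ j < m, part p x0 j = 0
  top : part p x0 m ≠ 0

namespace Point

variable (P : Point p e x0 d m)
include P

lemma part_eval_nonneg {y : Fin n → ℝ} (hy : y ∈ oc p e) : 0 ≤ eval y (part p x0 m) := by
  rw [← eval_blow_zero P.low]
  refine lim_nonneg (f := fun ρ => eval (Fin.cons ρ y) (blow p x0 m))
    (cont_blow p x0 m continuous_id' continuous_const)
    (ev_pos.mono fun ρ hρ => ?_)
  have h1 := eval_pos P.h P.hp (add_mem_oc' P.hp P.h P.hxK (smul_mem_oc P.hp P.h hρ hy))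
  rw [← eval_blow P.low] at h1
  exact ((pos_iff_pos_of_mul_pos h1).1 (pow_pos hρ m)).le

omit P in
lemma open_vanish {q : MvPolynomial (Fin n) ℝ} {k : ℕ} (hq : q.IsHomogeneous k) {U : Set (Fin n → ℝ)}
    (hU : IsOpen U) {a : Fin n → ℝ} (ha : a ∈ U) (h0 : ∀ y ∈ U, eval y q = 0) : q = 0 := by
  refine MvPolynomial.funext fun v => ?_
  rw [map_zero]
  have hc : Continuous fun t : ℝ => t • v + a := by fun_prop
  obtain ⟨δ, hδ, hsub⟩ := Metric.isOpen_iff.1 (hU.preimage hc) 0 (by simpa using ha)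
  have hz : LP q a v = 0 := by
    refine Polynomial.eq_zero_of_infinite_isRoot _
      ((Set.Ioo_infinite (show (0 : ℝ) < δ from hδ)).mono fun t ht => ?_)
    show Polynomial.eval t _ = 0
    rw [eval_LP, add_comm]
    exact h0 _ (hsub (show t ∈ Metric.ball (0 : ℝ) δ by
      rw [Metric.mem_ball, dist_zero_right, Real.norm_eq_abs, abs_of_pos ht.1]; exact ht.2))
  rw [← (natDegree_LP_le hq a v).2, hz, Polynomial.coeff_zero]

lemma blow_mono {δ : ℝ} (hδ : 0 < δ) {w : Fin n → ℝ} (hw : w ∈ oc p e)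
    (hb : e - δ • w ∈ oc p e) {ρ : ℝ} (hρ : 0 < ρ) :
    δ ^ m * eval (Fin.cons (ρ * δ) w) (blow p x0 m) ≤ eval (Fin.cons ρ e) (blow p x0 m) := by
  have hx : x0 + (ρ * δ) • w ∈ hypCone p e :=
    oc_subset P.hp (add_mem_oc' P.hp P.h P.hxK (smul_mem_oc P.hp P.h (mul_pos hρ hδ) hw))
  have hc : Continuous fun t : ℝ => eval (x0 + (ρ * δ) • w + ρ • (e - δ • w)) p -
      eval (x0 + (ρ * δ) • w + t • (e - δ • w)) p :=
    continuous_const.sub ((MvPolynomial.continuous_eval p).comp (by fun_prop))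
  have hev : ∀ᶠ t in 𝓝[>] (0 : ℝ), 0 ≤ eval (x0 + (ρ * δ) • w + ρ • (e - δ • w)) p -
      eval (x0 + (ρ * δ) • w + t • (e - δ • w)) p := by
    filter_upwards [ev_pos, nhdsWithin_le_nhds (Iic_mem_nhds hρ)] with t ht htρ
    linarith [eval_mono P.hp P.h hx hb ht htρ]
  have hnn := lim_nonneg hc hev
  have e1 : x0 + (ρ * δ) • w + ρ • (e - δ • w) = x0 + ρ • e := by
    rw [smul_sub, smul_smul]; abel
  rw [e1, zero_smul, add_zero, ← eval_blow P.low, ← eval_blow P.low (ρ := ρ * δ),
    mul_pow, mul_assoc, ← mul_sub] at hnn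
  linarith [(mul_nonneg_iff_of_pos_left (pow_pos hρ m)).1 hnn]

lemma top_pos : 0 < eval e (part p x0 m) := by
  obtain ⟨w, hw, hw0⟩ : ∃ w ∈ oc p e, eval w (part p x0 m) ≠ 0 := by
    by_contra hall
    push Not at hall
    exact P.top (Point.open_vanish (part_hom p x0 m) (isOpen_oc P.hp P.h) (e_mem_oc P.hp P.h) hall)
  have hwp := (P.part_eval_nonneg hw).lt_of_ne hw0.symm
  have hc : Continuous fun δ : ℝ => e - δ • w := by fun_prop
  have hev : ∀ᶠ δ in 𝓝[>] (0 : ℝ), e - δ • w ∈ oc p e :=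
    nhdsWithin_le_nhds (((isOpen_oc P.hp P.h).preimage hc).mem_nhds
      (show (0 : ℝ) ∈ _ by simpa using e_mem_oc P.hp P.h))
  obtain ⟨δ, hδ, hw'⟩ := (ev_pos.and hev).exists
  have hcont : Continuous fun ρ : ℝ => eval (Fin.cons ρ e) (blow p x0 m) -
      δ ^ m * eval (Fin.cons (ρ * δ) w) (blow p x0 m) :=
    (cont_blow p x0 m continuous_id' continuous_const).sub
      (continuous_const.mul (cont_blow p x0 m (continuous_id'.mul continuous_const)
        continuous_const))
  have hlim := lim_nonneg hcont (ev_pos.mono fun ρ hρ => by linarith [P.blow_mono hδ hw hw' hρ])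
  simp only [zero_mul, eval_blow_zero P.low] at hlim
  have := mul_pos (pow_pos (show (0 : ℝ) < δ from hδ) m) hwp
  linarith

/-- The tangent form is hyperbolic. -/
lemma tangent_hyperbolic : Hyperbolic (part p x0 m) e := by
  refine ⟨P.top_pos, fun y z hz => ?_⟩
  by_contra hzi
  set Q := map (algebraMap ℝ ℂ) (blow p x0 m) with hQ
  let G : ℝ → ℂ → ℂ := fun ρ z => eval (Fin.cons (ρ : ℂ) fun i => z * (e i : ℂ) - (y i : ℂ)) Q
  have hG0 : ∀ z, G 0 z = aeval (fun i => z * (e i : ℂ) - (y i : ℂ)) (part p x0 m) := by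
    intro z
    have hH : ∀ v : Fin n → ℂ, eval (Fin.cons (0 : ℂ) v) Q = aeval v (part p x0 m) := by
      intro v
      rw [hQ, eval_map_eq_aeval, blow, map_sum, Finset.sum_eq_single m]
      · simp [aeval_rename, Function.comp_def]
      · intro j _ hj
        rcases lt_or_gt_of_ne hj with hj | hj
        · simp [P.low j hj]
        · simp [zero_pow (by omega : j - m ≠ 0)]
      · intro hm
        exact absurd (Finset.mem_range.2 (by omega)) hm
    simp only [G, Complex.ofReal_zero, hH]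
  have hGeq : ∀ (ρ : ℝ) z, (ρ : ℂ) ^ m * G ρ z =
      aeval (fun i => (x0 i : ℂ) + ρ * (-(y i : ℂ) + z * (e i : ℂ))) p := by
    intro ρ z
    have e2 : ∀ v : Fin n → ℂ,
        (ρ : ℂ) ^ m * eval (Fin.cons (ρ : ℂ) v) Q = aeval (fun i => (x0 i : ℂ) + ρ * v i) p := by
      intro v
      have e1 : aeval (fun i => (x0 i : ℂ) + ρ * v i) p =
          aeval (fun i => (ρ : ℂ) * v i) (sh p x0) := by
        rw [sh, ← AlgHom.comp_apply, comp_aeval]
        simp
      rw [e1]
      conv_rhs => rw [← sum_homogeneousComponent (sh p x0)]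
      rw [map_sum, Finset.sum_subset (Finset.range_mono (Nat.le_add_right _ (m + 1)))
        (fun j _ hj => by
          rw [homogeneousComponent_eq_zero _ _ (by simpa [Finset.mem_range] using hj), map_zero]),
        hQ, eval_map_eq_aeval, blow, map_sum, Finset.mul_sum]
      refine Finset.sum_congr rfl fun j _ => ?_
      show _ = aeval ((ρ : ℂ) • v) (part p x0 j)
      rw [aeval_smul (part_hom p x0 j)]
      rcases lt_or_ge j m with hj | hj
      · simp [P.low j hj]
      · rw [map_mul, map_pow, aeval_X, aeval_rename, Fin.cons_zero, ← mul_assoc, ← pow_add,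
          Nat.add_sub_cancel' hj]
        congr 1
    simp only [G, e2]
    congr 2
    funext i
    ring
  have hcmp : ∀ z w : ℂ, z.im ≠ 0 → ∃ C, 0 < C ∧ ∀ ρ : ℝ, ρ ≠ 0 → ‖G ρ w‖ ≤ C * ‖G ρ z‖ := by
    intro z w hzi
    set κ := 1 + ‖w - z‖ / |z.im| with hκ
    have hκ1 : 1 ≤ κ := le_add_of_nonneg_right (by positivity)
    refine ⟨κ ^ d, pow_pos (by linarith) d, fun ρ hρ => ?_⟩
    let pc := map (algebraMap ℝ ℂ) p
    set A := fun i => (x0 i : ℂ) + ρ * -(y i : ℂ)
    set B := fun i => (ρ : ℂ) * (e i : ℂ)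
    have hline : ∀ s : ℂ, (LP pc A B).eval s = (ρ : ℂ) ^ m * G ρ s := fun s => by
      rw [hGeq, eval_LP, eval_map_eq_aeval]
      congr 2
      funext i
      simp only [A, B, Pi.add_apply, Pi.smul_apply, smul_eq_mul]
      ring
    have hsp := IsAlgClosed.splits (LP pc A B)
    have hroot : ∀ r ∈ (LP pc A B).roots, r.im = 0 := fun r hr => by
      have h1 : (LP pc A B).eval r = 0 := (Polynomial.mem_roots'.1 hr).2
      rw [hline, hGeq] at h1
      refine aeval_real_roots P.h x0 ρ (fun i => -y i) (z := r) hρ ?_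
      rw [← h1]
      congr 2
      funext i
      push_cast
      ring
    have key : ∀ M : Multiset ℂ, (∀ r ∈ M, r.im = 0) →
        ‖(M.map fun r => w - r).prod‖ ≤ κ ^ M.card * ‖(M.map fun r => z - r).prod‖ := by
      intro M
      induction M using Multiset.induction with
      | empty => simp
      | cons r M ih =>
        intro hM
        rw [Multiset.map_cons, Multiset.map_cons, Multiset.prod_cons, Multiset.prod_cons,
          Multiset.card_cons, pow_succ', norm_mul, norm_mul, mul_mul_mul_comm]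
        refine mul_le_mul ?_ (ih fun x hx => hM x (Multiset.mem_cons_of_mem hx)) (norm_nonneg _)
          (by positivity)
        have h1 : |z.im| ≤ ‖z - r‖ := by
          have := Complex.abs_im_le_norm (z - r)
          simpa [hM r (Multiset.mem_cons_self r M)] using this
        have h2 : ‖w - r‖ ≤ ‖w - z‖ + ‖z - r‖ := norm_sub_le_norm_sub_add_norm_sub w z r
        have h3 : ‖w - z‖ ≤ ‖w - z‖ / |z.im| * ‖z - r‖ := by
          rw [div_mul_eq_mul_div, le_div_iff₀ (abs_pos.2 hzi)]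
          exact mul_le_mul_of_nonneg_left h1 (norm_nonneg _)
        rw [hκ]
        linarith
    have hfin : ‖(LP pc A B).eval w‖ ≤ κ ^ d * ‖(LP pc A B).eval z‖ := by
      rw [hsp.eval_eq_prod_roots, hsp.eval_eq_prod_roots, norm_mul, norm_mul, mul_left_comm]
      refine mul_le_mul_of_nonneg_left ((key _ hroot).trans
        (mul_le_mul_of_nonneg_right (pow_le_pow_right₀ hκ1 ?_) (norm_nonneg _))) (norm_nonneg _)
      exact (Polynomial.card_roots' _).trans
        (natDegree_LP_le (P.hp.map (algebraMap ℝ ℂ)) A B).1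
    rw [hline, hline, norm_mul, norm_mul, mul_left_comm] at hfin
    exact le_of_mul_le_mul_left hfin (norm_pos_iff.2 (pow_ne_zero _ (Complex.ofReal_ne_zero.2 hρ)))
  have hz0 : G 0 z = 0 := by rw [hG0]; exact hz
  have hall : ∀ w, G 0 w = 0 := fun w => by
    obtain ⟨C, hC, hle⟩ := hcmp z w hzi
    have hcont : ∀ v : ℂ, Continuous fun ρ : ℝ => G ρ v := fun v =>
      (MvPolynomial.continuous_eval Q).comp (cons_cont Complex.continuous_ofReal continuous_const)
    have h1 := lim_nonneg (f := fun ρ => C * ‖G ρ z‖ - ‖G ρ w‖)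
      ((continuous_const.mul (hcont z).norm).sub (hcont w).norm)
      (ev_pos.mono fun ρ hρ => by linarith [hle ρ hρ.ne'])
    simp only [hz0, norm_zero, mul_zero, zero_sub, Left.nonneg_neg_iff] at h1
    exact norm_eq_zero.1 (le_antisymm h1 (norm_nonneg _))
  let qc := map (algebraMap ℝ ℂ) (part p x0 m)
  have hzero : LP qc (fun i => -(y i : ℂ)) (fun i => (e i : ℂ)) = 0 := by
    refine Polynomial.funext fun w => ?_
    rw [eval_LP, eval_map_eq_aeval, Polynomial.eval_zero, ← hall w, hG0]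
    congr 2
    funext i
    simp only [Pi.add_apply, Pi.smul_apply, smul_eq_mul]
    ring
  have hlead := (natDegree_LP_le ((part_hom p x0 m).map (algebraMap ℝ ℂ)) (fun i => -(y i : ℂ))
    (fun i => (e i : ℂ))).2
  rw [hzero, Polynomial.coeff_zero, eval_map_eq_aeval] at hlead
  have h2 := aeval_cpx (part p x0 m) e
  rw [show (fun i => (e i : ℂ)) = cpx n e from rfl, h2] at hlead
  exact P.top_pos.ne' (by exact_mod_cast hlead.symm)

omit P in
lemma tube {f : ℝ → (Fin n → ℝ) → ℝ → ℝ} (hf : Continuous fun z : (ℝ × (Fin n → ℝ)) × ℝ => f z.1.1 z.1.2 z.2)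
    {y : Fin n → ℝ} {a b : ℝ} (hpos : ∀ s ∈ Set.Icc a b, 0 < f 0 y s) :
    ∀ᶠ z in 𝓝 ((0 : ℝ), y), ∀ s ∈ Set.Icc a b, 0 < f z.1 z.2 s :=
  isCompact_Icc.eventually_forall_of_forall_eventually fun s hs =>
    hf.continuousAt.eventually_const_lt (hpos s hs)

lemma interior_dir {y : Fin n → ℝ} (hy : y ∈ oc (part p x0 m) e) :
    ∀ᶠ z in 𝓝 ((0 : ℝ), y), 0 < z.1 → x0 + z.1 • z.2 ∈ oc p e := by
  have hq := P.tangent_hyperbolic
  have hc : Continuous fun z : (ℝ × (Fin n → ℝ)) × ℝ =>
      eval (Fin.cons z.1.1 ((1 - z.2) • e + z.2 • z.1.2)) (blow p x0 m) :=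
    (MvPolynomial.continuous_eval _).comp (cons_cont continuous_fst.fst (by fun_prop))
  have hev := Point.tube (f := fun ρ y s => eval (Fin.cons ρ ((1 - s) • e + s • y)) (blow p x0 m))
    hc (y := y) (a := 0) (b := 1) (fun s hs => by
      rw [eval_blow_zero P.low]
      refine eval_pos hq (part_hom _ _ _) ?_
      rcases hs.1.lt_or_eq with hs0 | rfl
      · rcases hs.2.lt_or_eq with hs1 | rfl
        · exact add_mem_oc (part_hom _ _ _) hq
            (smul_mem_oc (part_hom _ _ _) hq (by linarith) (e_mem_oc (part_hom _ _ _) hq))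
            (smul_mem_oc (part_hom _ _ _) hq hs0 hy)
        · simpa using hy
      · simpa using e_mem_oc (part_hom p x0 m) hq)
  refine hev.mono fun z hz hρ => seg_mem_oc P.hp P.h (a := x0 + z.1 • e)
    ((mem_hypCone_iff P.hp).1 P.hxK _ hρ) fun s hs => ?_
  have e1 : x0 + z.1 • e + s • (x0 + z.1 • z.2 - (x0 + z.1 • e)) =
      x0 + z.1 • ((1 - s) • e + s • z.2) := by module
  rw [e1, ← eval_blow P.low]
  exact (mul_pos (pow_pos hρ m) (hz s hs)).ne'

lemma outside_dir {y : Fin n → ℝ} (hy : y ∉ hypCone (part p x0 m) e) :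
    ∀ᶠ z in 𝓝 ((0 : ℝ), y), 0 < z.1 → x0 + z.1 • z.2 ∉ hypCone p e := by
  have hq := P.tangent_hyperbolic
  have hqh := part_hom p x0 m
  simp only [mem_hypCone_iff hqh, not_forall] at hy
  obtain ⟨t0, ht0, hyt⟩ := hy
  simp only [oc, Set.mem_ofPred_eq, not_forall, not_not] at hyt
  obtain ⟨r, hr, hzero⟩ := hyt
  rw [add_assoc, ← add_smul] at hzero
  set t := t0 + r with ht
  have htpos : 0 < t := by linarith
  obtain ⟨T, hTpos, hT⟩ : ∃ T, t ≤ T ∧ 0 < eval (y + T • e) (part p x0 m) := by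
    have hc : Continuous fun s : ℝ => e + s • y := by fun_prop
    have h1 : ∀ᶠ s in 𝓝[>] (0 : ℝ), s < 1 / t :=
      nhdsWithin_le_nhds (Iio_mem_nhds (show (0 : ℝ) < 1 / t by positivity))
    have h2 : ∀ᶠ s in 𝓝[>] (0 : ℝ), e + s • y ∈ oc (part p x0 m) e :=
      nhdsWithin_le_nhds (((isOpen_oc hqh hq).preimage hc).mem_nhds
        (show (0 : ℝ) ∈ _ by simpa using e_mem_oc hqh hq))
    obtain ⟨s, hs, hs'⟩ := (h1.and (ev_pos.and h2)).exists
    obtain ⟨hs0, hmem⟩ := hs'
    refine ⟨1 / s, ?_, eval_pos hq hqh ?_⟩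
    · rw [le_div_iff₀ hs0]
      rw [lt_div_iff₀ htpos] at hs
      linarith
    · have := smul_mem_oc hqh hq (show (0 : ℝ) < 1 / s by positivity) hmem
      rwa [smul_add, smul_smul, one_div, inv_mul_cancel₀ hs0.ne', one_smul, add_comm,
        ← one_div] at this
  have hc : ∀ t : ℝ, Continuous fun z : ℝ × (Fin n → ℝ) =>
      eval (Fin.cons z.1 (z.2 + t • e)) (blow p x0 m) := fun t =>
    (MvPolynomial.continuous_eval _).comp (cons_cont continuous_fst (by fun_prop))
  have hev : ∀ᶠ z : ℝ × (Fin n → ℝ) in 𝓝 ((0 : ℝ), y), (T / t) ^ d * eval (Fin.cons z.1 (z.2 + t • e)) (blow p x0 m) <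
      eval (Fin.cons z.1 (z.2 + T • e)) (blow p x0 m) := by
    have hopen : IsOpen {z : ℝ × (Fin n → ℝ) | (T / t) ^ d *
        eval (Fin.cons z.1 (z.2 + t • e)) (blow p x0 m) <
          eval (Fin.cons z.1 (z.2 + T • e)) (blow p x0 m)} :=
      isOpen_lt (continuous_const.mul (hc t)) (hc T)
    refine hopen.mem_nhds ?_
    simp only [Set.mem_ofPred_eq, eval_blow_zero P.low, hzero, mul_zero]
    exact hT
  refine hev.mono fun z hz hρ hK => ?_
  have h1 := growth_le P.hp P.h hK (e_mem_oc P.hp P.h) (mul_pos hρ htpos)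
    (mul_le_mul_of_nonneg_left hTpos hρ.le)
  simp only [add_assoc, ← smul_smul, ← smul_add, ← eval_blow P.low] at h1
  rw [mul_div_mul_left _ _ hρ.ne', mul_left_comm] at h1
  exact absurd (le_of_mul_le_mul_left h1 (pow_pos hρ m)) (not_le.2 hz)

lemma translate (y : Fin n → ℝ) (c : ℝ) :
    eval (y + c • x0) (part p x0 m) = eval y (part p x0 m) := by
  rw [← eval_blow_zero P.low, ← eval_blow_zero P.low (y := y)]
  set f := fun ρ : ℝ => eval (Fin.cons ρ (y + c • x0)) (blow p x0 m) * (1 + ρ * c) ^ m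
  set g := fun ρ : ℝ => (1 + ρ * c) ^ d * eval (Fin.cons (ρ / (1 + ρ * c)) y) (blow p x0 m)
  have hev : ∀ᶠ ρ in 𝓝[>] (0 : ℝ), f ρ = g ρ := by
    have hc : Continuous fun ρ : ℝ => 1 + ρ * c := by fun_prop
    filter_upwards [ev_pos, ev_of_lt continuous_const hc (by norm_num : (0 : ℝ) < 1 + 0 * c)]
      with ρ hρ hL
    have e1 : x0 + ρ • (y + c • x0) = (1 + ρ * c) • (x0 + (ρ / (1 + ρ * c)) • y) := by
      rw [smul_add, smul_add, smul_smul, smul_smul, mul_div_cancel₀ _ hL.ne', add_smul, one_smul]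
      abel
    have h1 := congrArg (fun x => eval x p) e1
    simp only [eval_smul P.hp, ← eval_blow P.low] at h1
    simp only [f, g]
    have hρm : ρ ^ m ≠ 0 := (pow_pos hρ m).ne'
    have hLm : (1 + ρ * c) ^ m ≠ 0 := (pow_pos hL m).ne'
    rw [div_pow] at h1
    field_simp at h1 ⊢
    linarith
  have hf : ContinuousAt f 0 :=
    ((cont_blow p x0 m continuous_id' continuous_const).mul
      (by fun_prop)).continuousAt
  have hg : ContinuousAt g 0 := by
    have hd : ContinuousAt (fun ρ : ℝ => ρ / (1 + ρ * c)) 0 :=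
      continuousAt_id.div (by fun_prop) (by norm_num)
    have h1 : ContinuousAt (fun ρ : ℝ => (1 + ρ * c) ^ d) 0 := by fun_prop
    have h2 : ContinuousAt (fun ρ : ℝ => (ρ / (1 + ρ * c), y)) 0 := hd.prodMk continuousAt_const
    have h3 := ContinuousAt.comp (x := (0 : ℝ)) (f := fun ρ : ℝ => (ρ / (1 + ρ * c), y))
      (continuous_blow p x0 m).continuousAt h2
    exact h1.mul h3
  have := tendsto_nhds_unique (hf.tendsto.mono_left nhdsWithin_le_nhds)
    ((hg.tendsto.mono_left nhdsWithin_le_nhds).congr' (hev.mono fun ρ h => h.symm))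
  simpa [f, g] using this

end Point

end Vale.Agent.P256.Shadow
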