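import Vale.Agent.P256.Shadow.Smooth

/-!
A boundary segment of a pointed hyperbolicity cone extends until it meets singular points, so it is
enough to forbid boundary segments between singular points.
-/

namespace Vale.Agent.P256.Shadow

open MvPolynomial Matrix Filter
open scoped Topology

variable {n d : ℕ} {p : MvPolynomial (Fin n) ℝ} {e : Fin n → ℝ}

variable (hp : p.IsHomogeneous d) (h : Hyperbolic p e)
  (hpointed : ∀ x ∈ hypCone p e, -x ∈ hypCone p e → x = 0)

include hp h hpointed in
/-- In a plane of zeros, the boundary line `b + s a` leaves the cone at a singular point. -/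
lemma singular_end {a b : Fin n → ℝ} (ha : a ∈ hypCone p e) (hb : b ∈ hypCone p e) (ha0 : a ≠ 0)
    (hzero : ∀ α β : ℝ, eval (α • a + β • b) p = 0) :
    ∃ s : ℝ, b + s • a ∈ hypCone p e ∧ ∀ i, eval (b + s • a) (pderiv i p) = 0 := by
  set T := {s : ℝ | b + s • a ∈ hypCone p e} with hT
  have hTc : IsClosed T :=
    (isClosed_hypCone hp h).preimage (show Continuous fun s : ℝ => b + s • a by fun_prop)
  have hTne : T.Nonempty := ⟨0, by simpa [hT] using hb⟩
  have hTb : BddBelow T := by
    by_contra hnb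
    refine ha0 (hpointed a ha ((isClosed_hypCone hp h).mem_of_tendsto (b := 𝓝[>] (0 : ℝ))
      (f := fun t : ℝ => t • b - a) ?_ (ev_pos.mono fun t ht => ?_)))
    · have hc : Continuous fun t : ℝ => t • b - a := by fun_prop
      exact (hc.tendsto' 0 _ (by simp)).mono_left nhdsWithin_le_nhds
    · simp only [not_bddBelow_iff] at hnb
      obtain ⟨s, hs, hlt⟩ := hnb (-(1 / t))
      have h1 : b + (-(1 / t)) • a ∈ hypCone p e := by
        have := add_mem_hypCone hp h hs (smul_mem_hypCone hp h (sub_nonneg.2 hlt.le) ha)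
        convert this using 1
        module
      have := smul_mem_hypCone hp h ht.le h1
      convert this using 1
      rw [smul_add, smul_smul, mul_neg, mul_one_div_cancel ht.ne', neg_one_smul, sub_eq_add_neg]
  refine ⟨sInf T, hTc.csInf_mem hTne hTb, ?_⟩
  by_contra hg
  push Not at hg
  set z := b + sInf T • a with hz
  have hzT : z ∈ hypCone p e := hTc.csInf_mem hTne hTb
  have hline : LP p z a = 0 := Polynomial.funext fun s => by
    rw [eval_LP, Polynomial.eval_zero,
      show z + s • a = (sInf T + s) • a + (1 : ℝ) • b by rw [hz]; module, hzero]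
  have hz0 : eval z p = 0 := by rw [← coeff_zero_LP p z a, hline, Polynomial.coeff_zero]
  obtain ⟨-, ρ, hρ, hK⟩ := null_line hp h hzT hz0 hg
    (show eval z (Dv a p) = 0 by rw [← coeff_one_LP, hline, Polynomial.coeff_zero])
    (show bh p z a a = 0 by rw [← bh_eq, ← coeff_two_LP, hline, Polynomial.coeff_zero, mul_zero])
  have hmem : sInf T - ρ / 2 ∈ T := by
    have := hK (-(ρ / 2)) (by rw [abs_neg, abs_of_pos (half_pos hρ)]; linarith)
    show b + (sInf T - ρ / 2) • a ∈ hypCone p e
    convert this using 1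
    rw [hz]; module
  linarith [csInf_le hTb hmem]

include hp h hpointed in
/-- It suffices to forbid boundary segments between singular points. -/
theorem strict_of_singular
    (hseg : ∀ x ∈ frontier (hypCone p e), ∀ y ∈ frontier (hypCone p e),
      (∀ i, eval x (pderiv i p) = 0) → (∀ i, eval y (pderiv i p) = 0) →
      (1 / 2 : ℝ) • (x + y) ∈ frontier (hypCone p e) → ¬ LinearIndependent ℝ ![x, y]) :
    ∀ x ∈ frontier (hypCone p e), ∀ y ∈ frontier (hypCone p e),
      (1 / 2 : ℝ) • (x + y) ∈ frontier (hypCone p e) → ¬ LinearIndependent ℝ ![x, y] := by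
  intro x hx y hy hmid hli
  obtain ⟨hxK, -⟩ := frontier_facts hp h hx
  obtain ⟨hyK, -⟩ := frontier_facts hp h hy
  obtain ⟨-, hm0⟩ := frontier_facts hp h hmid
  have hpos : ∀ α β : ℝ, 0 < α → 0 < β → eval (α • x + β • y) p = 0 := fun α β hα hβ => by
    refine eval_eq_zero_of_not_oc hp (add_mem_hypCone hp h (smul_mem_hypCone hp h hα.le hxK)
      (smul_mem_hypCone hp h hβ.le hyK)) fun ho => ?_
    set c := 1 / (2 * (α + β)) with hc
    have hc0 : 0 < c := by positivity
    have hcα : c * α ≤ 1 / 2 ∧ c * β ≤ 1 / 2 := by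
      constructor <;> rw [hc, div_mul_eq_mul_div, div_le_iff₀ (by positivity)] <;> linarith
    have := add_mem_oc' hp h (add_mem_hypCone hp h
      (smul_mem_hypCone hp h (sub_nonneg.2 hcα.1) hxK)
      (smul_mem_hypCone hp h (sub_nonneg.2 hcα.2) hyK)) (smul_mem_oc hp h hc0 ho)
    have e1 : ((1 / 2 - c * α) • x + (1 / 2 - c * β) • y) + c • (α • x + β • y) =
        (1 / 2 : ℝ) • (x + y) := by module
    rw [e1] at this
    exact (eval_pos h hp this).ne' hm0
  have hlin : ∀ (u v : Fin n → ℝ), (∀ t : ℝ, 0 < t → eval (u + t • v) p = 0) →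
      ∀ t : ℝ, eval (u + t • v) p = 0 := fun u v huv t => by
    have : LP p u v = 0 := Polynomial.eq_zero_of_infinite_isRoot _
      ((Set.Ioi_infinite (0 : ℝ)).mono fun s hs => by
        show Polynomial.eval s _ = 0
        rw [eval_LP]; exact huv s hs)
    rw [← eval_LP, this, Polynomial.eval_zero]
  have hzero : ∀ α β : ℝ, eval (α • x + β • y) p = 0 := fun α β => by
    have h1 : ∀ α : ℝ, 0 < α → eval (α • x + β • y) p = 0 := fun α hα =>
      hlin _ _ (fun t ht => hpos α t hα ht) β
    rw [add_comm]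
    exact hlin _ _ (fun t ht => by rw [add_comm]; exact h1 t ht) α
  rw [LinearIndependent.pair_iff] at hli
  have hx0 : x ≠ 0 := fun h0 => one_ne_zero (hli 1 0 (by simp [h0])).1
  obtain ⟨s, hsK, hsg⟩ := singular_end hp h hpointed hxK hyK hx0 hzero
  set z := y + s • x with hz
  have hz0 : z ≠ 0 := fun h0 => one_ne_zero (hli s 1 (by
    rw [one_smul, add_comm, ← hz, h0])).2
  obtain ⟨t, htK, htg⟩ := singular_end hp h hpointed hsK hxK hz0 (fun α β => by
    rw [show α • z + β • x = (α * s + β) • x + α • y by rw [hz]; module, hzero])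
  have hf : ∀ w ∈ hypCone p e, (∃ α β : ℝ, w = α • x + β • y) → w ∈ frontier (hypCone p e) := by
    rintro w hw ⟨α, β, rfl⟩
    exact mem_frontier_of hp h hw (hzero α β)
  refine hseg z (hf z hsK ⟨s, 1, by rw [hz]; module⟩) (x + t • z)
    (hf _ htK ⟨1 + t * s, t, by rw [hz]; module⟩) hsg htg
    (hf _ (smul_mem_hypCone hp h (by norm_num) (add_mem_hypCone hp h hsK htK))
      ⟨(1 / 2) * (s + 1 + t * s), (1 / 2) * (1 + t), by rw [hz]; module⟩) ?_
  rw [LinearIndependent.pair_iff]
  intro α β hαβ
  obtain ⟨h1, h2⟩ := hli (α * s + β * (1 + t * s)) (α + β * t) (by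
    rw [← hαβ, hz]; module)
  have hβ : β = 0 := by linear_combination h1 - s * h2
  exact ⟨by rw [hβ] at h2; linarith, hβ⟩

end Vale.Agent.P256.Shadow
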