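import Vale.Agent.P256.Shadow.Singular
import Vale.Agent.P256.Shadow.Strict

/-!
Glueing the local lifts: a pointed hyperbolicity cone all of whose boundary points are smooth or
ordinary singular, without boundary segments between singular points, is a spectrahedral shadow.
-/

namespace Vale.Agent.P256.Shadow

open MvPolynomial Matrix
open scoped Pointwise

variable {n d : ℕ} {p : MvPolynomial (Fin n) ℝ} {e : Fin n → ℝ}

/-- A cone covered near each direction by conical shadows inside it is a conical shadow. -/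
theorem glue (hp : p.IsHomogeneous d) (h : Hyperbolic p e)
    (hloc : ∀ x ∈ hypCone p e, x ≠ 0 →
      ∃ S, Rep S ∧ S ⊆ hypCone p e ∧ ∃ U, IsOpen U ∧ x ∈ U ∧ hypCone p e ∩ U ⊆ S) :
    Rep (hypCone p e) := by
  classical
  have h0 : (0 : Fin n → ℝ) ∈ hypCone p e := by
    simpa using smul_mem_hypCone hp h le_rfl (oc_subset hp (e_mem_oc hp h))
  set A := hypCone p e ∩ Metric.sphere (0 : Fin n → ℝ) 1
  have hA : IsCompact A := (isCompact_sphere _ _).inter_left (isClosed_hypCone hp h)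
  have hAne : ∀ x : A, (x : Fin n → ℝ) ≠ 0 := fun x h0 => by
    have := x.2.2
    simp [h0] at this
  choose S hS hSK U hU hxU hUS using fun x : A => hloc x x.2.1 (hAne x)
  obtain ⟨t, ht⟩ := hA.elim_finite_subcover U hU
    fun x hx => Set.mem_iUnion.2 ⟨⟨x, hx⟩, hxU _⟩
  obtain ⟨R, hR, hRK, hR0, hRs⟩ := sum_reps hp h S hS hSK t
  have : hypCone p e = R := by
    refine Set.Subset.antisymm (fun x hx => ?_) hRK
    rcases eq_or_ne x 0 with rfl | hx0
    · exact hR0
    have hn : 0 < ‖x‖ := norm_pos_iff.2 hx0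
    have hm : ‖x‖⁻¹ • x ∈ A :=
      ⟨smul_mem_hypCone hp h (inv_nonneg.2 hn.le) hx, by simp [norm_smul, hn.ne']⟩
    obtain ⟨a, ha, hma⟩ := Set.mem_iUnion₂.1 (ht hm)
    have := hR.smul_mem hn.le (hRs a ha (hUS a ⟨hm.1, hma⟩))
    rwa [smul_inv_smul₀ hn.ne'] at this
  rw [this]
  exact hR

/-- The main theorem. -/
theorem shadow_of_ordinary_points (hp : p.IsHomogeneous d) (h : Hyperbolic p e)
    (hpts : ∀ x ∈ frontier (hypCone p e), x ≠ 0 → (∃ i, eval x (pderiv i p) ≠ 0) ∨
      ∃ m, 2 ≤ m ∧ (∀ j < m, part p x j = 0) ∧ part p x m ≠ 0 ∧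
        ∀ u ∈ frontier (hypCone (part p x m) e), (¬ ∃ c : ℝ, u = c • x) →
          ∃ i, eval u (pderiv i (part p x m)) ≠ 0)
    (hpointed : ∀ x ∈ hypCone p e, -x ∈ hypCone p e → x = 0)
    (hseg : ∀ x ∈ frontier (hypCone p e), ∀ y ∈ frontier (hypCone p e),
      (∀ i, eval x (pderiv i p) = 0) → (∀ i, eval y (pderiv i p) = 0) →
      (1 / 2 : ℝ) • (x + y) ∈ frontier (hypCone p e) → ¬ LinearIndependent ℝ ![x, y]) :
    IsShadow (hypCone p e) := by
  have hstrict := strict_of_singular hp h hpointed hseg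
  refine (glue hp h fun x hxK hx => ?_).isShadow
  rcases Classical.em (x ∈ oc p e) with hxo | hxo
  · exact piece_interior hp h hx hxo
  have hp0 := eval_eq_zero_of_not_oc hp hxK hxo
  rcases hpts x (mem_frontier_of hp h hxK hp0) hx with hg | ⟨m, hm, hlow, htop, hsm⟩
  · exact piece_smooth hp h hstrict hx hxK hp0 hg
  · exact (Point.mk hp h hxK hlow htop).piece hm hx hstrict hsm

end Vale.Agent.P256.Shadow
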