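import Vale.Agent.P256.Shadow.Dir
import Vale.Agent.P256.Shadow.Blow

/-!
The lift at an ordinary singular point: finitely many blow-up charts, one around each direction of
the tangent cone.
-/

namespace Vale.Agent.P256.Shadow

open MvPolynomial Matrix Filter
open scoped Topology Pointwise

variable {n d m : ℕ} {p : MvPolynomial (Fin n) ℝ} {e x0 : Fin n → ℝ}

lemma Rep.smul_mem {S : Set (Fin n → ℝ)} (hS : Rep S) {c : ℝ} (hc : 0 ≤ c) {x : Fin n → ℝ}
    (hx : x ∈ S) : c • x ∈ S := by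
  obtain ⟨ι, κ, _, _, P, F, -, hP⟩ := hS
  obtain ⟨z, rfl, hz⟩ := (hP x).1 hx
  exact (hP _).2 ⟨c • z, map_smul _ _ _, by rw [map_smul]; exact hz.smul hc⟩

lemma Rep.insert_zero {S : Set (Fin n → ℝ)} (hS : Rep S) : Rep (S ∪ {0}) := by
  obtain ⟨ι, κ, iι, iκ, P, F, hF, hP⟩ := hS
  refine ⟨ι, κ, iι, iκ, P, F, hF, fun y => ⟨?_, fun hy => Or.inl ((hP y).2 hy)⟩⟩
  rintro (hy | rfl)
  · exact (hP y).1 hy
  · exact ⟨0, map_zero _, by rw [map_zero]; exact Matrix.PosSemidef.zero⟩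

lemma Rep.ray (a : Fin n → ℝ) : Rep {x | ∃ c : ℝ, 0 ≤ c ∧ x = c • a} := by
  refine ⟨Unit, Unit, inferInstance, inferInstance, (LinearMap.proj ()).smulRight a,
    diagonalLinearMap Unit ℝ ℝ, fun _ => isSymm_diagonal _, fun x => ?_⟩
  constructor
  · rintro ⟨c, hc, rfl⟩
    exact ⟨fun _ => c, rfl, posSemidef_diagonal_iff.2 fun _ => hc⟩
  · rintro ⟨y, rfl, hy⟩
    exact ⟨y (), posSemidef_diagonal_iff.1 hy (), rfl⟩

/-- Finitely many conical shadows inside the cone lie in one conical shadow inside the cone. -/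
lemma sum_reps (hp : p.IsHomogeneous d) (h : Hyperbolic p e) {α : Type*}
    (S : α → Set (Fin n → ℝ)) (hS : ∀ a, Rep (S a)) (hSK : ∀ a, S a ⊆ hypCone p e) (s : Finset α) :
    ∃ R, Rep R ∧ R ⊆ hypCone p e ∧ (0 : Fin n → ℝ) ∈ R ∧ ∀ a ∈ s, S a ⊆ R := by
  classical
  have h0 : (0 : Fin n → ℝ) ∈ hypCone p e := by
    simpa using smul_mem_hypCone hp h le_rfl (oc_subset hp (e_mem_oc hp h))
  induction s using Finset.induction with
  | empty => exact ⟨{0}, Rep.zero, by simpa using h0, rfl, by simp⟩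
  | @insert a s _ ih =>
    obtain ⟨R, hR, hRK, hR0, hRs⟩ := ih
    refine ⟨(S a ∪ {0}) + R, (hS a).insert_zero.add hR, ?_,
      ⟨0, Or.inr rfl, 0, hR0, add_zero 0⟩, ?_⟩
    · rintro _ ⟨u, hu, v, hv, rfl⟩
      refine add_mem_hypCone hp h ?_ (hRK hv)
      rcases hu with hu | rfl
      · exact hSK a hu
      · exact h0
    · intro x hx y hy
      rcases Finset.mem_insert.1 hx with rfl | hx
      · exact ⟨y, Or.inl hy, 0, hR0, add_zero y⟩
      · exact ⟨0, Or.inr rfl, y, hRs x hx hy, zero_add y⟩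

/-- The substitution of the chart at `y`. -/
noncomputable def chartSub (B : MvPolynomial (Fin (n + 1)) ℝ) (y : Fin n → ℝ)
    (Pr : (Fin n → ℝ) →ₗ[ℝ] (Fin n → ℝ)) : MvPolynomial (Fin (n + 1)) ℝ :=
  aeval (Fin.cons (X 0) fun i => C (y i) + ∑ l, C (Pr (Pi.single l 1) i) * X l.succ) B

lemma eval_chartSub (B : MvPolynomial (Fin (n + 1)) ℝ) (y : Fin n → ℝ)
    (Pr : (Fin n → ℝ) →ₗ[ℝ] (Fin n → ℝ)) (ρ : ℝ) (η : Fin n → ℝ) :
    eval (Fin.cons ρ η) (chartSub B y Pr) = eval (Fin.cons ρ (y + Pr η)) B := by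
  induction B using MvPolynomial.induction_on with
  | C a => simp [chartSub]
  | add A B hA hB => simp [chartSub] at *; simp [hA, hB]
  | mul_X A i hA =>
    simp [chartSub] at *
    cases i using Fin.cases <;> simp [hA, ← pull_apply_eq Pr η]

lemma LP_chartSub (B : MvPolynomial (Fin (n + 1)) ℝ) (y : Fin n → ℝ)
    (Pr : (Fin n → ℝ) →ₗ[ℝ] (Fin n → ℝ)) (a : ℝ) (η : Fin n → ℝ) :
    LP (chartSub B y Pr) 0 (Fin.cons a η) = LP B (Fin.cons 0 y) (Fin.cons a (Pr η)) := by
  refine Polynomial.funext fun t => ?_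
  rw [eval_LP, eval_LP,
    show (0 : Fin (n + 1) → ℝ) + t • Fin.cons a η = Fin.cons (t * a) (t • η) by
      funext i; cases i using Fin.cases <;> simp,
    eval_chartSub]
  congr 2
  funext i
  cases i using Fin.cases <;> simp

namespace Point

variable (P : Point p e x0 d m)
include P

/-- The lift around a direction in the interior of the tangent cone. -/
lemma dir_interior (hx : x0 ≠ 0) {y : Fin n → ℝ} (hy : y ∈ oc (part p x0 m) e)
    (hyx : x0 ⬝ᵥ y = 0) :
    ∃ S, Rep S ∧ S ⊆ hypCone p e ∧ ∃ V ∈ 𝓝 y, ∃ r > 0, ∀ y' ∈ V, x0 ⬝ᵥ y' = 0 →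
      ∀ ρ : ℝ, 0 < ρ → ρ < r → x0 + ρ • y' ∈ hypCone p e → x0 + ρ • y' ∈ S := by
  set G : MvPolynomial (Fin (n + 1)) ℝ := C 1 - X 0 - ∑ j : Fin n, X j.succ * X j.succ with hG
  have hLP : ∀ (a : ℝ) (η : Fin n → ℝ), LP G 0 (Fin.cons a η) =
      Polynomial.C 1 - Polynomial.C a * Polynomial.X -
        Polynomial.C (η ⬝ᵥ η) * Polynomial.X ^ 2 := fun a η => by
    have key : ∀ c : ℝ, (Polynomial.C c : Polynomial ℝ) * Polynomial.X *
        (Polynomial.C c * Polynomial.X) = Polynomial.C c * Polynomial.C c * Polynomial.X ^ 2 :=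
      fun c => by ring
    simp only [G, LP_sub, LP_C, LP_X, LP_sum, LP_mul, dotProduct, map_sum, Finset.sum_mul,
      Pi.zero_apply, map_zero, zero_add, Fin.cons_zero, Fin.cons_succ, map_mul, key]
  obtain ⟨r0, hr0, hlift⟩ := chart_lift G (by simp [hLP, Polynomial.coeff_one]) fun η hη => by
    simp only [hLP, map_zero, zero_mul, sub_zero, Polynomial.coeff_sub, Polynomial.coeff_C_mul,
      Polynomial.coeff_X_pow, if_true, Polynomial.coeff_C]
    simpa using dot_self_pos hη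
  set Pr := proj x0 with hPr
  have hcont : Continuous fun z : ℝ × (Fin n → ℝ) => (z.1, y + Pr z.2) :=
    continuous_fst.prodMk (continuous_const.add (Pr.continuous_of_finiteDimensional.comp continuous_snd))
  have hGc : Continuous fun z : ℝ × (Fin n → ℝ) => eval (Fin.cons z.1 z.2) G :=
    (MvPolynomial.continuous_eval G).comp (cons_cont continuous_fst continuous_snd)
  have hev := ((hcont.tendsto' ((0 : ℝ), (0 : Fin n → ℝ)) ((0 : ℝ), y) (by simp)).eventually
    (P.interior_dir hy)).and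
    ((hGc.continuousAt (x := ((0 : ℝ), (0 : Fin n → ℝ)))).eventually_const_lt
      (show (0 : ℝ) < _ by simp [G]))
  obtain ⟨δ, hδ, hball⟩ := Metric.eventually_nhds_iff.1 hev
  set r := min r0 (δ / 2) with hr
  have hr' : 0 < r := lt_min hr0 (half_pos hδ)
  obtain ⟨S, hS, hsound, hcomp⟩ := hlift r hr' (min_le_left _ _) x0 y Pr
  have hin : ∀ ρ (η : Fin n → ℝ), 0 ≤ ρ → ρ ≤ r → (∀ i, |η i| ≤ r) →
      dist (ρ, η) ((0 : ℝ), (0 : Fin n → ℝ)) < δ := fun ρ η h0 h1 h2 => by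
    refine lt_of_le_of_lt ?_ (half_lt_self hδ)
    refine le_trans ?_ (min_le_right r0 (δ / 2))
    rw [Prod.dist_eq, dist_zero_right, dist_zero_right, Real.norm_eq_abs, abs_of_nonneg h0]
    exact max_le h1 ((pi_norm_le_iff_of_nonneg hr'.le).2 h2)
  refine ⟨S, hS, fun x hx' => ?_, {y' | ‖y' - y‖ < r}, ?_, r, hr', fun y' hy' hy0 ρ hρ hρr _ => ?_⟩
  · obtain ⟨l, ρ, η, hl, hρ, hρr, hη, -, rfl⟩ := hsound x hx'
    refine smul_mem_hypCone P.hp P.h hl ?_
    rcases hρ.lt_or_eq with h | h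
    · exact oc_subset P.hp ((hball (hin ρ η hρ hρr hη)).1 h)
    · simpa [← h] using P.hxK
  · exact (isOpen_lt (continuous_id.sub continuous_const).norm continuous_const).mem_nhds
      (show ‖y - y‖ < r by simpa using hr')
  · have hbox : ∀ i, |(y' - y) i| ≤ r := fun i => by
      rw [← Real.norm_eq_abs]; exact (norm_le_pi_norm _ i).trans (le_of_lt hy')
    have := hcomp 1 ρ (y' - y) zero_le_one hρ.le hρr.le hbox
      (hball (hin ρ _ hρ.le hρr.le hbox)).2.le
    rwa [one_smul, hPr, proj_of_dot (by simp [hy0, hyx]), add_sub_cancel] at this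

/-- The lift around a boundary direction of the tangent cone. -/
lemma dir_boundary (hm : 2 ≤ m) (hx : x0 ≠ 0)
    (hstrict : ∀ x ∈ frontier (hypCone p e), ∀ y ∈ frontier (hypCone p e),
      (1 / 2 : ℝ) • (x + y) ∈ frontier (hypCone p e) → ¬ LinearIndependent ℝ ![x, y])
    (hsmooth : ∀ u ∈ frontier (hypCone (part p x0 m) e), (¬ ∃ c : ℝ, u = c • x0) →
      ∃ i, eval u (pderiv i (part p x0 m)) ≠ 0)
    {y : Fin n → ℝ} (hy : y ∈ hypCone (part p x0 m) e) (hyo : y ∉ oc (part p x0 m) e)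
    (hyne : y ≠ 0) (hyx : x0 ⬝ᵥ y = 0) :
    ∃ S, Rep S ∧ S ⊆ hypCone p e ∧ ∃ V ∈ 𝓝 y, ∃ r > 0, ∀ y' ∈ V, x0 ⬝ᵥ y' = 0 →
      ∀ ρ : ℝ, 0 < ρ → ρ < r → x0 + ρ • y' ∈ hypCone p e → x0 + ρ • y' ∈ S := by
  have hqh := part_hom p x0 m
  have hy0 := eval_eq_zero_of_not_oc hqh hy hyo
  have hgy : ∃ i, eval y (pderiv i (part p x0 m)) ≠ 0 := by
    refine hsmooth y (mem_frontier_of hqh P.tangent_hyperbolic hy hy0) ?_
    rintro ⟨c, rfl⟩
    rw [dotProduct_smul, smul_eq_mul, mul_eq_zero] at hyx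
    rcases hyx with rfl | h
    · exact hyne (zero_smul _ _)
    · exact (dot_self_pos hx).ne' h
  set Pr := proj y ∘ₗ proj x0 with hPr
  have hPrx : ∀ η, x0 ⬝ᵥ Pr η = 0 := fun η => by
    rw [hPr, LinearMap.comp_apply, proj_apply, dotProduct_sub, dot_proj hx, dotProduct_smul, hyx]
    simp
  have hPry : ∀ η, y ⬝ᵥ Pr η = 0 := fun η => dot_proj hyne _
  have hPrid : ∀ η, x0 ⬝ᵥ η = 0 → y ⬝ᵥ η = 0 → Pr η = η := fun η h1 h2 => by
    rw [hPr, LinearMap.comp_apply, proj_of_dot h1, proj_of_dot h2]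
  set g := chartSub (blow p x0 m) y Pr with hg
  let lin : (Fin n → ℝ) → MvPolynomial (Fin (n + 1)) ℝ := fun a => ∑ j, C (a j) * X j.succ
  have hlin : ∀ a (c : ℝ) η, LP (lin a) 0 (Fin.cons c η) =
      Polynomial.C (a ⬝ᵥ η) * Polynomial.X := fun a c η => by
    simp [lin, dotProduct, Finset.sum_mul, mul_assoc]
  have hg0 : eval (Fin.cons 0 y) (blow p x0 m) = 0 := by rw [eval_blow_zero P.low, hy0]
  have hgη : ∀ η, LP (blow p x0 m) (Fin.cons 0 y) (Fin.cons 0 (Pr η)) =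
      LP (part p x0 m) y (Pr η) := fun η => Polynomial.funext fun t => by
    rw [line_eval, eval_LP, eval_blow_zero P.low]
  let A : (Fin n → ℝ) → ℝ := fun η =>
    bh (part p x0 m) y (Pr η) (Pr η) / 2 - ((x0 ⬝ᵥ η) ^ 2 + (y ⬝ᵥ η) ^ 2)
  let B : (Fin n → ℝ) → ℝ := fun η => eval y (Dv (Pr η) (part p x0 m)) ^ 2
  have hAc : Continuous A := by
    have : Continuous fun η => Pr η := Pr.continuous_of_finiteDimensional
    refine (((this.dotProduct (continuous_const.matrix_mulVec this)).div_const 2)).sub ?_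
    exact ((continuous_const.dotProduct continuous_id).pow 2).add
      ((continuous_const.dotProduct continuous_id).pow 2)
  have hBc : Continuous B := by
    have : B = fun η => (Pr η ⬝ᵥ fun i => eval y (pderiv i (part p x0 m))) ^ 2 := by
      funext η; simp only [B, dv_eq_grad]
    rw [this]
    exact (Pr.continuous_of_finiteDimensional.dotProduct continuous_const).pow 2
  obtain ⟨b, hb⟩ := exists_large (isCompact_sphere (0 : Fin n → ℝ) 1) hAc hBc
    (fun η => sq_nonneg _) (fun η hη hB => by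
      have hη0 : η ≠ 0 := fun h => by simp [h] at hη
      rcases eq_or_ne (Pr η) 0 with h | h
      · have h2 : (x0 ⬝ᵥ η) ^ 2 + (y ⬝ᵥ η) ^ 2 ≠ 0 := fun h2 => by
          obtain ⟨a, c⟩ := (add_eq_zero_iff_of_nonneg (sq_nonneg _) (sq_nonneg _)).1 h2
          exact hη0 (by rw [← hPrid η (sq_eq_zero_iff.1 a) (sq_eq_zero_iff.1 c), h])
        simp only [A, h, bh, zero_dotProduct, zero_div, zero_sub, neg_neg_iff_pos]
        exact lt_of_le_of_ne (add_nonneg (sq_nonneg _) (sq_nonneg _)) h2.symm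
      · have := P.curvature_dir hy hy0 hm hx hsmooth hyne hyx h (hPrx η) (hPry η)
          (sq_eq_zero_iff.1 hB)
        simp only [A]
        linarith [sq_nonneg (x0 ⬝ᵥ η), sq_nonneg (y ⬝ᵥ η)])
  set G := g - C (b : ℝ) * (g * g) - (lin x0 * lin x0 + lin y * lin y) with hG
  obtain ⟨r0, hr0, hlift⟩ := chart_lift G (by
      have hq : ∀ a : ℝ, ((Polynomial.C a : Polynomial ℝ) * Polynomial.X *
          (Polynomial.C a * Polynomial.X)).coeff 1 = 0 := fun a => by
        rw [show (Polynomial.C a : Polynomial ℝ) * Polynomial.X * (Polynomial.C a * Polynomial.X)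
          = Polynomial.C (a * a) * Polynomial.X ^ 2 by rw [map_mul]; ring,
          Polynomial.coeff_C_mul, Polynomial.coeff_X_pow, if_neg (by omega), mul_zero]
      have hz : (LP g 0 (Fin.cons 1 0)).coeff 0 = 0 := by
        rw [hg, LP_chartSub, coeff_zero_LP, hg0]
      simp only [G, LP_sub, LP_add, LP_mul, LP_C, hlin, Polynomial.coeff_sub, Polynomial.coeff_add,
        Polynomial.coeff_C_mul, hq]
      simp only [Polynomial.mul_coeff_one, hz, zero_mul, mul_zero, add_zero, sub_zero]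
      rw [hg, LP_chartSub, map_zero]
      exact P.radial_neg hy hy0 hgy (by omega) hx hstrict hyne hyx)
    (fun η hη => by
      have e : ∀ ν : Fin n → ℝ, (LP G 0 (Fin.cons 0 ν)).coeff 2 = A ν - b * B ν := fun ν => by
        have hq : ∀ a : ℝ, ((Polynomial.C a : Polynomial ℝ) * Polynomial.X *
            (Polynomial.C a * Polynomial.X)).coeff 2 = a ^ 2 := fun a => by
          rw [show (Polynomial.C a : Polynomial ℝ) * Polynomial.X * (Polynomial.C a * Polynomial.X)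
            = Polynomial.C (a * a) * Polynomial.X ^ 2 by rw [map_mul]; ring,
            Polynomial.coeff_C_mul, Polynomial.coeff_X_pow, if_pos rfl, mul_one, sq]
        simp only [G, LP_sub, LP_add, LP_mul, LP_C, hlin, Polynomial.coeff_sub,
          Polynomial.coeff_add, Polynomial.coeff_C_mul, hq, hg, LP_chartSub, hgη, A, B]
        have h2 := coeff_two_LP (part p x0 m) y (Pr ν)
        rw [bh_eq] at h2
        rw [Polynomial.coeff_mul, Finset.Nat.sum_antidiagonal_eq_sum_range_succ_mk]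
        simp [Finset.sum_range_succ, coeff_zero_LP, hy0, coeff_one_LP, sq]
        linarith
      have hn : 0 < ‖η‖ := norm_pos_iff.2 hη
      have h1 := hb (‖η‖⁻¹ • η) (by simp [norm_smul, hn.ne'])
      rw [← e] at h1
      have e2 : (Fin.cons 0 (‖η‖⁻¹ • η) : Fin (n + 1) → ℝ) = ‖η‖⁻¹ • Fin.cons 0 η := by
        funext i; cases i using Fin.cases <;> simp
      rw [e2, coeff_two_smul] at h1
      by_contra hge
      exact absurd h1 (not_lt.2 (mul_nonneg (sq_nonneg _) (not_lt.1 hge))))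
  have hPc : Continuous fun η => Pr η := Pr.continuous_of_finiteDimensional
  have hcont : Continuous fun z : ℝ × (Fin n → ℝ) => (z.1, y + Pr z.2) :=
    continuous_fst.prodMk (continuous_const.add (hPc.comp continuous_snd))
  have hgc : Continuous fun z : ℝ × (Fin n → ℝ) => (b : ℝ) * eval (Fin.cons z.1 z.2) g :=
    continuous_const.mul
      ((MvPolynomial.continuous_eval g).comp (cons_cont continuous_fst continuous_snd))
  have hev := ((hcont.tendsto' ((0 : ℝ), (0 : Fin n → ℝ)) ((0 : ℝ), y) (by simp)).eventually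
    (P.near_iff hy hy0 hgy)).and
    ((hgc.continuousAt (x := ((0 : ℝ), (0 : Fin n → ℝ)))).eventually_lt_const
      (show _ < (1 : ℝ) by simp [hg, eval_chartSub, hg0]))
  obtain ⟨δ, hδ, hball⟩ := Metric.eventually_nhds_iff.1 hev
  set r := min r0 (δ / 2) with hr
  have hr' : 0 < r := lt_min hr0 (half_pos hδ)
  obtain ⟨S, hS, hsound, hcomp⟩ := hlift r hr' (min_le_left _ _) x0 y Pr
  have hin : ∀ ρ (η : Fin n → ℝ), 0 ≤ ρ → ρ ≤ r → (∀ i, |η i| ≤ r) →
      dist (ρ, η) ((0 : ℝ), (0 : Fin n → ℝ)) < δ := fun ρ η h0 h1 h2 => by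
    refine lt_of_le_of_lt ?_ (half_lt_self hδ)
    refine le_trans ?_ (min_le_right r0 (δ / 2))
    rw [Prod.dist_eq, dist_zero_right, dist_zero_right, Real.norm_eq_abs, abs_of_nonneg h0]
    exact max_le h1 ((pi_norm_le_iff_of_nonneg hr'.le).2 h2)
  have hGe : ∀ ρ η, eval (Fin.cons ρ η) G = eval (Fin.cons ρ (y + Pr η)) (blow p x0 m) -
      b * eval (Fin.cons ρ (y + Pr η)) (blow p x0 m) ^ 2 - ((x0 ⬝ᵥ η) ^ 2 + (y ⬝ᵥ η) ^ 2) :=
    fun ρ η => by simp [G, hg, eval_chartSub, lin, dotProduct, sq]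
  set c : (Fin n → ℝ) → ℝ := fun y' => (y ⬝ᵥ y') / (y ⬝ᵥ y) with hc
  have hcc : Continuous c := (continuous_const.dotProduct continuous_id).div_const _
  have hcy : c y = 1 := div_self (dot_self_pos hyne).ne'
  refine ⟨S, hS, fun x hx' => ?_, {y' | 0 < c y' ∧ c y' < 2 ∧ ‖y' - c y' • y‖ < r * c y'}, ?_,
    r / 2, half_pos hr', fun y' hy' hy0' ρ hρ hρr hK => ?_⟩
  · obtain ⟨l, ρ, η, hl, hρ, hρr, hη, hG', rfl⟩ := hsound x hx'
    refine smul_mem_hypCone P.hp P.h hl ?_
    rcases hρ.lt_or_eq with h | h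
    · refine ((hball (hin ρ η hρ hρr hη)).1 h).2 ?_
      have h1 := hG'.resolve_left h.ne'
      rw [hGe] at h1
      have := mul_nonneg (Nat.cast_nonneg (α := ℝ) b)
        (sq_nonneg (eval (Fin.cons ρ (y + Pr η)) (blow p x0 m)))
      linarith [sq_nonneg (x0 ⬝ᵥ η), sq_nonneg (y ⬝ᵥ η)]
    · simpa [← h] using P.hxK
  · refine IsOpen.mem_nhds ?_ ⟨by rw [hcy]; norm_num, by rw [hcy]; norm_num, by simp [hcy, hr']⟩
    exact (isOpen_lt continuous_const hcc).inter ((isOpen_lt hcc continuous_const).inter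
      (isOpen_lt (continuous_id.sub (hcc.smul continuous_const)).norm (continuous_const.mul hcc)))
  · obtain ⟨hc0, hc2, hcn⟩ := hy'
    set η := (c y')⁻¹ • (y' - c y' • y) with hη
    have hηx : x0 ⬝ᵥ η = 0 := by simp [η, hy0', hyx]
    have hηy : y ⬝ᵥ η = 0 := by
      simp only [η, c, dotProduct_smul, dotProduct_sub, smul_eq_mul]
      rw [div_mul_cancel₀ _ (dot_self_pos hyne).ne', sub_self, mul_zero]
    have hbox : ∀ i, |η i| ≤ r := fun i => by
      rw [← Real.norm_eq_abs]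
      refine (norm_le_pi_norm _ i).trans ?_
      rw [hη, norm_smul, norm_inv, Real.norm_eq_abs, abs_of_pos hc0, inv_mul_le_iff₀ hc0, mul_comm]
      exact hcn.le
    have hρ' : ρ * c y' ≤ r := by
      have := mul_le_mul hρr.le hc2.le hc0.le (half_pos hr').le
      linarith
    have epoint : x0 + ρ • y' = x0 + (ρ * c y') • (y + η) := by
      rw [hη, smul_add, smul_smul, mul_assoc, mul_inv_cancel₀ hc0.ne', mul_one, smul_sub, smul_smul]
      abel
    obtain ⟨hiff, hsmall⟩ := hball (hin _ η (mul_nonneg hρ.le hc0.le) hρ' hbox)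
    have hPη : Pr η = η := hPrid η hηx hηy
    rw [epoint] at hK ⊢
    simp only [hPη] at hiff hsmall
    have h0 := (hiff (mul_pos hρ hc0)).1 hK
    have := hcomp 1 (ρ * c y') η zero_le_one (mul_nonneg hρ.le hc0.le) hρ' hbox (by
      rw [hGe, hPη, hηx, hηy]
      rw [hg, eval_chartSub, hPη] at hsmall
      have := mul_le_mul_of_nonneg_right hsmall.le h0
      simp only [sq, one_mul, mul_zero, add_zero, sub_zero] at this ⊢
      linarith [mul_assoc (b : ℝ) (eval (Fin.cons (ρ * c y') (y + η)) (blow p x0 m))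
        (eval (Fin.cons (ρ * c y') (y + η)) (blow p x0 m))])
    rwa [one_smul, hPη] at this

/-- The lift at an ordinary singular point. -/
theorem piece (hm : 2 ≤ m) (hx : x0 ≠ 0)
    (hstrict : ∀ x ∈ frontier (hypCone p e), ∀ y ∈ frontier (hypCone p e),
      (1 / 2 : ℝ) • (x + y) ∈ frontier (hypCone p e) → ¬ LinearIndependent ℝ ![x, y])
    (hsmooth : ∀ u ∈ frontier (hypCone (part p x0 m) e), (¬ ∃ c : ℝ, u = c • x0) →
      ∃ i, eval u (pderiv i (part p x0 m)) ≠ 0) :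
    ∃ S, Rep S ∧ S ⊆ hypCone p e ∧ ∃ U, IsOpen U ∧ x0 ∈ U ∧ hypCone p e ∩ U ⊆ S := by
  classical
  set A := Metric.sphere (0 : Fin n → ℝ) 1 ∩ {y | x0 ⬝ᵥ y = 0} with hA
  have hAc : IsCompact A := (isCompact_sphere _ _).inter_right
    (isClosed_eq (continuous_const.dotProduct continuous_id) continuous_const)
  have hloc : ∀ y : A, ∃ S, Rep S ∧ S ⊆ hypCone p e ∧ ∃ V ∈ 𝓝 (y : Fin n → ℝ), ∃ r > 0,
      ∀ y' ∈ V, x0 ⬝ᵥ y' = 0 →
        ∀ ρ : ℝ, 0 < ρ → ρ < r → x0 + ρ • y' ∈ hypCone p e → x0 + ρ • y' ∈ S := by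
    rintro ⟨y, hy1, hy2⟩
    have hyne : y ≠ 0 := fun h => by simp [h] at hy1
    rcases Classical.em (y ∈ hypCone (part p x0 m) e) with hy | hy
    · rcases Classical.em (y ∈ oc (part p x0 m) e) with hyo | hyo
      · exact P.dir_interior hx hyo hy2
      · exact P.dir_boundary hm hx hstrict hsmooth hy hyo hyne hy2
    · obtain ⟨δ, hδ, hball⟩ := Metric.eventually_nhds_iff.1 (P.outside_dir hy)
      refine ⟨{0}, Rep.zero, ?_, Metric.ball y δ, Metric.ball_mem_nhds y hδ, δ, hδ,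
        fun y' hy' _ ρ hρ hρr hK => absurd hK (@hball (ρ, y') ?_ hρ)⟩
      · simpa using smul_mem_hypCone P.hp P.h le_rfl P.hxK
      · rw [Prod.dist_eq, dist_zero_right, Real.norm_eq_abs, abs_of_pos hρ]
        exact max_lt hρr hy'
  choose S hS hSK V hV r hr hVS using hloc
  obtain ⟨t, ht⟩ := hAc.elim_finite_subcover (fun y : A => interior (V y))
    (fun _ => isOpen_interior) fun y hy =>
      Set.mem_iUnion.2 ⟨⟨y, hy⟩, mem_interior_iff_mem_nhds.2 (hV ⟨y, hy⟩)⟩
  obtain ⟨ρ0, hρt, hρ0⟩ := ((t.eventually_all.2 fun y _ =>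
    nhdsWithin_le_nhds (Iio_mem_nhds (hr y)) : ∀ᶠ ρ in 𝓝[>] (0 : ℝ), ∀ y ∈ t, ρ < r y).and
      ev_pos).exists
  obtain ⟨R, hR, hRK, -, hRs⟩ := sum_reps P.hp P.h
    (fun o : Option A => o.elim {x | ∃ c : ℝ, 0 ≤ c ∧ x = c • x0} S)
    (fun o => by cases o with
      | none => exact Rep.ray x0
      | some y => exact hS y)
    (fun o => by cases o with
      | none => rintro _ ⟨c, hc, rfl⟩; exact smul_mem_hypCone P.hp P.h hc P.hxK
      | some y => exact hSK y)
    (Finset.insertNone t)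
  set L : (Fin n → ℝ) → ℝ := fun x => (x0 ⬝ᵥ x0)⁻¹ * (x0 ⬝ᵥ x) with hL
  have hLc : Continuous L := continuous_const.mul (continuous_const.dotProduct continuous_id)
  refine ⟨R, hR, hRK, {x | 0 < L x ∧ ‖proj x0 x‖ < L x * ρ0},
    (isOpen_lt continuous_const hLc).inter
      (isOpen_lt (proj x0).continuous_of_finiteDimensional.norm (hLc.mul continuous_const)),
    ?_, ?_⟩
  · have : L x0 = 1 := inv_mul_cancel₀ (dot_self_pos hx).ne'
    exact ⟨by rw [this]; exact one_pos, by simp [this, proj_apply, (dot_self_pos hx).ne', hρ0]⟩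
  · rintro x ⟨hxK, hl, hn⟩
    set w := proj x0 x with hw
    have hxe : x = L x • x0 + w := by simp [hw, proj_apply, L]
    rcases eq_or_ne w 0 with h0 | h0
    · exact hRs none (by simp) ⟨L x, hl.le, by simpa [h0] using hxe⟩
    · have hwn : 0 < ‖w‖ := norm_pos_iff.2 h0
      have hmem : ‖w‖⁻¹ • w ∈ A := by
        refine ⟨by simp [norm_smul, hwn.ne'], ?_⟩
        show x0 ⬝ᵥ _ = 0
        rw [dotProduct_smul, hw, dot_proj hx, smul_zero]
      obtain ⟨y, hyt, hyV⟩ := Set.mem_iUnion₂.1 (ht hmem)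
      have hpt : x0 + (‖w‖ / L x) • ‖w‖⁻¹ • w = (L x)⁻¹ • x := by
        rw [smul_smul, div_mul_eq_mul_div, mul_inv_cancel₀ hwn.ne', one_div]
        calc x0 + (L x)⁻¹ • w = (L x)⁻¹ • (L x • x0 + w) := by
              rw [smul_add, inv_smul_smul₀ hl.ne']
          _ = _ := congrArg ((L x)⁻¹ • ·) hxe.symm
      have hK' : (L x)⁻¹ • x ∈ hypCone p e := smul_mem_hypCone P.hp P.h (inv_pos.2 hl).le hxK
      have hlt : ‖w‖ / L x < r y := by
        refine lt_trans ?_ (hρt y hyt)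
        rwa [div_lt_iff₀ hl, mul_comm]
      have hS' := hVS y _ (interior_subset hyV) hmem.2 _ (div_pos hwn hl) hlt (hpt ▸ hK')
      rw [hpt] at hS'
      have := (hS y).smul_mem hl.le hS'
      rw [smul_inv_smul₀ hl.ne'] at this
      exact hRs (some y) (by simpa using hyt) this

end Point

end Vale.Agent.P256.Shadow
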