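import Vale.Agent.P256.Shadow.Basic

/-!
Smooth boundary points: the curvature is strictly negative (real-rootedness of the lines through
nearby interior points plus strict convexity), and hence there is a local lift.
-/

namespace Vale.Agent.P256.Shadow

open MvPolynomial Matrix Filter
open scoped Topology

variable {n d : ℕ} {p : MvPolynomial (Fin n) ℝ} {e x0 : Fin n → ℝ}

/-- If the first two normalised coefficients on the lines through `x0 + t e` stay bounded, the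
line `x0 + s u` consists of zeros of `q` and is a limit of positive values near `s = 0`. -/
lemma bounded_lines {q : MvPolynomial (Fin n) ℝ} {d' : ℕ} (hq : q.IsHomogeneous d')
    {u : Fin n → ℝ} (hrr : ∀ᶠ t in 𝓝[>] (0 : ℝ), (LP q (x0 + t • e) u).Splits)
    {R0 R1 R2 : ℝ → ℝ} (h0 : Continuous R0) (h1 : Continuous R1) (h2 : Continuous R2)
    (hR0 : 0 < R0 0) (e0 : ∀ t, (LP q (x0 + t • e) u).coeff 0 = t * R0 t)
    (e1 : ∀ t, (LP q (x0 + t • e) u).coeff 1 = t * R1 t)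
    (e2 : ∀ t, (LP q (x0 + t • e) u).coeff 2 = t * R2 t) :
    (∀ s : ℝ, eval (x0 + s • u) q = 0) ∧
      ∃ ρ > 0, ∀ᶠ t in 𝓝[>] (0 : ℝ), ∀ s : ℝ, |s| < ρ → 0 < eval (x0 + t • e + s • u) q := by
  set B := (|R1 0| + |R2 0|) / R0 0 + 1 with hB
  have hB0 : 0 < B := by positivity
  have hlt : |R1 0| < B * R0 0 ∧ |R2 0| < B * R0 0 := by
    have e1 : B * R0 0 = |R1 0| + |R2 0| + R0 0 := by rw [hB]; field_simp
    constructor <;> rw [e1] <;> linarith [abs_nonneg (R1 0), abs_nonneg (R2 0)]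
  have hev : ∀ᶠ t in 𝓝[>] (0 : ℝ), ∀ s : ℝ,
      |eval (x0 + t • e + s • u) q| ≤ t * R0 t * (1 + (B + 1) * |s|) ^ d' ∧
      ((B + 1) * |s| < 1 → 0 < eval (x0 + t • e + s • u) q) := by
    filter_upwards [hrr, ev_pos, ev_of_lt h1.abs (continuous_const.mul h0) hlt.1,
      ev_of_lt h2.abs (continuous_const.mul h0) hlt.2] with t hs ht hb1 hb2 s
    have hpos : 0 < R0 t := by
      have : 0 < B * R0 t := lt_of_le_of_lt (abs_nonneg _) hb1
      exact (pos_iff_pos_of_mul_pos this).1 hB0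
    have := near_const hs (B := B) (d := d') (by rw [e0]; positivity) hB0.le
      (by rw [e1, e0, abs_mul, abs_of_pos ht]
          calc t * |R1 t| ≤ t * (B * R0 t) := mul_le_mul_of_nonneg_left hb1.le ht.le
            _ = B * (t * R0 t) := by ring)
      (by rw [e2, e0, abs_mul, abs_of_pos ht]
          calc t * |R2 t| ≤ t * (B * R0 t) := mul_le_mul_of_nonneg_left hb2.le ht.le
            _ = B * (t * R0 t) := by ring)
      (natDegree_LP_le hq _ _).1 s
    rwa [eval_LP, e0] at this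
  refine ⟨fun s => ?_, 1 / (B + 1), by positivity, ?_⟩
  · have hc : Continuous fun t : ℝ => |eval (x0 + t • e + s • u) q| :=
      ((MvPolynomial.continuous_eval q).comp (by fun_prop)).abs
    have := lim_nonneg (f := fun t => t * R0 t * (1 + (B + 1) * |s|) ^ d' -
      |eval (x0 + t • e + s • u) q|) (by fun_prop) (hev.mono fun t ht => by linarith [(ht s).1])
    simp only [zero_mul, zero_smul, add_zero, zero_sub, Left.nonneg_neg_iff] at this
    exact abs_eq_zero.1 (le_antisymm this (abs_nonneg _))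
  · refine hev.mono fun t ht s hs => (ht s).2 ?_
    rw [lt_div_iff₀ (by positivity)] at hs
    linarith

variable (hp : p.IsHomogeneous d) (h : Hyperbolic p e)
  (hstrict : ∀ x ∈ frontier (hypCone p e), ∀ y ∈ frontier (hypCone p e),
    (1 / 2 : ℝ) • (x + y) ∈ frontier (hypCone p e) → ¬ LinearIndependent ℝ ![x, y])
  (hx : x0 ≠ 0) (hxK : x0 ∈ hypCone p e) (hp0 : eval x0 p = 0)

include hp h hxK hp0 in
lemma grad_pos (hg : ∃ i, eval x0 (pderiv i p) ≠ 0) : 0 < eval x0 (Dv e p) := by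
  have hnn : ∀ w ∈ oc p e, 0 ≤ eval x0 (Dv w p) := by
    intro w hw
    obtain ⟨R, hR, hR0, hRe⟩ := exp_one p x0 w
    rw [← hR0]
    refine lim_nonneg hR (ev_pos.mono fun t ht => ?_)
    have h1 := eval_pos h hp (add_mem_oc' hp h hxK (smul_mem_oc hp h ht hw))
    rw [hRe, hp0, zero_add] at h1
    exact ((pos_iff_pos_of_mul_pos h1).1 ht).le
  refine (hnn e (e_mem_oc hp h)).lt_of_ne fun h0 => ?_
  set g : Fin n → ℝ := fun i => eval x0 (pderiv i p) with hgd
  have hg0 : g ≠ 0 := fun hh => by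
    obtain ⟨i, hi⟩ := hg
    exact hi (congrFun hh i)
  have hc : Continuous fun t : ℝ => e - t • g := by fun_prop
  obtain ⟨t, ht, hte⟩ := (ev_pos.and (nhdsWithin_le_nhds
    (((isOpen_oc hp h).preimage hc).mem_nhds
      (show (0 : ℝ) ∈ _ by simpa using e_mem_oc hp h)))).exists
  have := hnn _ hte
  rw [dv_eq_grad, sub_dotProduct, smul_dotProduct, smul_eq_mul] at this
  rw [dv_eq_grad] at h0
  linarith [mul_pos ht (dot_self_pos hg0)]

include hp h hxK hp0 in
lemma hess_nonpos (hg : ∃ i, eval x0 (pderiv i p) ≠ 0) {u : Fin n → ℝ}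
    (hu1 : eval x0 (Dv u p) = 0) : bh p x0 u u ≤ 0 := by
  obtain ⟨R0, hR0c, hR0, hR0e⟩ := exp_one p x0 e
  obtain ⟨R1, hR1c, -, hR1e⟩ := exp_one (Dv u p) x0 e
  obtain ⟨R2, hR2c, -, hR2e⟩ := exp_one (Dv u (Dv u p)) x0 e
  have hcpos : 0 < R0 0 := hR0 ▸ grad_pos hp h hxK hp0 hg
  have hoc : ∀ t : ℝ, 0 < t → x0 + t • e ∈ oc p e := fun t ht => (mem_hypCone_iff hp).1 hxK t ht
  have hrr : ∀ᶠ t in 𝓝[>] (0 : ℝ), (LP p (x0 + t • e) u).Splits :=
    ev_pos.mono fun t ht => (rr_LP hp h (hoc t ht) u).splits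
  have c0 : ∀ t, (LP p (x0 + t • e) u).coeff 0 = t * R0 t := fun t => by
    rw [coeff_zero_LP, hR0e, hp0, zero_add]
  have c1 : ∀ t, (LP p (x0 + t • e) u).coeff 1 = t * R1 t := fun t => by
    rw [coeff_one_LP, hR1e, hu1, zero_add]
  have c2 : ∀ t, 2 * (LP p (x0 + t • e) u).coeff 2 = bh p x0 u u + t * R2 t := fun t => by
    rw [coeff_two_LP, hR2e, bh_eq]
  have hle : bh p x0 u u ≤ 0 := by
    have hl : 0 ≤ (fun t => t * R1 t ^ 2 - R0 t * (bh p x0 u u + t * R2 t)) 0 := by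
      refine lim_nonneg (f := fun t => t * R1 t ^ 2 - R0 t * (bh p x0 u u + t * R2 t)) (by fun_prop) ?_
      filter_upwards [hrr, ev_pos, ev_of_lt continuous_const hR0c hcpos] with t hs ht hR
      rcases newton hs with hn | hn
      · rw [c1, c0] at hn
        refine le_of_mul_le_mul_left ?_ ht
        rw [mul_zero, ← c2 t]
        exact hn.trans_eq (by ring)
      · exact absurd hn (by rw [c0]; positivity)
    simp only [zero_mul, zero_sub, add_zero] at hl
    by_contra hpos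
    linarith [mul_pos hcpos (not_le.1 hpos)]
  exact hle

include hp h hxK hp0 in
/-- At a smooth boundary point a null direction spans a boundary segment. -/
lemma null_line (hg : ∃ i, eval x0 (pderiv i p) ≠ 0) {u : Fin n → ℝ}
    (hu1 : eval x0 (Dv u p) = 0) (hB : bh p x0 u u = 0) :
    (∀ s : ℝ, eval (x0 + s • u) p = 0) ∧
      ∃ ρ > 0, ∀ s : ℝ, |s| < ρ → x0 + s • u ∈ hypCone p e := by
  obtain ⟨R0, hR0c, hR0, hR0e⟩ := exp_one p x0 e
  obtain ⟨R1, hR1c, -, hR1e⟩ := exp_one (Dv u p) x0 e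
  obtain ⟨R2, hR2c, -, hR2e⟩ := exp_one (Dv u (Dv u p)) x0 e
  have hcpos : 0 < R0 0 := hR0 ▸ grad_pos hp h hxK hp0 hg
  have hoc : ∀ t : ℝ, 0 < t → x0 + t • e ∈ oc p e := fun t ht => (mem_hypCone_iff hp).1 hxK t ht
  have hrr : ∀ᶠ t in 𝓝[>] (0 : ℝ), (LP p (x0 + t • e) u).Splits :=
    ev_pos.mono fun t ht => (rr_LP hp h (hoc t ht) u).splits
  have c0 : ∀ t, (LP p (x0 + t • e) u).coeff 0 = t * R0 t := fun t => by
    rw [coeff_zero_LP, hR0e, hp0, zero_add]
  have c1 : ∀ t, (LP p (x0 + t • e) u).coeff 1 = t * R1 t := fun t => by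
    rw [coeff_one_LP, hR1e, hu1, zero_add]
  have c2 : ∀ t, 2 * (LP p (x0 + t • e) u).coeff 2 = bh p x0 u u + t * R2 t := fun t => by
    rw [coeff_two_LP, hR2e, bh_eq]
  obtain ⟨hline, ρ, hρ, hpos⟩ := bounded_lines hp hrr hR0c hR1c
    (show Continuous fun t => R2 t / 2 by fun_prop) hcpos c0 c1 (fun t => by
      have := c2 t
      rw [hB, zero_add] at this
      linarith)
  refine ⟨hline, ρ, hρ, fun s hs => (isClosed_hypCone hp h).mem_of_tendsto (b := 𝓝[>] (0 : ℝ))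
    (f := fun t : ℝ => x0 + t • e + s • u) ?_ ?_⟩
  · have hc : Continuous fun t : ℝ => x0 + t • e + s • u := by fun_prop
    exact (hc.tendsto' 0 _ (by simp)).mono_left nhdsWithin_le_nhds
  · filter_upwards [hpos, ev_pos] with t ht ht'
    refine oc_subset hp (seg_mem_oc hp h (hoc t ht') fun r hr => ?_)
    rw [add_sub_cancel_left, smul_smul]
    refine (ht _ ?_).ne'
    rw [abs_mul, abs_of_nonneg hr.1]
    exact lt_of_le_of_lt (mul_le_of_le_one_left (abs_nonneg s) hr.2) hs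

include hp h hstrict hx hxK hp0 in
lemma curvature (hg : ∃ i, eval x0 (pderiv i p) ≠ 0) {u : Fin n → ℝ} (hu0 : u ≠ 0)
    (hu : x0 ⬝ᵥ u = 0) (hu1 : eval x0 (Dv u p) = 0) : bh p x0 u u < 0 := by
  refine (hess_nonpos hp h hxK hp0 hg hu1).lt_of_ne fun hB => ?_
  obtain ⟨hline, ρ, hρ, hK⟩ := null_line hp h hxK hp0 hg hu1 hB
  refine no_segment hp h hstrict hx (mem_frontier_of hp h hxK hp0) hu0 hu ?_
  filter_upwards [ev_pos, nhdsWithin_le_nhds (Iio_mem_nhds hρ)] with s hs hs'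
  exact ⟨hK s (by rw [abs_of_pos hs]; exact hs'), hline s⟩

include hp h hstrict hx hxK hp0 in
theorem piece_smooth (hg : ∃ i, eval x0 (pderiv i p) ≠ 0) :
    ∃ S, Rep S ∧ S ⊆ hypCone p e ∧ ∃ U, IsOpen U ∧ x0 ∈ U ∧ hypCone p e ∩ U ⊆ S := by
  let G : Fin 1 → Fin 1 → MvPolynomial (Fin n) ℝ := fun _ _ => sh p x0
  have hq : ∀ v, quad G v = C (v 0 * v 0) * sh p x0 := fun v => by simp [quad, G]
  have hne : ∀ v : Fin 1 → ℝ, v ≠ 0 → 0 < v 0 * v 0 := fun v hv => by
    refine mul_self_pos.2 fun h0 => hv (funext fun i => ?_)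
    rw [Subsingleton.elim i 0]; exact h0
  obtain ⟨G', hG's, hG'n, ⟨δ, hδ, hG'p⟩, hG'le⟩ := squash x0 G (fun _ _ => rfl)
    (fun _ _ => by simp only [G, eval_sh, add_zero, hp0]) (fun u v hu hu0 hv0 hrow => by
      have h0 := hrow 0
      simp only [G, Fin.sum_univ_one, LP_mul, LP_C, Polynomial.coeff_C_mul, LP_sh,
        coeff_one_LP] at h0
      have hu1 : eval x0 (Dv u p) = 0 :=
        (mul_eq_zero.1 h0).resolve_left fun hh => (hne v hv0).ne' (by rw [hh, zero_mul])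
      rw [hq, LP_mul, LP_C, Polynomial.coeff_C_mul, LP_sh]
      have := curvature hp h hstrict hx hxK hp0 hg hu0 hu hu1
      rw [← bh_eq, ← coeff_two_LP] at this
      exact mul_neg_of_pos_of_neg (hne v hv0) (by linarith))
  refine local_piece hp h hx hxK G' hG's hG'n hδ (fun w _ hwn hwK v => ?_) (fun w _ _ hpos => ?_)
  · refine hG'p w hwn (fun v => ?_) v
    rw [hq, map_mul, eval_C, eval_sh]
    exact mul_nonneg (mul_self_nonneg _) (eval_nonneg h hp hwK)
  · have h1 := lt_of_lt_of_le (hpos (fun _ => 1) fun hh => one_ne_zero (congrFun hh 0))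
      (hG'le w _)
    rw [hq, map_mul, eval_C, eval_sh, one_mul, one_mul] at h1
    exact h1.ne'

end Vale.Agent.P256.Shadow
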